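import Vale.Agent.P028.EV.Trim

/-!
P028, inhomogeneous Erdős–Vaaler: the types of integers, their rarity, and divisor sums of
integers with light prime tails.
-/

namespace Vale.Agent.P028.EV

open Finset Real

lemma r4_one_le {U : ℕ} (h : 1 ≤ U) : 1 ≤ r4 U :=
  Real.one_le_sqrt.2 (Real.one_le_sqrt.2 (by exact_mod_cast h))

lemma r4_sq (U : ℕ) : r4 U ^ 2 = √(U : ℝ) := Real.sq_sqrt (Real.sqrt_nonneg _)

lemma r4_eq_rpow (U : ℕ) : r4 U = (U : ℝ) ^ (1 / 4 : ℝ) := by
  rw [r4, Real.sqrt_eq_rpow, Real.sqrt_eq_rpow, ← Real.rpow_mul (Nat.cast_nonneg U)]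
  norm_num

lemma sTail_nonneg (U n : ℕ) : 0 ≤ sTail U n :=
  Finset.sum_nonneg fun p _ => div_nonneg (Real.log_natCast_nonneg p) (Nat.cast_nonneg p)

lemma sTail_mul_le {U a b : ℕ} (ha : a ≠ 0) (hb : b ≠ 0) :
    sTail U (a * b) ≤ sTail U a + sTail U b := by
  rw [sTail, sTail, sTail, Nat.primeFactors_mul ha hb, Finset.filter_union,
    ← Finset.sum_union_inter]
  exact le_add_of_nonneg_right
    (Finset.sum_nonneg fun p _ => div_nonneg (Real.log_natCast_nonneg p) (Nat.cast_nonneg p))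

open Classical in
lemma one_le_ty (n : ℕ) : 1 ≤ ty n := (Nat.find_spec (exists_light n)).1

open Classical in
lemma light_ty (n : ℕ) : Light 1 (ty n) n := (Nat.find_spec (exists_light n)).2

open Classical in
lemma ty_le {n : ℕ} (hn : n ≠ 0) : ty n ≤ n :=
  Nat.find_min' (exists_light n) ⟨Nat.one_le_iff_ne_zero.2 hn, fun U hU => by
    rw [sTail_eq_zero hU]; exact div_nonneg zero_le_one (Real.sqrt_nonneg _)⟩

lemma light_mul {a b T : ℕ} (ha : a ≠ 0) (hb : b ≠ 0) (hta : ty a ≤ T) (htb : ty b ≤ T) :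
    Light 2 T (a * b) := fun U hU => by
  have h1 := light_ty a U (hta.trans hU)
  have h2 := light_ty b U (htb.trans hU)
  have h3 := sTail_mul_le (U := U) ha hb
  rw [show (2 : ℝ) / r4 U = 1 / r4 U + 1 / r4 U by ring]
  linarith

/-! ### Sums over multiples -/

lemma sum_divisors_dvd_le {n m : ℕ} (hm : 0 < m) {f : ℕ → ℝ} (hf : ∀ d, 0 ≤ f d) :
    ∑ d ∈ n.divisors.filter (fun d => m ∣ d), f d ≤ ∑ e ∈ n.divisors, f (m * e) := by
  rw [← Finset.sum_image (f := f) fun x _ y _ h => Nat.eq_of_mul_eq_mul_left hm h]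
  refine Finset.sum_le_sum_of_subset_of_nonneg (fun d hd => ?_) fun d _ _ => hf d
  obtain ⟨hd, e, rfl⟩ := Finset.mem_filter.1 hd
  exact Finset.mem_image.2 ⟨e, Nat.mem_divisors.2
    ⟨(dvd_mul_left e m).trans (Nat.mem_divisors.1 hd).1, (Nat.mem_divisors.1 hd).2⟩, rfl⟩

lemma sum_inv_dvd_le {n m : ℕ} (hm : 0 < m) :
    ∑ d ∈ n.divisors.filter (fun d => m ∣ d), 1 / (d : ℝ) ≤
      (∑ d ∈ n.divisors, 1 / (d : ℝ)) / m := by
  refine (sum_divisors_dvd_le hm fun d => by positivity).trans (le_of_eq ?_)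
  rw [Finset.sum_div]
  exact Finset.sum_congr rfl fun e _ => by push_cast; rw [div_div, mul_comm]

lemma card_dvd_le (N m : ℕ) :
    (((Icc 1 N).filter (fun n => m ∣ n)).card : ℝ) ≤ (N : ℝ) / m := by
  refine le_trans ?_ Nat.cast_div_le
  rw [← Nat.card_multiples' N m]
  exact_mod_cast Finset.card_le_card fun n hn => by
    simp only [Finset.mem_filter, Finset.mem_Icc, Finset.mem_range] at hn ⊢
    exact ⟨by omega, by omega, hn.2⟩

/-! ### The exponential moment and the rarity of large types -/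

/-- The weight of a prime in the exponential moment. -/
noncomputable def wp (p : ℕ) : ℝ := 8 * (p : ℝ) ^ (-(1 / 4) : ℝ)

lemma wp_nonneg (p : ℕ) : 0 ≤ wp p := by unfold wp; positivity

lemma wp_div (p : ℕ) : wp p / p = 8 * (p : ℝ) ^ (-(5 / 4) : ℝ) := by
  rcases eq_or_ne p 0 with rfl | hp
  · simp
  rw [wp, mul_div_assoc, ← Real.rpow_sub_one (by exact_mod_cast hp)]
  norm_num

lemma summable_wp_div : Summable fun p : ℕ => wp p / p := by
  simp_rw [wp_div]
  exact (Real.summable_nat_rpow.2 (by norm_num)).mul_left 8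

lemma exp_log_div_le {V p : ℕ} (hp : 1 ≤ p) (hV : V < p) :
    exp (√(V : ℝ) * (log p / p)) ≤ 1 + wp p := by
  have hp1 : (1 : ℝ) ≤ p := by exact_mod_cast hp
  have hp0 : (0 : ℝ) < p := by linarith
  have hl : 0 ≤ log (p : ℝ) := Real.log_nonneg hp1
  set r := (p : ℝ) ^ (1 / 4 : ℝ) with hr
  have hr0 : 0 < r := Real.rpow_pos_of_pos hp0 _
  have hr2 : √(p : ℝ) = r ^ 2 := by
    rw [Real.sqrt_eq_rpow, hr, ← Real.rpow_natCast, ← Real.rpow_mul hp0.le]; norm_num
  have h4 : log (p : ℝ) ≤ 4 * (r - 1) := by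
    have := Real.log_le_sub_one_of_pos hr0
    rw [hr, Real.log_rpow hp0] at this
    rw [hr]; linarith
  set y := log (p : ℝ) / r ^ 2
  have hy0 : 0 ≤ y := by positivity
  have hy1 : y ≤ 1 := by rw [div_le_one (by positivity)]; nlinarith [sq_nonneg (r - 2)]
  have hz : √(V : ℝ) * (log p / p) ≤ y := by
    have hVp : √(V : ℝ) ≤ r ^ 2 := hr2 ▸ Real.sqrt_le_sqrt (by exact_mod_cast hV.le)
    have hpp : (p : ℝ) = r ^ 2 * r ^ 2 := by rw [← hr2, Real.mul_self_sqrt hp0.le]
    calc √(V : ℝ) * (log p / p) ≤ r ^ 2 * (log p / p) :=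
          mul_le_mul_of_nonneg_right hVp (by positivity)
      _ = y := by simp only [y]; field_simp; linear_combination (-log (p : ℝ)) * hpp
  have h2 := (abs_le.1 (Real.abs_exp_sub_one_le (x := y) (by rwa [abs_of_nonneg hy0]))).2
  rw [abs_of_nonneg hy0] at h2
  have hy4 : y ≤ 4 * (p : ℝ) ^ (-(1 / 4) : ℝ) := by
    rw [Real.rpow_neg hp0.le, ← hr, div_le_iff₀ (by positivity)]
    field_simp
    linarith
  have := Real.exp_le_exp.2 hz
  unfold wp
  linarith

/-- The exponential moment over any family of integers which is regular on multiples. -/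
lemma moment_le (Ω : Finset ℕ) {w : ℕ → ℝ} (hw : ∀ n, 0 ≤ w n) {W : ℝ}
    (hW : 0 ≤ W) (hdvd : ∀ m, 0 < m → ∑ n ∈ Ω.filter (fun n => m ∣ n), w n ≤ W / m) (V : ℕ) :
    ∑ n ∈ Ω, w n * ∏ p ∈ n.primeFactors.filter (fun p => V < p), (1 + wp p) ≤
      W * exp (∑' p : ℕ, wp p / p) := by
  classical
  set P := Ω.biUnion (fun n => n.primeFactors)
  have hprime : ∀ p ∈ P, p.Prime := fun p hp => by
    obtain ⟨n, -, hn⟩ := Finset.mem_biUnion.1 hp
    exact Nat.prime_of_mem_primeFactors hn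
  calc ∑ n ∈ Ω, w n * ∏ p ∈ n.primeFactors.filter (fun p => V < p), (1 + wp p)
      ≤ ∑ n ∈ Ω, ∑ S ∈ P.powerset, if (∏ p ∈ S, p) ∣ n then w n * ∏ p ∈ S, wp p else 0 := by
        refine Finset.sum_le_sum fun n hn => ?_
        rw [Finset.prod_one_add, Finset.mul_sum, ← Finset.sum_filter]
        refine Finset.sum_le_sum_of_subset_of_nonneg (fun S hS => ?_)
          fun S _ _ => mul_nonneg (hw n) (Finset.prod_nonneg fun p _ => wp_nonneg p)
        have hS' : S ⊆ n.primeFactors := (Finset.mem_powerset.1 hS).trans (Finset.filter_subset _ _)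
        exact Finset.mem_filter.2 ⟨Finset.mem_powerset.2 (hS'.trans
          (Finset.subset_biUnion_of_mem (fun n => n.primeFactors) hn)),
          (Finset.prod_dvd_prod_of_subset _ _ _ hS').trans (Nat.prod_primeFactors_dvd n)⟩
    _ = ∑ S ∈ P.powerset, (∏ p ∈ S, wp p) * ∑ n ∈ Ω.filter (fun n => (∏ p ∈ S, p) ∣ n), w n := by
        rw [Finset.sum_comm]
        refine Finset.sum_congr rfl fun S _ => ?_
        rw [← Finset.sum_filter, Finset.mul_sum]
        exact Finset.sum_congr rfl fun n _ => mul_comm _ _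
    _ ≤ ∑ S ∈ P.powerset, W * ∏ p ∈ S, wp p / p := by
        refine Finset.sum_le_sum fun S hS => ?_
        have hpos : 0 < ∏ p ∈ S, p :=
          Finset.prod_pos fun p hp => (hprime p (Finset.mem_powerset.1 hS hp)).pos
        refine (mul_le_mul_of_nonneg_left (hdvd _ hpos)
          (Finset.prod_nonneg fun p _ => wp_nonneg p)).trans (le_of_eq ?_)
        rw [Finset.prod_div_distrib, Nat.cast_prod]
        ring
    _ = W * ∏ p ∈ P, (1 + wp p / p) := by rw [Finset.prod_one_add, Finset.mul_sum]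
    _ ≤ W * exp (∑' p : ℕ, wp p / p) := by
        refine mul_le_mul_of_nonneg_left ((Real.prod_one_add_le_exp_sum P
          fun p => div_nonneg (wp_nonneg p) (Nat.cast_nonneg p)).trans
          (Real.exp_le_exp.2 (summable_wp_div.sum_le_tsum P
            fun p _ => div_nonneg (wp_nonneg p) (Nat.cast_nonneg p)))) hW

/-- The bound for the proportion of integers of type `T`. -/
noncomputable def rare (T : ℕ) : ℝ := exp ((∑' p : ℕ, wp p / p) - r4 (T - 1))

open Classical in
lemma sum_ty_le (Ω : Finset ℕ) {w : ℕ → ℝ} (hw : ∀ n, 0 ≤ w n) {W : ℝ}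
    (hW : 0 ≤ W) (hdvd : ∀ m, 0 < m → ∑ n ∈ Ω.filter (fun n => m ∣ n), w n ≤ W / m)
    {T : ℕ} (hT : 1 ≤ T) : ∑ n ∈ Ω.filter (fun n => ty n = T), w n ≤ rare T * W := by
  have hmom := moment_le Ω hw hW hdvd (T - 1)
  rcases hT.eq_or_lt with h1 | h1
  · subst h1
    have h0 : r4 (1 - 1) = 0 := by simp [r4]
    refine (Finset.sum_le_sum_of_subset_of_nonneg (Finset.filter_subset _ _)
      fun n _ _ => hw n).trans ?_
    have h2 := hdvd 1 one_pos
    simp only [one_dvd, Finset.filter_true, Nat.cast_one, div_one] at h2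
    refine h2.trans (le_mul_of_one_le_left hW ?_)
    rw [rare, h0, sub_zero]
    exact Real.one_le_exp (tsum_nonneg fun p => div_nonneg (wp_nonneg p) (Nat.cast_nonneg p))
  set V := T - 1
  have key : exp (r4 V) * ∑ n ∈ Ω.filter (fun n => ty n = T), w n ≤
      W * exp (∑' p : ℕ, wp p / p) := by
    refine le_trans ?_ hmom
    rw [Finset.mul_sum]
    refine le_trans (Finset.sum_le_sum fun n hn => ?_) (Finset.sum_le_sum_of_subset_of_nonneg
      (Finset.filter_subset _ _) fun n _ _ => mul_nonneg (hw n)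
        (Finset.prod_nonneg fun p _ => by have := wp_nonneg p; linarith))
    rw [mul_comm]
    refine mul_le_mul_of_nonneg_left ?_ (hw n)
    have hty : ty n = T := (Finset.mem_filter.1 hn).2
    have hbad : 1 / r4 V < sTail V n := by
      have hno := Nat.find_min (exists_light n) (show V < ty n by omega)
      simp only [not_and, Light, not_forall, not_le] at hno
      obtain ⟨U, hU, hlt⟩ := hno (by omega)
      rcases hU.eq_or_lt with e | e
      · exact e ▸ hlt
      · exact absurd (light_ty n U (by omega)) (not_le.2 hlt)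
    have hr0 : 0 < r4 V := zero_lt_one.trans_le (r4_one_le (by omega))
    have h3 : r4 V ≤ √(V : ℝ) * sTail V n := by
      rw [div_lt_iff₀ hr0] at hbad
      rw [← r4_sq]
      nlinarith
    refine (Real.exp_le_exp.2 h3).trans ?_
    rw [sTail, Finset.mul_sum, Real.exp_sum]
    refine Finset.prod_le_prod (fun p _ => (exp_pos _).le) fun p hp => ?_
    obtain ⟨hp1, hp2⟩ := Finset.mem_filter.1 hp
    exact exp_log_div_le (Nat.prime_of_mem_primeFactors hp1).one_le hp2
  rw [← le_div_iff₀' (exp_pos _)] at key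
  refine key.trans (le_of_eq ?_)
  rw [rare, Real.exp_sub]
  ring

lemma summable_exp_neg_rpow {s κ : ℝ} (hs : 0 < s) (hκ : 0 < κ) (a : ℕ) :
    Summable fun T : ℕ => (T : ℝ) ^ a * exp (-(κ * (T : ℝ) ^ s)) := by
  obtain ⟨m, hm⟩ := exists_nat_ge (((a : ℝ) + 2) / s)
  rw [div_le_iff₀ hs] at hm
  have h2 : Summable fun T : ℕ => (m.factorial : ℝ) / κ ^ m * (T : ℝ) ^ (-2 : ℝ) :=
    (Real.summable_nat_rpow.2 (by norm_num)).mul_left _
  refine h2.of_norm_bounded_eventually_nat (Filter.eventually_atTop.2 ⟨1, fun T hT => ?_⟩)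
  have hT1 : (1 : ℝ) ≤ T := by exact_mod_cast hT
  have hT0 : (0 : ℝ) < T := by linarith
  rw [Real.norm_of_nonneg (by positivity)]
  have h := Real.pow_div_factorial_le_exp (x := κ * (T : ℝ) ^ s) (by positivity) m
  have hpow : (T : ℝ) ^ (a + 2) ≤ ((T : ℝ) ^ s) ^ m := by
    rw [← Real.rpow_natCast, ← Real.rpow_natCast _ m, ← Real.rpow_mul hT0.le]
    exact Real.rpow_le_rpow_of_exponent_le hT1 (by push_cast; linarith)
  rw [mul_pow, div_le_iff₀ (by positivity)] at h
  rw [Real.rpow_neg hT0.le, show (2 : ℝ) = ((2 : ℕ) : ℝ) by norm_num, Real.rpow_natCast, exp_neg,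
    div_mul_eq_mul_div, le_div_iff₀ (by positivity)]
  have h3 := mul_le_mul_of_nonneg_left hpow (pow_nonneg hκ.le m)
  field_simp
  rw [pow_add] at h3
  linarith

lemma cutK_lt (T : ℕ) : (cutK T : ℝ) ≤ (T : ℝ) ^ (1 / 16 : ℝ) + 1 :=
  (Nat.ceil_lt_add_one (by positivity)).le

theorem exists_rare : ∃ R : ℕ → ℝ, (∀ T, 0 ≤ R T) ∧
    (∀ N T, 1 ≤ T → (((Icc 1 N).filter fun n => ty n = T).card : ℝ) ≤ R T * N) ∧
    (∀ (n T : ℕ), 1 ≤ T → ∑ d ∈ n.divisors.filter (fun d => ty d = T), 1 / (d : ℝ) ≤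
      R T * ∑ d ∈ n.divisors, 1 / (d : ℝ)) ∧
    ∀ a b : ℕ, Summable fun T : ℕ => (T : ℝ) ^ a * (2 ^ cutK T) ^ b * (cutD T : ℝ) ^ b * R T := by
  refine ⟨rare, fun T => (exp_pos _).le, fun N T hT => ?_, fun n T hT => ?_, fun a b => ?_⟩
  · have h := sum_ty_le (Icc 1 N)
      (w := fun _ => 1) (fun _ => zero_le_one) (W := N) (Nat.cast_nonneg N)
      (fun m _ => by simpa using card_dvd_le N m) hT
    simpa using h
  · exact sum_ty_le n.divisors (fun d => by positivity)
      (Finset.sum_nonneg fun d _ => by positivity) (fun m hm => sum_inv_dvd_le hm) hT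
  · set c := ∑' p : ℕ, wp p / p
    refine ((summable_exp_neg_rpow (s := 1 / 4) (κ := 1 / 4) (by norm_num) (by norm_num) a).mul_left
      (exp (c + 2 * b + 4 * b ^ 2))).of_norm_bounded_eventually_nat
      (Filter.eventually_atTop.2 ⟨2, fun T hT => ?_⟩)
    have hT2 : (2 : ℝ) ≤ T := by exact_mod_cast hT
    have hT0 : (0 : ℝ) < T := by linarith
    set x := (T : ℝ) ^ (1 / 8 : ℝ)
    set y := (T : ℝ) ^ (1 / 4 : ℝ)
    have hxy : x ^ 2 = y := by
      simp only [x, y]; rw [← Real.rpow_natCast, ← Real.rpow_mul hT0.le]; norm_num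
    have hK : (2 : ℝ) ^ cutK T ≤ exp (x + 1) := by
      calc (2 : ℝ) ^ cutK T ≤ exp 1 ^ cutK T :=
            pow_le_pow_left₀ two_pos.le (by linarith [Real.add_one_le_exp (1 : ℝ)]) _
        _ = exp (cutK T) := by rw [← Real.exp_nat_mul, mul_one]
        _ ≤ exp (x + 1) := Real.exp_le_exp.2 ((cutK_lt T).trans (by
            have := Real.rpow_le_rpow_of_exponent_le (show (1 : ℝ) ≤ T by linarith)
              (show (1 / 16 : ℝ) ≤ 1 / 8 by norm_num)
            linarith))
    have hD : (cutD T : ℝ) ≤ exp (x + 1) := by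
      refine (Nat.ceil_lt_add_one (exp_pos _).le).le.trans ?_
      rw [Real.exp_add]
      nlinarith [Real.add_one_le_exp (1 : ℝ), Real.one_le_exp (show 0 ≤ x by positivity)]
    have hr : y / 2 ≤ r4 (T - 1) := by
      rw [r4_eq_rpow, Nat.cast_sub (by omega), Nat.cast_one]
      calc y / 2 = (T : ℝ) ^ (1 / 4 : ℝ) * (1 / 2) := by ring
        _ ≤ (T : ℝ) ^ (1 / 4 : ℝ) * (1 / 2 : ℝ) ^ (1 / 4 : ℝ) :=
            mul_le_mul_of_nonneg_left (Real.self_le_rpow_of_le_one (by norm_num) (by norm_num)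
              (by norm_num)) (by positivity)
        _ = ((T : ℝ) * (1 / 2)) ^ (1 / 4 : ℝ) := (Real.mul_rpow hT0.le (by norm_num)).symm
        _ ≤ _ := Real.rpow_le_rpow (by positivity) (by linarith) (by norm_num)
    rw [Real.norm_of_nonneg (by unfold rare; positivity)]
    calc (T : ℝ) ^ a * (2 ^ cutK T) ^ b * (cutD T : ℝ) ^ b * rare T
        ≤ (T : ℝ) ^ a * exp (x + 1) ^ b * exp (x + 1) ^ b * exp (c - y / 2) := by
          unfold rare
          gcongr
      _ = (T : ℝ) ^ a * exp ((b : ℝ) * (x + 1) + (b : ℝ) * (x + 1) + (c - y / 2)) := by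
          simp only [← Real.exp_nat_mul, mul_assoc, ← Real.exp_add]
      _ ≤ (T : ℝ) ^ a * exp (c + 2 * b + 4 * b ^ 2 + -(1 / 4 * y)) := by
          refine mul_le_mul_of_nonneg_left (Real.exp_le_exp.2 ?_) (by positivity)
          nlinarith [sq_nonneg (x - 4 * b), hxy]
      _ = _ := by rw [Real.exp_add]; ring

theorem summable_half : ∀ a : ℕ, Summable fun T : ℕ => (T : ℝ) ^ a * (1 / 2) ^ cutK T := by
  intro a
  refine (summable_exp_neg_rpow (s := 1 / 16) (κ := log 2) (by norm_num) (Real.log_pos one_lt_two)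
    a).of_nonneg_of_le (fun T => by positivity) fun T => ?_
  refine mul_le_mul_of_nonneg_left ?_ (by positivity)
  rw [one_div, ← Real.exp_log (two_pos (α := ℝ)), ← Real.exp_neg, ← Real.exp_nat_mul,
    Real.exp_le_exp, Real.log_exp]
  have := mul_le_mul_of_nonneg_left (Nat.le_ceil ((T : ℝ) ^ (1 / 16 : ℝ)))
    (Real.log_pos one_lt_two).le
  unfold cutK
  linarith

/-! ### Integers with light tails -/

lemma sum_rpow_le_euler {σ : ℝ} (hσ : σ < 0) (D s : Finset ℕ)
    (hD : ∀ d ∈ D, d ∈ Nat.factoredNumbers s) :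
    ∑ d ∈ D, (d : ℝ) ^ σ ≤ ∏ p ∈ s.filter Nat.Prime, (1 - (p : ℝ) ^ σ)⁻¹ := by
  classical
  let f : ℕ →* ℝ :=
    { toFun := fun d => (d : ℝ) ^ σ
      map_one' := by simp
      map_mul' := fun a b => by
        rw [Nat.cast_mul, Real.mul_rpow (Nat.cast_nonneg a) (Nat.cast_nonneg b)] }
  have hf : ∀ {p : ℕ}, p.Prime → ‖f p‖ < 1 := fun {p} hp => by
    show ‖(p : ℝ) ^ σ‖ < 1
    rw [Real.norm_of_nonneg (by positivity)]
    exact Real.rpow_lt_one_of_one_lt_of_neg (by exact_mod_cast hp.one_lt) hσ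
  obtain ⟨-, hsum⟩ := EulerProduct.summable_and_hasSum_factoredNumbers_prod_filter_prime_geometric hf s
  have := sum_le_hasSum (D.subtype (· ∈ Nat.factoredNumbers s))
    (fun d _ => by show 0 ≤ ((d : ℕ) : ℝ) ^ σ; positivity) hsum
  refine le_trans (le_of_eq ?_) this
  exact (Finset.sum_subtype_of_mem (fun d : ℕ => (d : ℝ) ^ σ) hD).symm

lemma inv_one_sub_le_exp {x : ℝ} (h0 : 0 ≤ x) (h : x ≤ 1 / 2) : (1 - x)⁻¹ ≤ exp (2 * x) := by
  refine le_trans ?_ (Real.add_one_le_exp (2 * x))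
  rw [inv_le_iff_one_le_mul₀ (by linarith)]
  nlinarith

lemma one_div_le_half {p : ℕ} (hp : 2 ≤ p) : (1 : ℝ) / p ≤ 1 / 2 :=
  one_div_le_one_div_of_le two_pos (by exact_mod_cast hp)

lemma sum_inv_primes_le (U n : ℕ) :
    ∑ p ∈ n.primeFactors.filter (fun p => U < p), 1 / (p : ℝ) ≤ 2 * sTail U n := by
  rw [sTail, Finset.mul_sum]
  refine Finset.sum_le_sum fun p hp => ?_
  have hp2 := (Nat.prime_of_mem_primeFactors (Finset.mem_filter.1 hp).1).two_le
  rw [mul_div]
  refine div_le_div_of_nonneg_right ?_ (Nat.cast_nonneg p)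
  have := Real.log_le_log two_pos (show (2 : ℝ) ≤ p by exact_mod_cast hp2)
  linarith [Real.log_two_gt_d9]

lemma prod_small_le : ∀ T : ℕ, 1 ≤ T → ∏ j ∈ Finset.Ioc 1 T, (1 - 1 / (j : ℝ))⁻¹ = T := by
  intro T hT
  induction T, hT using Nat.le_induction with
  | base => simp
  | succ T hT ih =>
    rw [Finset.prod_Ioc_succ_top hT, ih]
    have : (1 : ℝ) ≤ T := by exact_mod_cast hT
    push_cast
    field_simp
    ring_nf
    field_simp

lemma light_bounds {T n : ℕ} (hT : 1 ≤ T) (hl : Light 2 T n) :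
    ∏ p ∈ n.primeFactors.filter (fun p => T < p), (1 - 1 / (p : ℝ))⁻¹ ≤ exp 8 ∧
      ∏ p ∈ n.primeFactors, (1 - 1 / (p : ℝ))⁻¹ ≤ exp 8 * T ∧
      ∑ p ∈ n.primeFactors, log p / (p : ℝ) ≤ 3 * T := by
  classical
  have hs : sTail T n ≤ 2 := (hl T le_rfl).trans (div_le_self two_pos.le (r4_one_le hT))
  have hpos : ∀ j : ℕ, 2 ≤ j → 0 < 1 - 1 / (j : ℝ) := fun j hj => by
    have := one_div_le_half hj; linarith
  have hbig : ∏ p ∈ n.primeFactors.filter (fun p => T < p), (1 - 1 / (p : ℝ))⁻¹ ≤ exp 8 := by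
    refine (Finset.prod_le_prod (f := fun p : ℕ => (1 - 1 / (p : ℝ))⁻¹)
      (g := fun p => exp (2 * (1 / (p : ℝ)))) (fun p hp => ?_)
      fun p hp => ?_).trans ?_
    · exact (inv_pos.2 (hpos p (Nat.prime_of_mem_primeFactors (Finset.mem_filter.1 hp).1).two_le)).le
    · exact inv_one_sub_le_exp (by positivity)
        (one_div_le_half (Nat.prime_of_mem_primeFactors (Finset.mem_filter.1 hp).1).two_le)
    · rw [← Real.exp_sum, Real.exp_le_exp, ← Finset.mul_sum]
      linarith [sum_inv_primes_le T n]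
  have hsmall : n.primeFactors.filter (fun p => ¬ T < p) ⊆ Finset.Ioc 1 T := fun p hp => by
    obtain ⟨hp1, hp2⟩ := Finset.mem_filter.1 hp
    exact Finset.mem_Ioc.2 ⟨(Nat.prime_of_mem_primeFactors hp1).one_lt, not_lt.1 hp2⟩
  refine ⟨hbig, ?_, ?_⟩
  · rw [← Finset.prod_filter_mul_prod_filter_not n.primeFactors (fun p => T < p)]
    refine mul_le_mul hbig ?_ (Finset.prod_nonneg fun p hp => ?_) (exp_pos _).le
    · rw [← prod_small_le T hT]
      refine Finset.prod_le_prod_of_subset_of_one_le hsmall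
        (fun j hj => (inv_pos.2 (hpos j (Finset.mem_Ioc.1 (hsmall hj)).1)).le) fun j hj _ => ?_
      refine (one_le_inv₀ (hpos j (Finset.mem_Ioc.1 hj).1)).2 ?_
      have : (0 : ℝ) ≤ 1 / (j : ℝ) := by positivity
      linarith
    · exact (inv_pos.2 (hpos p (Nat.prime_of_mem_primeFactors (Finset.mem_filter.1 hp).1).two_le)).le
  · rw [← Finset.sum_filter_add_sum_filter_not n.primeFactors (fun p => T < p)]
    have h1 : ∑ p ∈ n.primeFactors.filter (fun p => ¬ T < p), log p / (p : ℝ) ≤ T := by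
      refine (Finset.sum_le_card_nsmul _ _ 1 fun p hp => ?_).trans ?_
      · have := (Nat.prime_of_mem_primeFactors (Finset.mem_filter.1 hp).1).pos
        rw [div_le_one (by exact_mod_cast this)]
        exact Real.log_le_self (Nat.cast_nonneg p)
      · rw [nsmul_one]
        exact_mod_cast (Finset.card_le_card hsmall).trans (by simp)
    have : (1 : ℝ) ≤ T := by exact_mod_cast hT
    unfold sTail at hs
    linarith

lemma sum_inv_le_prod {n : ℕ} :
    ∑ d ∈ n.divisors, 1 / (d : ℝ) ≤ ∏ p ∈ n.primeFactors, (1 - 1 / (p : ℝ))⁻¹ := by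
  rcases eq_or_ne n 0 with rfl | hn
  · simp
  have h := sum_rpow_le_euler (σ := -1) (by norm_num) n.divisors n.primeFactors fun d hd =>
    Nat.mem_factoredNumbers_of_primeFactors_subset (Nat.pos_of_mem_divisors hd).ne'
      (Nat.primeFactors_mono (Nat.dvd_of_mem_divisors hd) hn)
  rw [Finset.filter_true_of_mem fun p hp => Nat.prime_of_mem_primeFactors hp] at h
  simpa [Real.rpow_neg_one] using h

lemma sum_log_div_le {n : ℕ} (hn : n ≠ 0) :
    ∑ d ∈ n.divisors, log d / (d : ℝ) ≤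
      2 * (∑ d ∈ n.divisors, 1 / (d : ℝ)) * ∑ p ∈ n.primeFactors, log p / (p : ℝ) := by
  classical
  set S := ∑ d ∈ n.divisors, 1 / (d : ℝ)
  set F : ℕ → ℝ := fun p => ∑ d ∈ n.divisors, (d.factorization p : ℝ) / (d : ℝ) with hF
  have hFp : ∀ p ∈ n.primeFactors, F p ≤ 2 * S / p := by
    intro p hp
    have hpp := Nat.prime_of_mem_primeFactors hp
    have hp2 : (2 : ℝ) ≤ p := by exact_mod_cast hpp.two_le
    have h1 : F p = ∑ d ∈ n.divisors.filter (fun d => p ∣ d), (d.factorization p : ℝ) / (d : ℝ) := by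
      refine (Finset.sum_filter_of_ne fun d _ hne => ?_).symm
      by_contra hnd
      exact hne (by simp [Nat.factorization_eq_zero_of_not_dvd hnd])
    have h2 : F p ≤ (F p + S) / p := by
      refine (h1.trans_le (sum_divisors_dvd_le hpp.pos fun d => by positivity)).trans (le_of_eq ?_)
      rw [hF, ← Finset.sum_add_distrib, Finset.sum_div]
      refine Finset.sum_congr rfl fun e he => ?_
      rw [Nat.factorization_mul hpp.ne_zero (Nat.pos_of_mem_divisors he).ne', Finsupp.add_apply,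
        hpp.factorization_self]
      push_cast
      rw [← add_div, div_div]
      ring
    rw [le_div_iff₀ (by linarith)] at h2 ⊢
    have hF0 : 0 ≤ F p := Finset.sum_nonneg fun d _ => by positivity
    have := mul_le_mul_of_nonneg_left hp2 hF0
    nlinarith
  calc ∑ d ∈ n.divisors, log d / (d : ℝ)
      = ∑ d ∈ n.divisors, ∑ p ∈ n.primeFactors, (d.factorization p : ℝ) * log p / d := by
        refine Finset.sum_congr rfl fun d hd => ?_
        rw [Real.log_nat_eq_sum_factorization, Finsupp.sum, Finset.sum_div, Nat.support_factorization]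
        refine Finset.sum_subset (Nat.primeFactors_mono (Nat.dvd_of_mem_divisors hd) hn)
          fun p _ hnp => ?_
        rw [← Nat.support_factorization, Finsupp.notMem_support_iff] at hnp
        simp [hnp]
    _ = ∑ p ∈ n.primeFactors, F p * log p := by
        rw [Finset.sum_comm]
        refine Finset.sum_congr rfl fun p _ => ?_
        rw [Finset.sum_mul]
        exact Finset.sum_congr rfl fun d _ => by ring
    _ ≤ ∑ p ∈ n.primeFactors, 2 * S / p * log p :=
        Finset.sum_le_sum fun p hp =>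
          mul_le_mul_of_nonneg_right (hFp p hp) (Real.log_natCast_nonneg p)
    _ = _ := by rw [Finset.mul_sum _ _ (2 * S)]; exact Finset.sum_congr rfl fun p _ => by ring

theorem exists_size : ∃ C > 0, ∀ T n : ℕ, 1 ≤ T → n ≠ 0 → Light 2 T n →
    (n : ℝ) / n.totient ≤ C * T ∧ ∑ d ∈ n.divisors, 1 / (d : ℝ) ≤ C * T ∧
      ∑ d ∈ n.divisors, log d / (d : ℝ) ≤ C * (T : ℝ) ^ 2 ∧
      ∏ p ∈ n.primeFactors.filter (fun p => T < p), (1 - 1 / (p : ℝ))⁻¹ ≤ C := by
  refine ⟨6 * exp 8, by positivity, fun T n hT hn hl => ?_⟩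
  obtain ⟨h1, h2, h3⟩ := light_bounds hT hl
  have he := exp_pos (8 : ℝ)
  have hT' : (1 : ℝ) ≤ T := by exact_mod_cast hT
  have hS : ∑ d ∈ n.divisors, 1 / (d : ℝ) ≤ exp 8 * T := sum_inv_le_prod.trans h2
  have h6 : exp 8 * T ≤ 6 * exp 8 * T := by nlinarith
  refine ⟨?_, hS.trans h6, ?_, h1.trans (by linarith)⟩
  · rw [← inv_div, totient_div_eq hn, ← Finset.prod_inv_distrib]
    exact h2.trans h6
  · refine (sum_log_div_le hn).trans ?_
    calc 2 * (∑ d ∈ n.divisors, 1 / (d : ℝ)) * ∑ p ∈ n.primeFactors, log p / (p : ℝ)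
        ≤ 2 * (exp 8 * T) * (3 * T) := by
          gcongr
      _ = _ := by ring

lemma r4_pow_forty (x : ℕ) : r4 (x ^ 40) = (x : ℝ) ^ 10 := by
  rw [r4, Nat.cast_pow, show (x : ℝ) ^ 40 = ((x : ℝ) ^ 20) ^ 2 by ring,
    Real.sqrt_sq (by positivity), show (x : ℝ) ^ 20 = ((x : ℝ) ^ 10) ^ 2 by ring,
    Real.sqrt_sq (by positivity)]

lemma cutK_le {T : ℕ} (hT : 1 ≤ T) : (cutK T : ℝ) ≤ T := by
  exact_mod_cast Nat.ceil_le.2
    (Real.rpow_le_self_of_one_le (show (1 : ℝ) ≤ T by exact_mod_cast hT) (by norm_num))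

open Classical in
lemma tail_large {C : ℝ} (hC : 0 < C) {T n U : ℕ} (hT : 1 ≤ T) (hTU : T ≤ U)
    (hUr : r4 U = ((T : ℝ) + 1) ^ 10) (hn : n ≠ 0) (hl : Light 2 T n)
    (hS : ∑ d ∈ n.divisors, 1 / (d : ℝ) ≤ C * T)
    (hF : ∑ d ∈ n.divisors, log d / (d : ℝ) ≤ C * (T : ℝ) ^ 2) :
    ∑ d ∈ (n.divisors.filter fun d => cutD T < d).filter
        (fun d => ∃ p ∈ d.primeFactors, U < p), (log d + cutK T) / (d : ℝ) ≤
      10 * C * (T : ℝ) ^ 2 / ((T : ℝ) + 1) ^ 10 := by
  have hT1 : (1 : ℝ) ≤ T := by exact_mod_cast hT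
  have hT0 : (0 : ℝ) < T := by linarith
  have hK : (cutK T : ℝ) ≤ T := cutK_le hT
  set g : ℕ → ℝ := fun d => (log d + cutK T) / (d : ℝ)
  have hg : ∀ d, 0 ≤ g d := fun d => by
    have := Real.log_natCast_nonneg d
    positivity
  set S := ∑ d ∈ n.divisors, 1 / (d : ℝ)
  set F := ∑ d ∈ n.divisors, log d / (d : ℝ)
  set P := n.primeFactors.filter (fun p => U < p)
  calc ∑ d ∈ (n.divisors.filter fun d => cutD T < d).filter
        (fun d => ∃ p ∈ d.primeFactors, U < p), g d
      ≤ ∑ d ∈ n.divisors, ∑ p ∈ P, if p ∣ d then g d else 0 := by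
        refine (Finset.sum_le_sum fun d hd => ?_).trans (Finset.sum_le_sum_of_subset_of_nonneg
          ((Finset.filter_subset _ _).trans (Finset.filter_subset _ _)) fun d _ _ =>
          Finset.sum_nonneg fun p _ => by split <;> simp [hg])
        obtain ⟨hd', p, hp, hpU⟩ := Finset.mem_filter.1 hd
        have hdn := (Finset.mem_filter.1 hd').1
        refine le_trans (le_of_eq (if_pos (Nat.dvd_of_mem_primeFactors hp)).symm)
          (Finset.single_le_sum (f := fun p => if p ∣ d then g d else 0)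
            (fun p _ => by split <;> simp [hg]) (Finset.mem_filter.2
            ⟨Nat.primeFactors_mono (Nat.dvd_of_mem_divisors hdn) hn hp, hpU⟩))
    _ = ∑ p ∈ P, ∑ d ∈ n.divisors.filter (fun d => p ∣ d), g d := by
        rw [Finset.sum_comm]; simp only [Finset.sum_filter]
    _ ≤ ∑ p ∈ P, (S * (log p / p) + (cutK T * S + F) * (1 / (p : ℝ))) := by
        refine Finset.sum_le_sum fun p hp => ?_
        have hpp := Nat.prime_of_mem_primeFactors (Finset.mem_filter.1 hp).1
        refine (sum_divisors_dvd_le hpp.pos hg).trans (le_of_eq ?_)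
        simp only [S, F, Finset.mul_sum, Finset.sum_mul, ← Finset.sum_add_distrib]
        refine Finset.sum_congr rfl fun e he => ?_
        have hp0 : (p : ℝ) ≠ 0 := by exact_mod_cast hpp.ne_zero
        have he0 : (e : ℝ) ≠ 0 := by exact_mod_cast (Nat.pos_of_mem_divisors he).ne'
        simp only [g, Nat.cast_mul, Real.log_mul hp0 he0]
        field_simp
        ring
    _ = S * sTail U n + (cutK T * S + F) * ∑ p ∈ P, 1 / (p : ℝ) := by
        rw [Finset.sum_add_distrib, ← Finset.mul_sum, ← Finset.mul_sum]; rfl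
    _ ≤ (C * T) * sTail U n + (T * (C * T) + C * (T : ℝ) ^ 2) * (2 * sTail U n) := by
        have hS0 : 0 ≤ S := Finset.sum_nonneg fun d _ => by positivity
        refine add_le_add (mul_le_mul_of_nonneg_right hS (sTail_nonneg U n))
          (mul_le_mul (add_le_add (mul_le_mul hK hS hS0 hT0.le) hF) (sum_inv_primes_le U n)
            (Finset.sum_nonneg fun p _ => by positivity) (by positivity))
    _ ≤ (5 * C * (T : ℝ) ^ 2) * sTail U n := by
        have h1 : C * (T : ℝ) ≤ C * (T : ℝ) ^ 2 :=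
          mul_le_mul_of_nonneg_left (by nlinarith) hC.le
        nlinarith [mul_le_mul_of_nonneg_right h1 (sTail_nonneg U n)]
    _ ≤ (5 * C * (T : ℝ) ^ 2) * (2 / r4 U) :=
        mul_le_mul_of_nonneg_left (hl U hTU) (by positivity)
    _ = _ := by rw [hUr]; ring

open Classical in
lemma tail_smooth {C : ℝ} {T n U : ℕ} (hT : 1 ≤ T) (hn : n ≠ 0) (hU0 : 0 < U)
    (hUl : log (U : ℝ) = 40 * log ((T : ℝ) + 1))
    (hphi : (n : ℝ) / n.totient ≤ C * T) :
    ∑ d ∈ (n.divisors.filter fun d => cutD T < d).filter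
        (fun d => ¬ ∃ p ∈ d.primeFactors, U < p), (log d + cutK T) / (d : ℝ) ≤
      321 * C ^ 2 * (T : ℝ) ^ 3 * exp (-(1 / 10240 * (T : ℝ) ^ (1 / 16 : ℝ))) := by
  have hT1 : (1 : ℝ) ≤ T := by exact_mod_cast hT
  have hT0 : (0 : ℝ) < T := by linarith
  have hK : (cutK T : ℝ) ≤ T := cutK_le hT
  set g : ℕ → ℝ := fun d => (log d + cutK T) / (d : ℝ)
  set L := log ((T : ℝ) + 1)
  have hL : 0 < L := Real.log_pos (by linarith)
  set s := 1 / (320 * L) with hs
  have hs0 : 0 < s := by positivity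
  have hU2 : (U : ℝ) ^ (2 * s) ≤ 7 / 5 := by
    have : (U : ℝ) ^ (2 * s) = exp (1 / 4) := by
      rw [Real.rpow_def_of_pos (by exact_mod_cast hU0), hUl, hs]
      congr 1
      field_simp
      ring
    rw [this]
    have := Real.exp_bound_div_one_sub_of_interval (x := (1 / 4 : ℝ)) (by norm_num) (by norm_num)
    linarith
  have hσ : 2 * s - 1 < 0 := by
    have : s ≤ 1 / 4 := by
      have h2 : log 2 ≤ L := Real.log_le_log two_pos (by linarith)
      rw [hs, div_le_iff₀ (by positivity)]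
      linarith [Real.log_two_gt_d9]
    linarith
  have hD1 : exp ((T : ℝ) ^ (1 / 8 : ℝ)) ≤ cutD T := Nat.le_ceil _
  set rest := (n.divisors.filter fun d => cutD T < d).filter
    (fun d => ¬ ∃ p ∈ d.primeFactors, U < p)
  set P := n.primeFactors.filter (fun p => p ≤ U)
  calc ∑ d ∈ rest, g d
      ≤ ∑ d ∈ rest, 321 * T * exp (-(s * (T : ℝ) ^ (1 / 8 : ℝ))) * (d : ℝ) ^ (2 * s - 1) := by
        refine Finset.sum_le_sum fun d hd => ?_
        have hdD : (cutD T : ℝ) ≤ d := by
          exact_mod_cast (Finset.mem_filter.1 (Finset.mem_filter.1 hd).1).2.le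
        have hdx : exp ((T : ℝ) ^ (1 / 8 : ℝ)) ≤ d := hD1.trans hdD
        have hd0 : (0 : ℝ) < d := (exp_pos _).trans_le hdx
        have hd1 : (1 : ℝ) ≤ d := (Real.one_le_exp (by positivity)).trans hdx
        have hds : (1 : ℝ) ≤ (d : ℝ) ^ s := Real.one_le_rpow hd1 hs0.le
        have h1 : log d + cutK T ≤ 321 * T * (d : ℝ) ^ s := by
          have h := Real.log_le_rpow_div hd0.le hs0
          rw [show (d : ℝ) ^ s / s = 320 * L * (d : ℝ) ^ s by rw [hs]; field_simp] at h
          have hLT : L ≤ T := by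
            have := Real.log_le_sub_one_of_pos (show (0 : ℝ) < T + 1 by linarith); linarith
          nlinarith [mul_le_mul_of_nonneg_right hLT (le_trans zero_le_one hds),
            mul_le_mul hK hds zero_le_one hT0.le]
        have h2 : 1 ≤ exp (-(s * (T : ℝ) ^ (1 / 8 : ℝ))) * (d : ℝ) ^ s := by
          rw [Real.rpow_def_of_pos hd0, ← Real.exp_add]
          refine Real.one_le_exp ?_
          have := (Real.le_log_iff_exp_le hd0).2 hdx
          nlinarith [mul_le_mul_of_nonneg_left this hs0.le]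
        show (log d + cutK T) / (d : ℝ) ≤ _
        rw [Real.rpow_sub_one hd0.ne', two_mul, Real.rpow_add hd0, ← mul_div_assoc]
        refine div_le_div_of_nonneg_right ?_ hd0.le
        calc log d + cutK T ≤ 321 * T * (d : ℝ) ^ s := h1
          _ ≤ 321 * T * (d : ℝ) ^ s * (exp (-(s * (T : ℝ) ^ (1 / 8 : ℝ))) * (d : ℝ) ^ s) :=
              le_mul_of_one_le_right (by positivity) h2
          _ = _ := by ring
    _ ≤ 321 * T * exp (-(s * (T : ℝ) ^ (1 / 8 : ℝ))) *
          ∏ p ∈ P, (1 - (p : ℝ) ^ (2 * s - 1))⁻¹ := by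
        rw [← Finset.mul_sum]
        refine mul_le_mul_of_nonneg_left ?_ (by positivity)
        have h := sum_rpow_le_euler hσ rest P fun d hd => by
          obtain ⟨hd', hsm⟩ := Finset.mem_filter.1 hd
          have hdn := (Finset.mem_filter.1 hd').1
          exact Nat.mem_factoredNumbers_of_primeFactors_subset (Nat.pos_of_mem_divisors hdn).ne'
            fun p hp => Finset.mem_filter.2
              ⟨Nat.primeFactors_mono (Nat.dvd_of_mem_divisors hdn) hn hp,
                not_lt.1 fun hlt => hsm ⟨p, hp, hlt⟩⟩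
        rwa [Finset.filter_true_of_mem fun p hp =>
          Nat.prime_of_mem_primeFactors (Finset.mem_filter.1 hp).1] at h
    _ ≤ 321 * T * exp (-(1 / 10240 * (T : ℝ) ^ (1 / 16 : ℝ))) * (C * T) ^ 2 := by
        have hfac : ∀ p ∈ P, 0 < 1 - (p : ℝ) ^ (2 * s - 1) ∧
            (1 - (p : ℝ) ^ (2 * s - 1))⁻¹ ≤ ((1 - 1 / (p : ℝ))⁻¹) ^ 2 := by
          intro p hp
          obtain ⟨hp1, hp2⟩ := Finset.mem_filter.1 hp
          have hpp := (Nat.prime_of_mem_primeFactors hp1).two_le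
          have hp0 : (0 : ℝ) < p := by exact_mod_cast (show 0 < p by omega)
          have hx := one_div_le_half hpp
          have h1 : (p : ℝ) ^ (2 * s - 1) ≤ 7 / 5 * (1 / (p : ℝ)) := by
            rw [Real.rpow_sub_one hp0.ne']
            exact div_le_div_of_nonneg_right ((Real.rpow_le_rpow hp0.le
              (by exact_mod_cast hp2) (by positivity)).trans hU2) hp0.le |>.trans_eq (by ring)
          have h2 : (1 - 1 / (p : ℝ)) ^ 2 ≤ 1 - (p : ℝ) ^ (2 * s - 1) := by
            have hx0 : (0 : ℝ) ≤ 1 / (p : ℝ) := by positivity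
            nlinarith
          have h3 : 0 < (1 - 1 / (p : ℝ)) ^ 2 := pow_pos (by linarith) 2
          refine ⟨h3.trans_le h2, ?_⟩
          rw [inv_pow]
          exact inv_anti₀ h3 h2
        have hexp : exp (-(s * (T : ℝ) ^ (1 / 8 : ℝ))) ≤
            exp (-(1 / 10240 * (T : ℝ) ^ (1 / 16 : ℝ))) := by
          rw [Real.exp_le_exp, neg_le_neg_iff]
          have h1 := Real.log_le_rpow_div (show (0 : ℝ) ≤ T + 1 by linarith)
            (show (0 : ℝ) < 1 / 16 by norm_num)
          have h2 : ((T : ℝ) + 1) ^ (1 / 16 : ℝ) ≤ 2 * (T : ℝ) ^ (1 / 16 : ℝ) := by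
            refine (Real.rpow_le_rpow (by linarith) (show (T : ℝ) + 1 ≤ 2 * T by linarith)
              (by norm_num)).trans ?_
            rw [Real.mul_rpow two_pos.le hT0.le]
            exact mul_le_mul_of_nonneg_right
              (Real.rpow_le_self_of_one_le one_le_two (by norm_num)) (by positivity)
          have h3 : (T : ℝ) ^ (1 / 8 : ℝ) = (T : ℝ) ^ (1 / 16 : ℝ) * (T : ℝ) ^ (1 / 16 : ℝ) := by
            rw [← Real.rpow_add hT0]; norm_num
          have hLr : L ≤ 32 * (T : ℝ) ^ (1 / 16 : ℝ) := by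
            rw [div_div_eq_mul_div, div_one] at h1; linarith
          rw [h3, hs, div_mul_eq_mul_div, div_mul_eq_mul_div, div_le_div_iff₀ (by norm_num)
            (by positivity), one_mul, one_mul]
          nlinarith [mul_le_mul_of_nonneg_left hLr
            (Real.rpow_nonneg hT0.le (1 / 16 : ℝ))]
        have hprod : ∏ p ∈ P, (1 - (p : ℝ) ^ (2 * s - 1))⁻¹ ≤ (C * T) ^ 2 := by
          refine (Finset.prod_le_prod (fun p hp => (inv_pos.2 (hfac p hp).1).le)
            fun p hp => (hfac p hp).2).trans ?_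
          rw [Finset.prod_pow]
          have hphi' : ∏ p ∈ n.primeFactors, (1 - 1 / (p : ℝ))⁻¹ ≤ C * T := by
            rw [Finset.prod_inv_distrib, ← totient_div_eq hn, inv_div]; exact hphi
          have hpos : ∀ p ∈ n.primeFactors, 1 ≤ (1 - 1 / (p : ℝ))⁻¹ := fun p hp => by
            have := one_div_le_half (Nat.prime_of_mem_primeFactors hp).two_le
            refine (one_le_inv₀ (by linarith)).2 ?_
            have : (0 : ℝ) ≤ 1 / (p : ℝ) := by positivity
            linarith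
          refine pow_le_pow_left₀ (Finset.prod_nonneg fun p hp =>
            zero_le_one.trans (hpos p (Finset.mem_filter.1 hp).1)) (le_trans ?_ hphi') 2
          exact Finset.prod_le_prod_of_subset_of_one_le (Finset.filter_subset _ _)
            (fun p hp => zero_le_one.trans (hpos p (Finset.mem_filter.1 hp).1))
            fun p hp _ => hpos p hp
        gcongr
        exact Finset.prod_nonneg fun p hp => (inv_pos.2 (hfac p hp).1).le
    _ = _ := by ring

theorem exists_tail : ∃ Z : ℕ → ℝ, (∀ T, 0 ≤ Z T) ∧ (∀ T n : ℕ, 1 ≤ T → n ≠ 0 → Light 2 T n →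
    ∑ d ∈ n.divisors.filter (fun d => cutD T < d), (log d + cutK T) / (d : ℝ) ≤ Z T) ∧
    Summable fun T : ℕ => (T : ℝ) ^ 5 * Z T := by
  classical
  obtain ⟨C, hC, hsize⟩ := exists_size
  refine ⟨fun T => 10 * C * (T : ℝ) ^ 2 / ((T : ℝ) + 1) ^ 10 +
    321 * C ^ 2 * (T : ℝ) ^ 3 * exp (-(1 / 10240 * (T : ℝ) ^ (1 / 16 : ℝ))),
    fun T => by positivity, fun T n hT hn hl => ?_, ?_⟩
  · obtain ⟨hphi, hS, hF, -⟩ := hsize T n hT hn hl
    rw [← Finset.sum_filter_add_sum_filter_not (n.divisors.filter fun d => cutD T < d)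
      (fun d => ∃ p ∈ d.primeFactors, (T + 1) ^ 40 < p)]
    exact add_le_add (tail_large hC hT (hTU := (Nat.le_succ T).trans (Nat.le_self_pow (by norm_num) _))
      (hUr := by rw [r4_pow_forty, Nat.cast_add_one]) hn hl hS hF)
      (tail_smooth hT hn (pow_pos T.succ_pos 40) (by rw [Nat.cast_pow, Real.log_pow, Nat.cast_add_one]; norm_num) hphi)
  · have h1 : Summable fun T : ℕ => (T : ℝ) ^ 5 * (10 * C * (T : ℝ) ^ 2 / ((T : ℝ) + 1) ^ 10) := by
      refine (((summable_nat_add_iff 1).2 (Real.summable_nat_rpow.2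
        (show (-3 : ℝ) < -1 by norm_num))).mul_left (10 * C)).of_nonneg_of_le
        (fun T => by positivity) fun T => ?_
      have hT0 : (0 : ℝ) ≤ T := Nat.cast_nonneg T
      push_cast
      rw [Real.rpow_neg (by positivity), show (3 : ℝ) = ((3 : ℕ) : ℝ) by norm_num,
        Real.rpow_natCast, ← mul_div_assoc, div_le_iff₀ (by positivity)]
      field_simp
      nlinarith [pow_le_pow_left₀ hT0 (show (T : ℝ) ≤ (T : ℝ) + 1 by linarith) 7]
    have h2 := (summable_exp_neg_rpow (s := 1 / 16) (κ := 1 / 10240) (by norm_num) (by norm_num)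
      8).mul_left (321 * C ^ 2)
    exact (h1.add h2).congr fun T => by ring

end Vale.Agent.P028.EV
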