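import Mathlib

/-!
P028, inhomogeneous Erdős–Vaaler: quasi-independence on average together with a lower bound in
every interval gives a conull limit superior set.
-/

namespace Vale.Agent.P028.EV

open MeasureTheory Filter Set
open scoped Topology

/-- The second moment inequality. -/
lemma sq_sum_measureReal_le {X : Type*} [MeasurableSpace X] (ν : Measure X) [IsFiniteMeasure ν]
    {ι : Type*} (F : Finset ι) (A : ι → Set X) (hA : ∀ i, MeasurableSet (A i)) :
    (∑ i ∈ F, ν.real (A i)) ^ 2 ≤
      (∑ i ∈ F, ∑ j ∈ F, ν.real (A i ∩ A j)) * ν.real (⋃ i ∈ F, A i) := by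
  classical
  set W := ⋃ i ∈ F, A i with hW
  have hWm : MeasurableSet W := F.measurableSet_biUnion fun i _ => hA i
  have key : ∀ x : ℝ, 0 ≤ ν.real W * (x * x) + (-2 * ∑ i ∈ F, ν.real (A i)) * x +
      ∑ i ∈ F, ∑ j ∈ F, ν.real (A i ∩ A j) := by
    intro x
    have hint : ∀ s, MeasurableSet s → Integrable (s.indicator fun _ => (1 : ℝ)) ν := fun s hs =>
      (integrable_const (1 : ℝ)).indicator hs
    have hsq : ∀ y : X, (∑ i ∈ F, (A i).indicator (fun _ => (1 : ℝ)) y -
        x * W.indicator (fun _ => (1 : ℝ)) y) ^ 2 =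
        (∑ i ∈ F, ∑ j ∈ F, (A i ∩ A j).indicator (fun _ => (1 : ℝ)) y) -
          2 * x * ∑ i ∈ F, (A i).indicator (fun _ => (1 : ℝ)) y +
          x * x * W.indicator (fun _ => (1 : ℝ)) y := by
      intro y
      have h1 : ∀ i j, (A i ∩ A j).indicator (fun _ => (1 : ℝ)) y =
          (A i).indicator (fun _ => (1 : ℝ)) y * (A j).indicator (fun _ => (1 : ℝ)) y := fun i j =>
        by by_cases h : y ∈ A i <;> by_cases h' : y ∈ A j <;> simp [h, h']
      have h2 : (∑ i ∈ F, (A i).indicator (fun _ => (1 : ℝ)) y) * W.indicator (fun _ => (1 : ℝ)) y =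
          ∑ i ∈ F, (A i).indicator (fun _ => (1 : ℝ)) y := by
        rw [Finset.sum_mul]
        refine Finset.sum_congr rfl fun i hi => ?_
        by_cases hy : y ∈ A i
        · have : y ∈ W := Set.mem_biUnion hi hy
          simp [this]
        · simp [hy]
      have h3 : W.indicator (fun _ => (1 : ℝ)) y * W.indicator (fun _ => (1 : ℝ)) y =
          W.indicator (fun _ => (1 : ℝ)) y := by by_cases hy : y ∈ W <;> simp [hy]
      simp only [h1, ← Finset.mul_sum, ← Finset.sum_mul]
      linear_combination (-2 * x) * h2 + x ^ 2 * h3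
    have h0 := integral_nonneg (μ := ν) (f := fun y => (∑ i ∈ F, (A i).indicator (fun _ => (1 : ℝ)) y -
      x * W.indicator (fun _ => (1 : ℝ)) y) ^ 2) (fun y => sq_nonneg (∑ i ∈ F, (A i).indicator
      (fun _ => (1 : ℝ)) y - x * W.indicator (fun _ => (1 : ℝ)) y))
    simp only [hsq] at h0
    rw [integral_add, integral_sub, integral_const_mul, integral_const_mul, integral_finsetSum,
      integral_finsetSum] at h0
    · simp only [integral_indicator_const (1 : ℝ) (hA _), integral_indicator_const (1 : ℝ) hWm,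
        smul_eq_mul, mul_one] at h0
      rw [Finset.sum_congr rfl fun i (_ : i ∈ F) => show
        ∫ y, ∑ j ∈ F, (A i ∩ A j).indicator (fun _ => (1 : ℝ)) y ∂ν = ∑ j ∈ F, ν.real (A i ∩ A j) by
          rw [integral_finsetSum _ fun j _ => hint _ ((hA i).inter (hA j))]
          simp [integral_indicator_const _ ((hA i).inter (hA _))]] at h0
      linarith
    · exact fun i _ => hint _ (hA i)
    · exact fun i _ => integrable_finsetSum _ fun j _ => hint _ ((hA i).inter (hA j))
    · exact integrable_finsetSum _ fun i _ => integrable_finsetSum _ fun j _ =>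
        hint _ ((hA i).inter (hA j))
    · exact (integrable_finsetSum _ fun i _ => hint _ (hA i)).const_mul _
    · exact (integrable_finsetSum _ fun i _ => integrable_finsetSum _ fun j _ =>
        hint _ ((hA i).inter (hA j))).sub ((integrable_finsetSum _ fun i _ => hint _ (hA i)).const_mul _)
    · exact (hint _ hWm).const_mul _
  have := discrim_le_zero key
  rw [discrim] at this
  nlinarith

/-- Cells of the grid of step `1/n` approximate a compact subset of `[0,1]` from outside. -/
lemma exists_cells {K U : Set ℝ} (hK : IsCompact K) (hK1 : K ⊆ Icc 0 1) (hU : IsOpen U)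
    (hKU : K ⊆ U) : ∃ (n : ℕ) (J : Finset ℕ), 0 < n ∧ (∀ i ∈ J, i < n) ∧
      (∀ i ∈ J, Ioo ((i : ℝ) / n) ((i + 1 : ℝ) / n) ⊆ U) ∧
      volume.real K ≤ (J.card : ℝ) / n := by
  classical
  obtain ⟨δ, hδ, hsub⟩ := hK.exists_thickening_subset_open hU hKU
  obtain ⟨n, hn⟩ := exists_nat_gt (1 / δ)
  have hn0 : 0 < n := by exact_mod_cast (one_div_pos.2 hδ).trans hn
  have hn' : (0 : ℝ) < n := by exact_mod_cast hn0
  let cell : ℕ → Set ℝ := fun i => Icc ((i : ℝ) / n) ((i + 1 : ℝ) / n)
  refine ⟨n, (Finset.range n).filter fun i => (K ∩ cell i).Nonempty, hn0,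
    fun i hi => Finset.mem_range.1 (Finset.mem_filter.1 hi).1, fun i hi y hy => ?_, ?_⟩
  · obtain ⟨z, hzK, hz⟩ := (Finset.mem_filter.1 hi).2
    refine hsub (Metric.mem_thickening_iff.2 ⟨z, hzK, ?_⟩)
    have h1 : ((i + 1 : ℝ) / n) - (i : ℝ) / n < δ := by
      rw [← sub_div, add_sub_cancel_left, div_lt_iff₀ hn']
      rw [div_lt_iff₀ hδ] at hn; linarith
    rw [Real.dist_eq, abs_sub_lt_iff]
    exact ⟨by linarith [hy.2, hz.1], by linarith [hy.1, hz.2]⟩
  · have hcov : K ⊆ ⋃ i ∈ (Finset.range n).filter fun i => (K ∩ cell i).Nonempty, cell i := by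
      intro x hx
      obtain ⟨h0, h1⟩ := hK1 hx
      set i := min ⌊x * n⌋₊ (n - 1)
      have hi : x ∈ cell i := by
        refine ⟨?_, ?_⟩
        · rw [div_le_iff₀ hn']
          exact le_trans (by exact_mod_cast min_le_left _ _) (Nat.floor_le (by positivity))
        · rw [le_div_iff₀ hn']
          rcases min_cases ⌊x * n⌋₊ (n - 1) with ⟨e, -⟩ | ⟨e, -⟩
          · rw [show i = _ from e]; exact (Nat.lt_floor_add_one _).le
          · rw [show i = _ from e, Nat.cast_sub hn0, Nat.cast_one]; nlinarith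
      exact Set.mem_biUnion (Finset.mem_filter.2
        ⟨Finset.mem_range.2 (lt_of_le_of_lt (min_le_right _ _) (by omega)), x, hx, hi⟩) hi
    calc volume.real K ≤ volume.real (⋃ i ∈ (Finset.range n).filter
          fun i => (K ∩ cell i).Nonempty, cell i) :=
          measureReal_mono hcov
            ((measure_biUnion_finset_le _ _).trans_lt (ENNReal.sum_lt_top.2 fun i _ => by
              simp [cell])).ne
      _ ≤ ∑ i ∈ (Finset.range n).filter fun i => (K ∩ cell i).Nonempty, volume.real (cell i) :=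
          measureReal_biUnion_finset_le _ _
      _ = _ := by
          rw [Finset.sum_congr rfl fun i _ => show volume.real (cell i) = 1 / (n : ℝ) by
            rw [Real.volume_real_Icc_of_le (by gcongr; linarith)]; ring]
          simp [div_eq_mul_inv]

/-- A periodic family of sets which is quasi-independent on average and meets every interval in
proportion has a conull limit superior. -/
theorem null_compl_of_qi (A : ℕ → Set ℝ) (hA : ∀ q, MeasurableSet (A q))
    (hper : ∀ q x, x + 1 ∈ A q ↔ x ∈ A q)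
    (μ : ℕ → ℝ) (hμ : ∀ q, 0 ≤ μ q) (hdiv : ¬ Summable μ) {c : ℝ} (hc : 0 < c)
    (hlo : ∀ u v : ℝ, 0 ≤ u → u < v → v ≤ 1 →
      ∀ᶠ q in atTop, c * (v - u) * μ q ≤ (volume (A q ∩ Ioo u v)).toReal)
    (hqi : ∃ (C : ℝ) (q₀ : ℕ), ∀ F : Finset ℕ, (∀ q ∈ F, q₀ ≤ q) → ∑ q ∈ F, ∑ r ∈ F,
      (volume (A q ∩ A r ∩ Ioc 0 1)).toReal ≤ C * ((∑ q ∈ F, μ q) + (∑ q ∈ F, μ q) ^ 2)) :
    volume {x | {q | x ∈ A q}.Infinite}ᶜ = 0 := by
  classical
  set Z := {x | {q | x ∈ A q}.Infinite} with hZdef
  have hZ : Z = ⋂ n : ℕ, ⋃ q ∈ Ici n, A q := by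
    ext x
    simp [hZdef, ← Nat.frequently_atTop_iff_infinite, frequently_atTop]
  have hZm : MeasurableSet Z := by
    rw [hZ]; exact MeasurableSet.iInter fun n => MeasurableSet.biUnion (Set.to_countable _) fun q _ => hA q
  obtain ⟨C, q₀, hC⟩ := hqi
  set M := Zᶜ ∩ Ioo 0 1
  have hMfin : volume M ≠ ⊤ := (measure_mono inter_subset_right).trans_lt (by simp) |>.ne
  suffices hM : volume M = 0 by
    have hperZ : ∀ (j : ℤ) (x : ℝ), x + j ∈ Z ↔ x ∈ Z := by
      have h1 : ∀ q (j : ℤ) (x : ℝ), x + j ∈ A q ↔ x ∈ A q := fun q j => by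
        induction j using Int.induction_on with
        | zero => simp
        | succ i ih => intro x; push_cast; rw [← add_assoc, hper]; exact_mod_cast ih x
        | pred i ih =>
          intro x
          rw [← hper, ← ih x]
          push_cast
          ring_nf
      intro j x; simp only [hZdef, mem_ofPred_eq, h1]
    refine measure_mono_null (t := (⋃ j : ℤ, (fun x : ℝ => x + (-j : ℝ)) ⁻¹' M) ∪
      range ((↑) : ℤ → ℝ)) (fun x hx => ?_)
      (measure_union_null (measure_iUnion_null fun j => ?_) ((countable_range _).measure_zero _))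
    · by_cases hfr : Int.fract x = 0
      · exact Or.inr ⟨⌊x⌋, by rw [Int.fract] at hfr; linarith⟩
      · refine Or.inl (mem_iUnion.2 ⟨⌊x⌋, ?_, ?_, ?_⟩)
        · show x + -(⌊x⌋ : ℝ) ∉ Z
          rwa [← Int.cast_neg, hperZ]
        · show (0 : ℝ) < x + -_
          rw [← sub_eq_add_neg]; exact lt_of_le_of_ne (Int.fract_nonneg x) (Ne.symm hfr)
        · show x + -_ < (1 : ℝ)
          rw [← sub_eq_add_neg]; exact Int.fract_lt_one x
    · rw [measure_preimage_add_right]; exact hM
  by_contra hne
  have hm : 0 < volume.real M :=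
    ENNReal.toReal_pos hne hMfin
  set m := volume.real M
  set C' := max C 1
  set κ := c ^ 2 * (m / 2) ^ 2 / (2 * C')
  have hκ : 0 < κ := by positivity
  obtain ⟨K, hKM, hK, hKm⟩ := (hZm.compl.inter measurableSet_Ioo).exists_isCompact_lt_add hMfin
    (ε := ENNReal.ofReal (m / 2)) (by simpa using hm)
  obtain ⟨U, hMU, hU, hUtop, hUm⟩ := (hZm.compl.inter measurableSet_Ioo).exists_isOpen_sdiff_lt hMfin
    (ε := ENNReal.ofReal κ) (by simpa using hκ)
  obtain ⟨n, J, hn, hJn, hJU, hJK⟩ := exists_cells hK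
    (hKM.trans (inter_subset_right.trans Ioo_subset_Icc_self)) hU (hKM.trans hMU)
  have hJm : m / 2 ≤ (J.card : ℝ) / n := by
    refine le_trans ?_ hJK
    have h1 := ENNReal.toReal_mono (by simp [hK.measure_lt_top.ne]) hKm.le
    rw [ENNReal.toReal_add hK.measure_lt_top.ne ENNReal.ofReal_ne_top,
      ENNReal.toReal_ofReal (by linarith)] at h1
    have : m ≤ volume.real K + m / 2 := h1
    linarith
  set B := ⋃ i ∈ J, Ioo ((i : ℝ) / n) ((i + 1 : ℝ) / n)
  have hn' : (0 : ℝ) < n := by exact_mod_cast hn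
  have hBm : MeasurableSet B := J.measurableSet_biUnion fun i _ => measurableSet_Ioo
  have hB1 : B ⊆ Ioo 0 1 := iUnion₂_subset fun i hi =>
    Ioo_subset_Ioo (by positivity) ((div_le_one hn').2 (by exact_mod_cast hJn i hi))
  have hev : ∀ᶠ q in atTop, c * (m / 2) * μ q ≤ volume.real (A q ∩ B) := by
    filter_upwards [(eventually_all_finset J).2 fun i hi =>
      hlo ((i : ℝ) / n) ((i + 1 : ℝ) / n) (by positivity) (by gcongr; linarith)
        ((div_le_one hn').2 (by exact_mod_cast hJn i hi))] with q hq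
    have hdisj : (J : Set ℕ).PairwiseDisjoint fun i => A q ∩ Ioo ((i : ℝ) / n) ((i + 1 : ℝ) / n) := by
      intro i _ j _ hij
      refine Set.disjoint_left.2 fun x hxi hxj => ?_
      have h1 : (i : ℝ) < j + 1 := by
        have := hxi.2.1.trans hxj.2.2; rwa [div_lt_div_iff_of_pos_right hn'] at this
      have h2 : (j : ℝ) < i + 1 := by
        have := hxj.2.1.trans hxi.2.2; rwa [div_lt_div_iff_of_pos_right hn'] at this
      norm_cast at h1 h2
      omega
    rw [show A q ∩ B = ⋃ i ∈ J, A q ∩ Ioo ((i : ℝ) / n) ((i + 1 : ℝ) / n) from inter_iUnion₂ _ _,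
      measureReal_biUnion_finset hdisj (fun i _ => (hA q).inter measurableSet_Ioo)
        (fun i _ => ((measure_mono inter_subset_right).trans_lt (by simp)).ne)]
    refine le_trans ?_ (Finset.sum_le_sum hq)
    rw [Finset.sum_congr rfl fun (i : ℕ) _ => show c * ((i + 1 : ℝ) / n - (i : ℝ) / n) * μ q =
      c * μ q / n by ring, Finset.sum_const, nsmul_eq_mul]
    have := mul_le_mul_of_nonneg_left hJm (mul_nonneg hc.le (hμ q))
    linear_combination this
  obtain ⟨q₁, hq₁⟩ := eventually_atTop.1 hev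
  have hB : ENNReal.ofReal κ ≤ volume (Z ∩ B) := by
    rw [hZ, iInter_inter]
    have hanti : Antitone fun k : ℕ => (⋃ q ∈ Ici k, A q) ∩ B := fun k l hkl =>
      inter_subset_inter_left _ (biUnion_subset_biUnion_left (Ici_subset_Ici.2 hkl))
    rw [hanti.measure_iInter (fun k => ((MeasurableSet.biUnion (Set.to_countable _)
        fun q _ => hA q).inter hBm).nullMeasurableSet)
      ⟨0, ((measure_mono (inter_subset_right.trans hB1)).trans_lt (by simp)).ne⟩]
    refine le_iInf fun k => ?_
    set N := max k (max q₀ q₁)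
    obtain ⟨L, hL⟩ : ∃ L : ℕ, 1 ≤ ∑ i ∈ Finset.range L, μ (i + N) := by
      by_contra hno
      push Not at hno
      exact hdiv ((summable_nat_add_iff N).1
        (summable_of_sum_range_le (fun i => hμ _) fun L => (hno L).le))
    set F := (Finset.range L).image (· + N)
    have hFN : ∀ q ∈ F, N ≤ q := fun q hq => by
      obtain ⟨i, -, rfl⟩ := Finset.mem_image.1 hq; omega
    set S := ∑ q ∈ F, μ q with hS
    have hS1 : 1 ≤ S := by
      rw [hS, Finset.sum_image fun a _ b _ hab => Nat.add_right_cancel hab]; exact hL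
    have : IsFiniteMeasure (volume.restrict B) :=
      ⟨by simpa using (measure_mono hB1).trans_lt (by simp)⟩
    have hsm := sq_sum_measureReal_le (volume.restrict B) F A hA
    simp only [measureReal_restrict_apply (hA _), measureReal_restrict_apply
      ((hA _).inter (hA _)), measureReal_restrict_apply (F.measurableSet_biUnion fun i _ => hA i)]
      at hsm
    have h1 : c * (m / 2) * S ≤ ∑ q ∈ F, volume.real (A q ∩ B) := by
      rw [hS, Finset.mul_sum]
      exact Finset.sum_le_sum fun q hq => hq₁ q (by have := hFN q hq; omega)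
    have h2 : ∑ q ∈ F, ∑ r ∈ F, volume.real (A q ∩ A r ∩ B) ≤ C' * (S + S ^ 2) := by
      refine le_trans (le_trans (Finset.sum_le_sum fun q _ => Finset.sum_le_sum fun r _ => ?_)
        (hC F fun q hq => by have := hFN q hq; omega)) ?_
      · exact ENNReal.toReal_mono ((measure_mono inter_subset_right).trans_lt (by simp)).ne
          (measure_mono (inter_subset_inter_right _ (hB1.trans Ioo_subset_Ioc_self)))
      · exact mul_le_mul_of_nonneg_right (le_max_left _ _) (by positivity)
    have h3 : κ ≤ volume.real ((⋃ q ∈ F, A q) ∩ B) := by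
      have hW : 0 ≤ volume.real ((⋃ q ∈ F, A q) ∩ B) := measureReal_nonneg
      have h5 := (pow_le_pow_left₀ (by positivity) h1 2).trans
        (hsm.trans (mul_le_mul_of_nonneg_right h2 hW))
      rw [div_le_iff₀ (by positivity : 0 < 2 * C')]
      refine le_of_mul_le_mul_right (h5.trans' (le_of_eq ?_) |>.trans ?_) (pow_pos (zero_lt_one.trans_le hS1) 2)
      · ring
      · have : S + S ^ 2 ≤ 2 * S ^ 2 := by nlinarith
        calc C' * (S + S ^ 2) * volume.real ((⋃ q ∈ F, A q) ∩ B)
            ≤ C' * (2 * S ^ 2) * volume.real ((⋃ q ∈ F, A q) ∩ B) := by gcongr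
          _ = _ := by ring
    refine le_trans (ENNReal.ofReal_le_ofReal h3) ?_
    rw [measureReal_def, ENNReal.ofReal_toReal
      ((measure_mono (inter_subset_right.trans hB1)).trans_lt (by simp)).ne]
    refine measure_mono (inter_subset_inter_left _ (iUnion₂_subset fun q hq => ?_))
    exact subset_biUnion_of_mem (u := A) (show q ∈ Ici k by have := hFN q hq; simp; omega)
  have hsub : Z ∩ B ⊆ U \ M := fun x hx =>
    ⟨iUnion₂_subset hJU hx.2, fun h => h.1 hx.1⟩
  exact absurd ((measure_mono hsub).trans_lt hUm) (not_lt.2 hB)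

end Vale.Agent.P028.EV
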