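import Vale.Agent.P028.EV.Trim

/-!
P028, inhomogeneous Erdős–Vaaler: one pair of denominators `d q'`, `d r'`.
-/

namespace Vale.Agent.P028.EV

open Finset Real MeasureTheory

variable {γ : ℝ} {ψ : ℕ → ℝ}

/-- The width of the resonance of the denominators `d * a` and `d * b`. -/
noncomputable def Del (ψ : ℕ → ℝ) (d a b : ℕ) : ℝ := b * ψ (d * a) + a * ψ (d * b)

/-- The smaller radius. -/
noncomputable def rad (ψ : ℕ → ℝ) (d a b : ℕ) : ℝ :=
  min (ψ (d * a) / (d * a : ℕ)) (ψ (d * b) / (d * b : ℕ))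

open Classical in
/-- The pairs of kept numerators whose intervals meet, one for each numerator period of `d * a`. -/
noncomputable def pairs (γ : ℝ) (ψ : ℕ → ℝ) (d a b : ℕ) : Finset (ℤ × ℤ) :=
  let B : ℤ := ⌈(d : ℝ) * a * b + |γ| * (b + a) + Del ψ d a b⌉
  (Finset.Ico (0 : ℤ) (d * a : ℕ) ×ˢ Finset.Icc (-B) B).filter fun x =>
    Allowed γ (d * a) x.1 ∧ Allowed γ (d * b) x.2 ∧
      |((x.1 * b - x.2 * a : ℤ) : ℝ) + γ * ((b : ℝ) - a)| < Del ψ d a b

lemma allowed_add {q : ℕ} {a : ℤ} (j : ℤ) : Allowed γ q (a + j * q) ↔ Allowed γ q a := by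
  refine forall₂_congr fun p hp => not_congr ?_
  have h : (p : ℤ) ∣ (approx γ q).2 * (j * q) :=
    ((Int.natCast_dvd_natCast.mpr (Nat.dvd_of_mem_primeFactors hp)).mul_left j).mul_left _
  rw [show ((approx γ q).2 : ℤ) * (a + j * q) + (approx γ q).1 =
    ((approx γ q).2 * a + (approx γ q).1) + (approx γ q).2 * (j * q) by ring, dvd_add_left h]

lemma isOpen_A (q : ℕ) : IsOpen (A γ ψ q) := by
  have : A γ ψ q = ⋃ (a : ℤ) (_ : Allowed γ q a), {x : ℝ | |(q : ℝ) * x - a - γ| < ψ q} := by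
    ext x; simp [A]
  rw [this]
  exact isOpen_biUnion fun a _ => isOpen_lt (by fun_prop) continuous_const

lemma measurableSet_A (q : ℕ) : MeasurableSet (A γ ψ q) := (isOpen_A q).measurableSet

lemma A_add_int (q : ℕ) (x : ℝ) (j : ℤ) : x + j ∈ A γ ψ q ↔ x ∈ A γ ψ q := by
  constructor
  · rintro ⟨a, ha, h⟩
    refine ⟨a + (-j) * q, (allowed_add (-j)).mpr ha, ?_⟩
    rwa [show (q : ℝ) * x - ((a + (-j) * q : ℤ) : ℝ) - γ = q * (x + j) - a - γ by push_cast; ring]
  · rintro ⟨a, ha, h⟩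
    refine ⟨a + j * q, (allowed_add j).mpr ha, ?_⟩
    rwa [show (q : ℝ) * (x + j) - ((a + j * q : ℤ) : ℝ) - γ = q * x - a - γ by push_cast; ring]

lemma A_periodic (q : ℕ) (x : ℝ) : x + 1 ∈ A γ ψ q ↔ x ∈ A γ ψ q := by
  simpa using A_add_int (γ := γ) (ψ := ψ) q x 1

lemma volume_window {S : Set ℝ} (hSm : MeasurableSet S) (hS : ∀ (x : ℝ) (j : ℤ), x + j ∈ S ↔ x ∈ S) (s : ℝ) :
    volume (S ∩ Set.Ioc 0 1) = volume (S ∩ Set.Ioc s (s + 1)) := by
  have key := (isAddFundamentalDomain_Ioc (zero_lt_one (α := ℝ)) 0 volume).measure_set_eq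
    (isAddFundamentalDomain_Ioc (zero_lt_one (α := ℝ)) s volume) (A := S) hSm ?_
  · rwa [zero_add] at key
  · rintro ⟨g, hg⟩
    obtain ⟨j, rfl⟩ := AddSubgroup.mem_zmultiples_iff.mp hg
    ext x
    simp [AddSubgroup.vadd_def, vadd_eq_add, add_comm, hS]

/-- The overlap is at most the number of meeting intervals times the smaller length. -/
theorem volume_inter_le {d a b : ℕ} (hd : 0 < d) (ha : 0 < a) (hb : 0 < b)
    (h0 : 0 ≤ ψ (d * a)) (h1 : ψ (d * a) ≤ 1 / 4) (h0' : 0 ≤ ψ (d * b)) :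
    (volume (A γ ψ (d * a) ∩ A γ ψ (d * b) ∩ Set.Ioc 0 1)).toReal ≤
      2 * rad ψ d a b * (pairs γ ψ d a b).card := by
  classical
  set q := d * a with hq
  set r := d * b with hr
  have hqR : (0 : ℝ) < (q : ℝ) := by rw [hq]; positivity
  have hrR : (0 : ℝ) < (r : ℝ) := by rw [hr]; positivity
  have hm0 : 0 ≤ rad ψ d a b := le_min (div_nonneg h0 hqR.le) (div_nonneg h0' hrR.le)
  rw [volume_window (S := A γ ψ q ∩ A γ ψ r) ((measurableSet_A q).inter (measurableSet_A r))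
    (fun x j => and_congr (A_add_int q x j) (A_add_int r x j)) ((γ - 1 / 2) / q)]
  have hsub : A γ ψ q ∩ A γ ψ r ∩ Set.Ioc ((γ - 1 / 2) / q) ((γ - 1 / 2) / q + 1) ⊆
      ⋃ x ∈ pairs γ ψ d a b, Set.Ioo (((x.1 : ℝ) + γ - ψ q) / q) (((x.1 : ℝ) + γ + ψ q) / q) ∩
        Set.Ioo (((x.2 : ℝ) + γ - ψ r) / r) (((x.2 : ℝ) + γ + ψ r) / r) := by
    rintro x ⟨⟨⟨u, hu, hux⟩, v, hv, hvx⟩, hx1, hx2⟩
    rw [div_lt_iff₀ hqR] at hx1
    have hx2' : (x - 1) * q ≤ γ - 1 / 2 := (le_div_iff₀ hqR).mp (by linarith)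
    obtain ⟨hu1, hu2⟩ := abs_lt.mp hux
    obtain ⟨hv1, hv2⟩ := abs_lt.mp hvx
    have huI : u ∈ Finset.Ico (0 : ℤ) (q : ℕ) := by
      rw [Finset.mem_Ico]
      constructor
      · have : ((-1 : ℤ) : ℝ) < u := by push_cast; nlinarith
        have := Int.cast_lt.mp this; omega
      · have : (u : ℝ) < ((q : ℤ) : ℝ) := by push_cast; nlinarith
        exact Int.cast_lt.mp this
    have haR : (0 : ℝ) < a := by exact_mod_cast ha
    have hbR : (0 : ℝ) < b := by exact_mod_cast hb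
    have hres : |((u * b - v * a : ℤ) : ℝ) + γ * ((b : ℝ) - a)| < Del ψ d a b := by
      have e : ((u * b - v * a : ℤ) : ℝ) + γ * ((b : ℝ) - a) =
          a * ((r : ℝ) * x - v - γ) - b * ((q : ℝ) * x - u - γ) := by
        rw [hq, hr]; push_cast; ring
      rw [e, Del, ← hq, ← hr]
      refine (abs_sub _ _).trans_lt ?_
      rw [abs_mul, abs_mul, Nat.abs_cast, Nat.abs_cast, add_comm]
      exact add_lt_add (mul_lt_mul_of_pos_left hux hbR) (mul_lt_mul_of_pos_left hvx haR)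
    have hvI : |(v : ℝ)| ≤ (d : ℝ) * a * b + |γ| * (b + a) + Del ψ d a b := by
      have hu0 : |(u : ℝ)| ≤ q := by
        rw [Finset.mem_Ico] at huI
        rw [abs_of_nonneg (by exact_mod_cast huI.1)]
        exact_mod_cast huI.2.le
      have h2 : |γ * ((b : ℝ) - a)| ≤ |γ| * (b + a) := by
        rw [abs_mul]
        refine mul_le_mul_of_nonneg_left (abs_le.mpr ⟨by linarith, by linarith⟩) (abs_nonneg γ)
      have h3 : |(v : ℝ) * a| ≤ (q : ℝ) * b + |γ| * (b + a) + Del ψ d a b := by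
        have e : (v : ℝ) * a = (u : ℝ) * b + γ * ((b : ℝ) - a)
            - (((u * b - v * a : ℤ) : ℝ) + γ * ((b : ℝ) - a)) := by push_cast; ring
        rw [e]
        refine (abs_sub _ _).trans (add_le_add ((abs_add_le _ _).trans (add_le_add ?_ h2)) hres.le)
        rw [abs_mul, Nat.abs_cast]
        exact mul_le_mul_of_nonneg_right hu0 hbR.le
      have h4 : |(v : ℝ)| * 1 ≤ |(v : ℝ)| * a :=
        mul_le_mul_of_nonneg_left (by exact_mod_cast ha) (abs_nonneg _)
      rw [abs_mul, Nat.abs_cast] at h3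
      have hqab : (q : ℝ) * b = (d : ℝ) * a * b := by rw [hq]; push_cast; ring
      linarith
    refine Set.mem_iUnion₂.mpr ⟨(u, v), ?_, ?_, ?_⟩
    · simp only [pairs, Finset.mem_filter, Finset.mem_product, Finset.mem_Icc]
      refine ⟨⟨huI, ?_⟩, hu, hv, hres⟩
      have := (Int.le_ceil ((d : ℝ) * a * b + |γ| * (b + a) + Del ψ d a b))
      have h5 : |v| ≤ ⌈(d : ℝ) * a * b + |γ| * (b + a) + Del ψ d a b⌉ := by
        have : ((|v| : ℤ) : ℝ) ≤ _ := (by push_cast; exact hvI.trans this)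
        exact Int.cast_le.mp this
      exact abs_le.mp h5
    · simp only [Set.mem_Ioo, div_lt_iff₀ hqR, lt_div_iff₀ hqR]
      constructor <;> linarith
    · simp only [Set.mem_Ioo, div_lt_iff₀ hrR, lt_div_iff₀ hrR]
      constructor <;> linarith
  have hvol : volume (A γ ψ q ∩ A γ ψ r ∩ Set.Ioc ((γ - 1 / 2) / q) ((γ - 1 / 2) / q + 1)) ≤
      ((pairs γ ψ d a b).card : ℕ) * ENNReal.ofReal (2 * rad ψ d a b) := by
    refine (measure_mono hsub).trans ((measure_biUnion_finset_le _ _).trans ?_)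
    rw [← nsmul_eq_mul, ← Finset.sum_const]
    refine Finset.sum_le_sum fun x _ => ?_
    rw [rad, ← hq, ← hr, mul_min_of_nonneg _ _ (by norm_num : (0 : ℝ) ≤ 2), ENNReal.ofReal_min]
    refine le_min ?_ ?_
    · refine (measure_mono Set.inter_subset_left).trans (le_of_eq ?_)
      rw [Real.volume_Ioo]; congr 1; field_simp; ring
    · refine (measure_mono Set.inter_subset_right).trans (le_of_eq ?_)
      rw [Real.volume_Ioo]; congr 1; field_simp; ring
  refine (ENNReal.toReal_mono (by finiteness) hvol).trans (le_of_eq ?_)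
  rw [ENNReal.toReal_mul, ENNReal.toReal_natCast, ENNReal.toReal_ofReal (by linarith)]
  ring

/-- A finite set of integers in an open interval. -/
lemma card_le_of_bounds (S : Finset ℤ) {l u : ℝ} (h0 : l ≤ u) (h : ∀ x ∈ S, l < x ∧ x < u) :
    (S.card : ℝ) ≤ u - l + 1 := by
  rcases S.eq_empty_or_nonempty with rfl | hne
  · simp; linarith
  · have hsub : S ⊆ Finset.Icc (S.min' hne) (S.max' hne) := fun x hx =>
      Finset.mem_Icc.mpr ⟨S.min'_le x hx, S.le_max' x hx⟩
    have h1 : (S.card : ℤ) ≤ S.max' hne + 1 - S.min' hne := by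
      have h2 := Finset.card_le_card hsub
      rw [Int.card_Icc] at h2
      have := S.min'_le _ (S.max'_mem hne)
      omega
    have h2 : (S.card : ℝ) ≤ (S.max' hne : ℝ) + 1 - (S.min' hne : ℝ) := by exact_mod_cast h1
    linarith [(h _ (S.max'_mem hne)).2, (h _ (S.min'_mem hne)).1]

lemma class_index {α x s : ℤ} {m N n : ℕ} (hα : 0 ≤ α) (hαm : α < m) (hx : 0 ≤ x) (hxN : x < N)
    (hN : N = m * n) (hs : x = α + (m : ℤ) * s) : 0 ≤ s ∧ s < n := by
  subst hN hs
  push_cast at hxN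
  have hm : (0 : ℤ) < m := by omega
  constructor
  · have : (m : ℤ) * (-1) < m * s := by linarith
    have := lt_of_mul_lt_mul_left this hm.le
    omega
  · exact lt_of_mul_lt_mul_left (show (m : ℤ) * s < m * n by linarith) hm.le

/-- Meeting pairs in prescribed residue classes. -/
theorem card_class_le {d a b m m' : ℕ} (hd : 0 < d) (ha : 0 < a) (hb : 0 < b) (hab : a.Coprime b)
    (hm : m ∣ d * a) (hm' : m' ∣ d * b) (hΔ : 0 ≤ Del ψ d a b) {α β : ℤ} (hα : 0 ≤ α) (hαm : α < m) :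
    (((pairs γ ψ d a b).filter fun x => (m : ℤ) ∣ x.1 - α ∧ (m' : ℤ) ∣ x.2 - β).card : ℝ) ≤
      (d : ℝ) / (m * m') * (2 * Del ψ d a b + m * m') := by
  classical
  have hm0 : 0 < m := Nat.pos_of_dvd_of_pos hm (by positivity)
  have hm0' : 0 < m' := Nat.pos_of_dvd_of_pos hm' (by positivity)
  set u := m * b with hu
  set v := m' * a with hv
  set g := Nat.gcd u v with hg
  have hg0 : 0 < g := Nat.gcd_pos_of_pos_left _ (by positivity)
  obtain ⟨u', hu'⟩ : g ∣ u := Nat.gcd_dvd_left u v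
  obtain ⟨v', hv'⟩ : g ∣ v := Nat.gcd_dvd_right u v
  have hv0 : 0 < v' := by
    rcases Nat.eq_zero_or_pos v' with h | h
    · have : (0 : ℕ) < v := by positivity
      rw [hv', h, Nat.mul_zero] at this; omega
    · exact h
  have hcop : IsCoprime (v' : ℤ) (u' : ℤ) := by
    refine Int.isCoprime_iff_nat_coprime.mpr ?_
    simp only [Int.natAbs_natCast]
    have e1 : u / g = u' := by rw [hu', Nat.mul_div_cancel_left _ hg0]
    have e2 : v / g = v' := by rw [hv', Nat.mul_div_cancel_left _ hg0]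
    exact e1 ▸ e2 ▸ (Nat.coprime_div_gcd_div_gcd hg0).symm
  obtain ⟨n, hn⟩ := hm
  have hdvd : v' ∣ n := by
    have h1 : v ∣ u * n := by
      rw [hu, show m * b * n = d * b * a by rw [mul_right_comm, ← hn]; ring]
      exact Nat.mul_dvd_mul hm' (dvd_refl a)
    rw [hu', hv', mul_assoc] at h1
    exact (Int.natCast_dvd_natCast.mp
      (hcop.dvd_of_dvd_mul_left (by exact_mod_cast Nat.dvd_of_mul_dvd_mul_left hg0 h1)))
  obtain ⟨h, hh⟩ := hdvd
  have hhg : h * (m * m') = d * g := by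
    refine Nat.eq_of_mul_eq_mul_right ha ?_
    calc h * (m * m') * a = h * m * v := by rw [hv]; ring
      _ = m * (v' * h) * g := by rw [hv']; ring
      _ = d * g * a := by rw [← hh, ← hn]; ring
  have hgle : g ≤ m * m' := by
    refine Nat.le_of_dvd (by positivity) ?_
    have h1 : g ∣ m * m' * b := (Nat.gcd_dvd_left u v).trans (by rw [hu]; exact ⟨m', by ring⟩)
    have h2 : g ∣ m * m' * a := (Nat.gcd_dvd_right u v).trans (by rw [hv]; exact ⟨m, by ring⟩)
    have h3 := Nat.dvd_gcd h1 h2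
    rwa [Nat.gcd_mul_left, Nat.Coprime.gcd_eq_one hab.symm, mul_one] at h3
  set S := (pairs γ ψ d a b).filter fun x => (m : ℤ) ∣ x.1 - α ∧ (m' : ℤ) ∣ x.2 - β with hS
  have hmem : ∀ x ∈ S, 0 ≤ x.1 ∧ x.1 < (d * a : ℕ) ∧
      |((x.1 * b - x.2 * a : ℤ) : ℝ) + γ * ((b : ℝ) - a)| < Del ψ d a b ∧
      (∃ s, x.1 = α + (m : ℤ) * s) ∧ ∃ t, x.2 = β + (m' : ℤ) * t := by
    intro x hx
    obtain ⟨hx, ⟨s, hs⟩, t, ht⟩ := Finset.mem_filter.mp hx
    simp only [pairs, Finset.mem_filter, Finset.mem_product, Finset.mem_Ico] at hx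
    exact ⟨hx.1.1.1, hx.1.1.2, hx.2.2.2, ⟨s, by linarith⟩, t, by linarith⟩
  set L0 : ℤ := α * b - β * a
  -- the values of `(L - L0) / g`
  set f : ℤ × ℤ → ℤ := fun x => (x.1 * b - x.2 * a - L0) / g with hf
  have hfib : ∀ j ∈ S.image f, (S.filter fun x => f x = j).card ≤ h := by
    intro j _
    refine (Finset.card_le_card_of_injOn (fun x => ((x.1 - α) / m / v').toNat)
      (t := Finset.range h) ?_ ?_).trans (Finset.card_range h).le
    · intro x hx
      obtain ⟨h0, h1, -, ⟨s, hs⟩, -⟩ := hmem x (Finset.mem_filter.mp hx).1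
      simp only [Finset.coe_range, Set.mem_Iio]
      rw [hs, add_sub_cancel_left, Int.mul_ediv_cancel_left _ (by exact_mod_cast hm0.ne')]
      have hsn : s < (n : ℤ) := (class_index hα hαm h0 h1 hn hs).2
      have hh0 : 0 < h := by
        rcases Nat.eq_zero_or_pos h with e | e
        · rw [e, mul_zero] at hh
          have : (0 : ℕ) < d * a := by positivity
          rw [hn, hh, mul_zero] at this; omega
        · exact e
      have : s / (v' : ℤ) < h := by
        rw [Int.ediv_lt_iff_lt_mul (by exact_mod_cast hv0)]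
        calc s < (n : ℤ) := hsn
          _ = (h : ℤ) * v' := by rw [hh]; push_cast; ring
      omega
    · intro x hx y hy hxy
      obtain ⟨hx, hxj⟩ := Finset.mem_filter.mp hx
      obtain ⟨hy, hyj⟩ := Finset.mem_filter.mp hy
      obtain ⟨h0, h1, -, ⟨s, hs⟩, ⟨t, ht⟩⟩ := hmem x hx
      obtain ⟨h0', h1', -, ⟨s', hs'⟩, ⟨t', ht'⟩⟩ := hmem y hy
      have hs0 : 0 ≤ s := (class_index hα hαm h0 h1 hn hs).1
      have hs0' : 0 ≤ s' := (class_index hα hαm h0' h1' hn hs').1
      have eF : ∀ s t : ℤ, ((α + m * s) * b - (β + m' * t) * a - L0) / g =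
          (u' : ℤ) * s - v' * t := by
        intro s t
        have e1 : ((α + m * s) * b - (β + m' * t) * a - L0) = (g : ℤ) * (u' * s - v' * t) := by
          have e2 : (m : ℤ) * b = g * u' := by exact_mod_cast hu'
          have e3 : (m' : ℤ) * a = g * v' := by exact_mod_cast hv'
          simp only [L0]; linear_combination s * e2 - t * e3
        rw [e1, Int.mul_ediv_cancel_left _ (by exact_mod_cast hg0.ne')]
      have e : (u' : ℤ) * s - v' * t = u' * s' - v' * t' := by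
        rw [← eF, ← eF, ← hs, ← ht, ← hs', ← ht']; exact hxj.trans hyj.symm
      obtain ⟨z, hz⟩ : (v' : ℤ) ∣ s - s' :=
        hcop.dvd_of_dvd_mul_left ⟨t - t', by linarith⟩
      simp only [hs, hs', add_sub_cancel_left,
        Int.mul_ediv_cancel_left _ (show (m : ℤ) ≠ 0 by exact_mod_cast hm0.ne')] at hxy
      have hz0 : z = 0 := by
        have e1 : s / (v' : ℤ) = s' / v' + z := by
          rw [show s = s' + z * v' by linarith,
            Int.add_mul_ediv_right _ _ (by exact_mod_cast hv0.ne')]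
        have p1 := Int.ediv_nonneg hs0 (show (0 : ℤ) ≤ v' by positivity)
        have p2 := Int.ediv_nonneg hs0' (show (0 : ℤ) ≤ v' by positivity)
        omega
      rw [hz0, mul_zero, sub_eq_zero] at hz
      subst hz
      have : (v' : ℤ) * t = v' * t' := by linarith
      have : t = t' := mul_left_cancel₀ (by exact_mod_cast hv0.ne') this
      exact Prod.ext (by rw [hs, hs']) (by rw [ht, ht', this])
  have hgR : (0 : ℝ) < g := by exact_mod_cast hg0
  have himg : ((S.image f).card : ℝ) ≤ 2 * Del ψ d a b / g + 1 := by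
    set c : ℝ := (L0 : ℝ) + γ * ((b : ℝ) - a) with hc
    refine (card_le_of_bounds _ (l := (-Del ψ d a b - c) / g) (u := (Del ψ d a b - c) / g)
      (by gcongr; linarith) fun j hj => ?_).trans (le_of_eq (by field_simp; ring))
    obtain ⟨x, hx, rfl⟩ := Finset.mem_image.mp hj
    obtain ⟨-, -, hlt, ⟨s, hs⟩, ⟨t, ht⟩⟩ := hmem x hx
    have hdiv : (g : ℤ) ∣ x.1 * b - x.2 * a - L0 := by
      refine ⟨u' * s - v' * t, ?_⟩
      have e2 : (m : ℤ) * b = g * u' := by exact_mod_cast hu'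
      have e3 : (m' : ℤ) * a = g * v' := by exact_mod_cast hv'
      rw [hs, ht]; simp only [L0]; linear_combination s * e2 - t * e3
    have e : ((f x : ℤ) : ℝ) * g = ((x.1 * b - x.2 * a - L0 : ℤ) : ℝ) := by
      rw [hf]; exact_mod_cast Int.ediv_mul_cancel hdiv
    obtain ⟨l1, l2⟩ := abs_lt.mp hlt
    rw [div_lt_iff₀ hgR, lt_div_iff₀ hgR, e, hc]
    push_cast at *
    constructor <;> linarith
  have hS' : (S.card : ℝ) ≤ h * (S.image f).card := by
    exact_mod_cast Finset.card_le_mul_card_image S h hfib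
  refine hS'.trans ((mul_le_mul_of_nonneg_left himg (Nat.cast_nonneg h)).trans ?_)
  have hmm : (0 : ℝ) < (m : ℝ) * m' := by positivity
  have hh' : (h : ℝ) = d * g / (m * m') := by
    rw [eq_div_iff hmm.ne']; exact_mod_cast hhg
  rw [hh']
  calc (d : ℝ) * g / (m * m') * (2 * Del ψ d a b / g + 1)
      = (d : ℝ) / (m * m') * (2 * Del ψ d a b + g) := by field_simp
    _ ≤ _ := by
      refine mul_le_mul_of_nonneg_left ?_ (by positivity)
      have : (g : ℝ) ≤ (m : ℝ) * m' := by exact_mod_cast hgle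
      linarith

/-- All meeting pairs. -/
theorem card_pairs_le {d a b : ℕ} (hd : 0 < d) (ha : 0 < a) (hb : 0 < b) (hab : a.Coprime b)
    (hΔ : 0 ≤ Del ψ d a b) :
    ((pairs γ ψ d a b).card : ℝ) ≤ d * (2 * Del ψ d a b + 1) := by
  have h := card_class_le (γ := γ) (ψ := ψ) hd ha hb hab (one_dvd _) (one_dvd _) hΔ
    (α := 0) (β := 0) le_rfl (by norm_num)
  simpa using h

/-- The density of kept numerators seen by the primes up to `T`. -/
noncomputable def densT (γ : ℝ) (T q : ℕ) : ℝ :=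
  ∏ p ∈ q.primeFactors.filter (fun p => p ≤ T ∧ ¬ p ∣ (approx γ q).2), (1 - 1 / (p : ℝ))

lemma densT_le {T q : ℕ} :
    densT γ T q ≤ dens γ q * ∏ p ∈ q.primeFactors.filter (fun p => T < p), (1 - 1 / (p : ℝ))⁻¹ := by
  set s := q.primeFactors.filter fun p => ¬ p ∣ (approx γ q).2 with hs
  have hf : ∀ p ∈ q.primeFactors, 0 < (1 - 1 / (p : ℝ))⁻¹ ∧ 1 ≤ (1 - 1 / (p : ℝ))⁻¹ := fun p hp =>
    ⟨inv_pos.mpr (dens_factor hp).1, one_le_inv_iff₀.mpr (dens_factor hp)⟩
  have e1 : q.primeFactors.filter (fun p => p ≤ T ∧ ¬ p ∣ (approx γ q).2) = s.filter (· ≤ T) := by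
    ext p; simp only [hs, Finset.mem_filter]; tauto
  rw [densT, e1, dens, ← hs, ← Finset.prod_filter_mul_prod_filter_not s (· ≤ T)
    (fun p => (1 - 1 / (p : ℝ)))]
  have hsub : s.filter (fun p => ¬ p ≤ T) ⊆ q.primeFactors.filter (fun p => T < p) := by
    intro p hp
    simp only [hs, Finset.mem_filter] at hp ⊢
    exact ⟨hp.1.1, by omega⟩
  have h2 : ∏ p ∈ s.filter (fun p => ¬ p ≤ T), (1 - 1 / (p : ℝ))⁻¹ ≤
      ∏ p ∈ q.primeFactors.filter (fun p => T < p), (1 - 1 / (p : ℝ))⁻¹ :=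
    Finset.prod_le_prod_of_subset_of_one_le hsub
      (fun p hp => (hf p (Finset.mem_filter.mp (hsub hp)).1).1.le)
      fun p hp _ => (hf p (Finset.mem_filter.mp hp).1).2
  have hpf : ∀ p ∈ s, p ∈ q.primeFactors := fun p hp => (Finset.mem_filter.mp hp).1
  have hA : 0 < ∏ p ∈ s.filter (· ≤ T), (1 - 1 / (p : ℝ)) :=
    Finset.prod_pos fun p hp => (dens_factor (hpf p (Finset.mem_filter.mp hp).1)).1
  have hB : 0 < ∏ p ∈ s.filter (fun p => ¬ p ≤ T), (1 - 1 / (p : ℝ)) :=
    Finset.prod_pos fun p hp => (dens_factor (hpf p (Finset.mem_filter.mp hp).1)).1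
  rw [Finset.prod_inv_distrib] at h2
  rw [mul_assoc]
  calc ∏ p ∈ s.filter (· ≤ T), (1 - 1 / (p : ℝ))
      = (∏ p ∈ s.filter (· ≤ T), (1 - 1 / (p : ℝ))) *
        ((∏ p ∈ s.filter (fun p => ¬ p ≤ T), (1 - 1 / (p : ℝ))) *
          (∏ p ∈ s.filter (fun p => ¬ p ≤ T), (1 - 1 / (p : ℝ)))⁻¹) := by
        rw [mul_inv_cancel₀ hB.ne', mul_one]
    _ ≤ _ := mul_le_mul_of_nonneg_left (mul_le_mul_of_nonneg_left h2 hB.le) hA.le

open Classical in
/-- Meeting pairs, sieved at the primes up to `T`. -/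
theorem card_pairs_le_sieve {d a b : ℕ} (hd : 0 < d) (ha : 0 < a) (hb : 0 < b) (hab : a.Coprime b)
    (hΔ : 0 ≤ Del ψ d a b) (T : ℕ) :
    ((pairs γ ψ d a b).card : ℝ) ≤
      25 * densT γ T (d * a) * densT γ T (d * b) * d * (2 * Del ψ d a b + 16 ^ T) := by
  set Sp : ℕ → Finset ℕ := fun q => q.primeFactors.filter fun p => p ≤ T ∧ ¬ p ∣ (approx γ q).2
  set M : ℕ → ℕ := fun q => ∏ p ∈ Sp q, p
  set R : ℕ → Finset ℤ := fun q => (Finset.Ico (0 : ℤ) (M q : ℕ)).filter
    fun x => ∀ p ∈ Sp q, ¬ (p : ℤ) ∣ ((approx γ q).2 : ℤ) * x + (approx γ q).1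
  have hpr : ∀ q, ∀ p ∈ Sp q, p.Prime := fun q p hp =>
    Nat.prime_of_mem_primeFactors (Finset.mem_filter.mp hp).1
  have hM0 : ∀ q, 0 < M q := fun q => Finset.prod_pos fun p hp => (hpr q p hp).pos
  have hMdvd : ∀ q, M q ∣ q := fun q =>
    (Finset.prod_dvd_prod_of_subset _ _ _ (Finset.filter_subset _ _)).trans
      (Nat.prod_primeFactors_dvd q)
  have hM4 : ∀ q, M q ≤ 4 ^ T := fun q => by
    refine le_trans ?_ (primorial_le_four_pow T)
    refine Finset.prod_le_prod_of_subset_of_one_le' (fun p hp => ?_) fun p hp _ => ?_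
    · have := (Finset.mem_filter.mp hp).2.1
      simp only [Finset.mem_filter, Finset.mem_range]
      exact ⟨by omega, hpr q p hp⟩
    · exact (Finset.mem_filter.mp hp).2.pos
  have hRcard : ∀ q, ((R q).card : ℝ) ≤ 5 * M q * densT γ T q := by
    intro q
    have h := (abs_le.mp (legendre (Sp q) (hpr q) ((approx γ q).2 : ℤ) (approx γ q).1 (fun p hp hd =>
      (Finset.mem_filter.mp hp).2.2 (Int.natCast_dvd_natCast.mp hd)) 0 (M q))).2
    have e1 : (M q : ℝ) * densT γ T q = ∏ p ∈ Sp q, ((p : ℝ) - 1) := by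
      rw [densT, show ((M q : ℕ) : ℝ) = ∏ p ∈ Sp q, (p : ℝ) by simp [M], ← Finset.prod_mul_distrib]
      refine Finset.prod_congr rfl fun p hp => ?_
      have : (p : ℝ) ≠ 0 := by exact_mod_cast (hpr q p hp).pos.ne'
      field_simp
    have e2 : (2 : ℝ) ^ (Sp q).card ≤ 2 * ∏ p ∈ Sp q, ((p : ℝ) - 1) := by
      rw [← Finset.prod_const, ← Finset.prod_filter_mul_prod_filter_not (Sp q) (· = 2) (fun _ => (2 : ℝ)),
        ← Finset.prod_filter_mul_prod_filter_not (Sp q) (· = 2) (fun p => (p : ℝ) - 1)]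
      have h2 : ∏ p ∈ (Sp q).filter (fun p => ¬ p = 2), (2 : ℝ) ≤
          ∏ p ∈ (Sp q).filter (fun p => ¬ p = 2), ((p : ℝ) - 1) := by
        refine Finset.prod_le_prod (fun _ _ => by norm_num) fun p hp => ?_
        have h3 := (hpr q p (Finset.mem_filter.mp hp).1).two_le
        have h4 := (Finset.mem_filter.mp hp).2
        have : (3 : ℝ) ≤ p := by exact_mod_cast (by omega : 3 ≤ p)
        linarith
      have h5 : ∏ p ∈ (Sp q).filter (· = 2), ((p : ℝ) - 1) = 1 :=
        Finset.prod_eq_one fun p hp => by rw [(Finset.mem_filter.mp hp).2]; norm_num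
      have h6 : ∏ p ∈ (Sp q).filter (· = 2), (2 : ℝ) ≤ 2 := by
        rw [Finset.prod_const]
        refine (pow_le_pow_right₀ one_le_two (Finset.card_le_one.mpr fun x hx y hy => ?_)).trans (pow_one _).le
        rw [(Finset.mem_filter.mp hx).2, (Finset.mem_filter.mp hy).2]
      rw [h5, one_mul]
      exact mul_le_mul h6 h2 (Finset.prod_nonneg fun _ _ => by norm_num) zero_le_two
    simp only [zero_add] at h
    have e3 : (2 : ℝ) ^ ((Sp q).card + 1) ≤ 4 * ((M q : ℝ) * densT γ T q) := by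
      rw [pow_succ, e1]; linarith
    have h' : ((R q).card : ℝ) - (M q : ℝ) * densT γ T q ≤ (2 : ℝ) ^ ((Sp q).card + 1) - 1 := h
    linarith
  set F : ℤ × ℤ → ℤ × ℤ := fun x => (x.1 % (M (d * a) : ℕ), x.2 % (M (d * b) : ℕ)) with hF
  have hmaps : ∀ x ∈ pairs γ ψ d a b, F x ∈ R (d * a) ×ˢ R (d * b) := by
    intro x hx
    simp only [pairs, Finset.mem_filter] at hx
    have key : ∀ q (y : ℤ), Allowed γ q y → y % (M q : ℕ) ∈ R q := by
      intro q y hy
      simp only [R, Finset.mem_filter, Finset.mem_Ico]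
      refine ⟨⟨Int.emod_nonneg _ (by exact_mod_cast (hM0 q).ne'),
        Int.emod_lt_of_pos _ (by exact_mod_cast hM0 q)⟩, fun p hp hdiv => hy p (Finset.mem_filter.mp hp).1 ?_⟩
      have hpM : (p : ℤ) ∣ ((M q : ℕ) : ℤ) :=
        Int.natCast_dvd_natCast.mpr (Finset.dvd_prod_of_mem _ hp)
      rw [show ((approx γ q).2 : ℤ) * y + (approx γ q).1 =
        ((approx γ q).2 : ℤ) * (y % (M q : ℕ)) + (approx γ q).1
          + ((approx γ q).2 : ℤ) * ((M q : ℕ) * (y / (M q : ℕ))) by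
            linear_combination -((approx γ q).2 : ℤ) * Int.emod_add_mul_ediv y (M q : ℕ)]
      exact dvd_add hdiv ((hpM.mul_right _).mul_left _)
    exact Finset.mem_product.mpr ⟨key _ _ hx.2.1, key _ _ hx.2.2.1⟩
  rw [Finset.card_eq_sum_card_fiberwise hmaps]
  push_cast
  have hterm : ∀ y ∈ R (d * a) ×ˢ R (d * b),
      (((pairs γ ψ d a b).filter fun x => F x = y).card : ℝ) ≤
        (d : ℝ) / ((M (d * a) : ℝ) * M (d * b)) * (2 * Del ψ d a b + 16 ^ T) := by
    intro y hy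
    obtain ⟨hy1, -⟩ := Finset.mem_product.mp hy
    simp only [R, Finset.mem_filter, Finset.mem_Ico] at hy1
    refine le_trans ?_ (le_trans (card_class_le (γ := γ) hd ha hb hab (hMdvd _) (hMdvd _) hΔ
      (α := y.1) (β := y.2) hy1.1.1 hy1.1.2) ?_)
    · refine Nat.cast_le.mpr (Finset.card_le_card fun x hx => ?_)
      simp only [Finset.mem_filter, hF] at hx ⊢
      refine ⟨hx.1, ?_, ?_⟩
      · rw [← hx.2]; exact Int.dvd_self_sub_emod
      · rw [← hx.2]; exact Int.dvd_self_sub_emod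
    · refine mul_le_mul_of_nonneg_left (add_le_add le_rfl ?_) (by positivity)
      calc (M (d * a) : ℝ) * M (d * b) ≤ (4 : ℝ) ^ T * 4 ^ T := by
            refine mul_le_mul ?_ ?_ (Nat.cast_nonneg _) (by positivity) <;> exact_mod_cast hM4 _
        _ = 16 ^ T := by rw [← mul_pow]; norm_num
  refine (Finset.sum_le_sum hterm).trans ?_
  rw [Finset.sum_const, nsmul_eq_mul, Finset.card_product, Nat.cast_mul]
  have hMa : (0 : ℝ) < M (d * a) := by exact_mod_cast hM0 _
  have hMb : (0 : ℝ) < M (d * b) := by exact_mod_cast hM0 _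
  have hdT : ∀ q, 0 ≤ densT γ T q := fun q =>
    Finset.prod_nonneg fun p hp => (dens_factor (Finset.mem_filter.mp hp).1).1.le
  calc ((R (d * a)).card : ℝ) * (R (d * b)).card *
        ((d : ℝ) / ((M (d * a) : ℝ) * M (d * b)) * (2 * Del ψ d a b + 16 ^ T))
      ≤ (5 * M (d * a) * densT γ T (d * a)) * (5 * M (d * b) * densT γ T (d * b)) *
        ((d : ℝ) / ((M (d * a) : ℝ) * M (d * b)) * (2 * Del ψ d a b + 16 ^ T)) := by
        have : (0 : ℝ) ≤ 2 * Del ψ d a b + 16 ^ T := by positivity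
        refine mul_le_mul_of_nonneg_right ?_ (by positivity)
        exact mul_le_mul (hRcard _) (hRcard _) (Nat.cast_nonneg _)
          (by have := hdT (d * a); positivity)
    _ = _ := by field_simp; ring

end Vale.Agent.P028.EV
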