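import Vale.Agent.P028.EV.Pair

/-!
P028, inhomogeneous Erdős–Vaaler: the trimming kills exact resonances, and the count of the
remaining narrow resonances.
-/

namespace Vale.Agent.P028.EV

open Finset Real

variable {γ : ℝ} {ψ : ℕ → ℝ}

/-- No pair of kept numerators resonates exactly along the approximation of `d * a`. -/
theorem kill {d a b : ℕ} (hd : 0 < d) (ha : 2 ≤ a) (hab : a.Coprime b) {x : ℤ × ℤ}
    (hx : x ∈ pairs γ ψ d a b) :
    ((approx γ (d * a)).2 : ℤ) * (x.1 * b - x.2 * a) + (approx γ (d * a)).1 * ((b : ℤ) - a) ≠ 0 := by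
  intro h0
  obtain ⟨p, hp, hpa⟩ := Nat.exists_prime_and_dvd (by omega : a ≠ 1)
  simp only [pairs, Finset.mem_filter] at hx
  set P := (approx γ (d * a)).1
  set Q := ((approx γ (d * a)).2 : ℤ)
  have hpI : Prime (p : ℤ) := Nat.prime_iff_prime_int.mp hp
  have hpa' : (p : ℤ) ∣ a := Int.natCast_dvd_natCast.mpr hpa
  have hpb : ¬ (p : ℤ) ∣ b := fun h =>
    hp.not_dvd_one (hab ▸ Nat.dvd_gcd hpa (Int.natCast_dvd_natCast.mp h))
  have hmem : p ∈ (d * a).primeFactors :=
    Nat.mem_primeFactors.mpr ⟨hp, hpa.mul_left d, by positivity⟩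
  apply hx.2.1 p hmem
  have h1 : (p : ℤ) ∣ (Q * x.1 + P) * b := by
    rw [show (Q * x.1 + P) * (b : ℤ) = (P + Q * x.2) * a by linear_combination h0]
    exact hpa'.mul_left _
  exact (hpI.dvd_or_dvd h1).resolve_right hpb

/-- A narrow resonance gives a good approximation of `γ`. -/
lemma reduced_of_res {L k : ℤ} (hk : k ≠ 0) {δ : ℝ} (h : |(L : ℝ) + γ * k| < δ) :
    ∃ (P : ℤ) (Q : ℕ), 0 < Q ∧ IsCoprime P (Q : ℤ) ∧ (Q : ℤ) ≤ |k| ∧
      |(Q : ℝ) * γ - P| < δ ∧ (Q : ℤ) * L + P * k = 0 := by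
  set x : ℚ := (-L : ℤ) / (k : ℤ) with hx
  have hden : 0 < x.den := x.den_pos
  have hcop : IsCoprime x.num (x.den : ℤ) := by
    rw [Int.isCoprime_iff_nat_coprime, Int.natAbs_natCast]; exact x.reduced
  have heq : (x.den : ℤ) * L + x.num * k = 0 := by
    have h1 : (x.num : ℚ) / x.den = ((-L : ℤ) : ℚ) / (k : ℤ) := by rw [Rat.num_div_den]
    rw [div_eq_div_iff (by exact_mod_cast hden.ne') (by exact_mod_cast hk)] at h1
    have h2 : x.num * k = -L * (x.den : ℤ) := by exact_mod_cast h1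
    linarith
  obtain ⟨j, hj⟩ : (x.den : ℤ) ∣ k := hcop.symm.dvd_of_dvd_mul_left ⟨-L, by linarith⟩
  have hj0 : j ≠ 0 := fun e => hk (by rw [hj, e, mul_zero])
  have hL : L = -x.num * j := by
    have : (x.den : ℤ) * L = x.den * (-x.num * j) := by rw [hj] at heq; linarith
    exact mul_left_cancel₀ (by exact_mod_cast hden.ne') this
  refine ⟨x.num, x.den, hden, hcop, ?_, ?_, heq⟩
  · rw [hj, abs_mul, Nat.abs_cast]
    exact le_mul_of_one_le_right (by positivity) (Int.one_le_abs hj0)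
  · refine lt_of_le_of_lt ?_ h
    rw [hj, hL]
    push_cast
    rw [show -(x.num : ℝ) * j + γ * (x.den * j) = j * ((x.den : ℝ) * γ - x.num) by ring, abs_mul]
    refine le_mul_of_one_le_left (abs_nonneg _) ?_
    exact_mod_cast Int.one_le_abs hj0

/-- `IsNear` from power bounds on the height. -/
lemma isNear_of_bounds {q Q : ℕ} {P : ℤ} {η E : ℝ} (hQ : 0 < Q) (hc : IsCoprime P (Q : ℤ))
    (h8 : (Q : ℝ) ^ 8 ≤ q) (hη : |(Q : ℝ) * γ - P| < η) (hqE : (q : ℝ) ≤ E) (h5 : η ^ 5 * E < 1) :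
    IsNear γ q (P, Q) := by
  refine ⟨hQ, hc, by exact_mod_cast h8, lt_of_le_of_lt ?_ h5⟩
  exact mul_le_mul (pow_le_pow_left₀ (abs_nonneg _) hη.le 5) hqE (Nat.cast_nonneg _)
    (pow_nonneg ((abs_nonneg _).trans hη.le) 5)

/-- Residues in a window. -/
lemma card_residue_le (S : Finset ℤ) {Q : ℕ} (hQ : 0 < Q) {l : ℤ} {N : ℕ}
    (h : ∀ x ∈ S, l < x ∧ x ≤ l + N) (hmod : ∀ x ∈ S, ∀ y ∈ S, (Q : ℤ) ∣ x - y) :
    (S.card : ℝ) ≤ (N : ℝ) / Q + 1 := by
  rcases S.eq_empty_or_nonempty with rfl | hne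
  · simp only [Finset.card_empty, Nat.cast_zero]; positivity
  · obtain ⟨x0, hx0⟩ := hne
    have hinj : Set.InjOn (fun x : ℤ => (x - x0) / (Q : ℤ)) S := by
      intro x hx y hy hxy
      have h1 := Int.ediv_mul_cancel (hmod x hx x0 hx0)
      have h2 := Int.ediv_mul_cancel (hmod y hy x0 hx0)
      simp only at hxy
      rw [hxy] at h1
      linarith
    rw [← Finset.card_image_of_injOn hinj]
    have hQR : (0 : ℝ) < Q := by exact_mod_cast hQ
    have hstep : ∀ z ∈ S.image (fun x : ℤ => (x - x0) / (Q : ℤ)),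
        ((l : ℝ) - x0) / Q < z ∧ (z : ℝ) ≤ ((l : ℝ) + N - x0) / Q := by
      intro z hz
      obtain ⟨x, hx, rfl⟩ := Finset.mem_image.mp hz
      have h1 : (((x - x0) / (Q : ℤ) : ℤ) : ℝ) * Q = (x : ℝ) - x0 := by
        exact_mod_cast Int.ediv_mul_cancel (hmod x hx x0 hx0)
      have h2 : (l : ℝ) < x := by exact_mod_cast (h x hx).1
      have h3 : (x : ℝ) ≤ (l : ℝ) + N := by exact_mod_cast (h x hx).2
      rw [div_lt_iff₀ hQR, le_div_iff₀ hQR, h1]
      constructor <;> linarith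
    obtain ⟨z0, hz0, hmax⟩ := Finset.exists_max_image _ id
      (Finset.Nonempty.image ⟨x0, hx0⟩ (fun x : ℤ => (x - x0) / (Q : ℤ)))
    obtain ⟨z1, hz1, hmin⟩ := Finset.exists_min_image _ id
      (Finset.Nonempty.image ⟨x0, hx0⟩ (fun x : ℤ => (x - x0) / (Q : ℤ)))
    have hsub : S.image (fun x : ℤ => (x - x0) / (Q : ℤ)) ⊆ Finset.Icc z1 z0 :=
      fun z hz => Finset.mem_Icc.mpr ⟨hmin z hz, hmax z hz⟩
    have hcard := Finset.card_le_card hsub
    rw [Int.card_Icc] at hcard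
    have hle : z1 ≤ z0 := hmin z0 hz0
    have hcI : ((S.image fun x : ℤ => (x - x0) / (Q : ℤ)).card : ℤ) ≤ z0 + 1 - z1 := by omega
    have hcR : ((S.image fun x : ℤ => (x - x0) / (Q : ℤ)).card : ℝ) ≤ (z0 : ℝ) + 1 - z1 := by
      exact_mod_cast hcI
    have e : ((l : ℝ) + N - x0) / Q - ((l : ℝ) - x0) / Q = N / Q := by ring
    linarith [(hstep z0 hz0).2, (hstep z1 hz1).1]

lemma straddle_bound {R r η : ℝ} (hR : 1 ≤ R) (_hη : 0 ≤ η) (hi : R ^ 2 ≤ r) (hr : (2 : ℝ) ^ 30 ≤ r)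
    (h : η ^ 2 * r ≤ 1) : η ^ 5 * (2 * r * R) < 1 := by
  by_contra hcon
  push Not at hcon
  have hr0 : 0 ≤ r := le_trans (by norm_num) hr
  have e4 : (η ^ 2 * r) ^ 5 ≤ 1 := pow_le_one₀ (by positivity) h
  have e5 : 1 ≤ (η ^ 5 * (2 * r * R)) ^ 2 := one_le_pow₀ hcon
  have e6 : (η ^ 5 * (2 * r * R)) ^ 2 * r ^ 3 = 4 * R ^ 2 * (η ^ 2 * r) ^ 5 := by ring
  have e7 : r ^ 3 ≤ 4 * R ^ 2 := by
    have := mul_le_mul_of_nonneg_right e5 (pow_nonneg hr0 3)
    rw [one_mul, e6] at this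
    exact this.trans (mul_le_of_le_one_right (by positivity) e4)
  have e9 : ((2 : ℝ) ^ 30) ^ 2 * r ≤ r ^ 2 * r :=
    mul_le_mul_of_nonneg_right (pow_le_pow_left₀ (by norm_num) hr 2) hr0
  nlinarith

lemma pow_eight_le {R r Y : ℝ} (hR1 : 1 ≤ R) (_hY0 : 0 ≤ Y) (hY16 : Y ^ 16 = r)
    (hi : R ^ 30 ≤ r) (hr : (2 : ℝ) ^ 30 ≤ r) : (2 * R * Y) ^ 8 ≤ r * R := by
  have hr0 : 0 < r := lt_of_lt_of_le (by norm_num) hr
  by_contra hcon
  have h3 := pow_lt_pow_left₀ (not_le.mp hcon) (by positivity) (n := 30) (by norm_num)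
  have e : ((2 * R * Y) ^ 8) ^ 30 = 2 ^ 240 * (R ^ 30) ^ 8 * (Y ^ 16) ^ 15 := by ring
  rw [e, hY16, mul_pow r R 30] at h3
  have h4 : (2 : ℝ) ^ 240 * (R ^ 30) ^ 8 * r ^ 15 ≤ 2 ^ 240 * (R ^ 30 * r ^ 7) * r ^ 15 := by
    refine mul_le_mul_of_nonneg_right (mul_le_mul_of_nonneg_left ?_ (by positivity)) (by positivity)
    rw [pow_succ' (R ^ 30) 7]
    exact mul_le_mul_of_nonneg_left (pow_le_pow_left₀ (by positivity) hi 7) (by positivity)
  have h5 : (2 : ℝ) ^ 240 ≤ r ^ 8 := by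
    calc (2 : ℝ) ^ 240 = (2 ^ 30) ^ 8 := by norm_num
      _ ≤ r ^ 8 := pow_le_pow_left₀ (by positivity) hr 8
  have h6 : (2 : ℝ) ^ 240 * (R ^ 30 * r ^ 7) * r ^ 15 ≤ r ^ 8 * (R ^ 30 * r ^ 7) * r ^ 15 := by
    gcongr
  nlinarith

lemma small_window {R r Y : ℝ} (hR1 : 1 ≤ R) (_hY0 : 0 ≤ Y) (hY16 : Y ^ 16 = r)
    (hi : R ^ 30 ≤ r) (hr : (2 : ℝ) ^ 30 ≤ r) : (R * Y / r) ^ 5 * (2 * r * R) < 1 := by
  have hr0 : 0 < r := lt_of_lt_of_le (by norm_num) hr
  rw [show (R * Y / r) ^ 5 * (2 * r * R) = 2 * R ^ 6 * Y ^ 5 / r ^ 4 by field_simp,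
    div_lt_one (by positivity)]
  by_contra hcon
  have h3 := pow_le_pow_left₀ (by positivity) (not_lt.mp hcon) 80
  have e : (2 * R ^ 6 * Y ^ 5) ^ 80 = 2 ^ 80 * (R ^ 30) ^ 16 * (Y ^ 16) ^ 25 := by ring
  rw [e, hY16] at h3
  have h4 : (2 : ℝ) ^ 80 * (R ^ 30) ^ 16 * r ^ 25 < r ^ 3 * r ^ 16 * r ^ 25 := by
    refine mul_lt_mul_of_pos_right (mul_lt_mul_of_lt_of_le_of_nonneg_of_pos ?_ (pow_le_pow_left₀ (by positivity) hi 16) (by positivity) (by positivity)) (by positivity)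
    calc (2 : ℝ) ^ 80 < (2 ^ 30) ^ 3 := by norm_num
      _ ≤ r ^ 3 := pow_le_pow_left₀ (by positivity) hr 3
  have h5 : r ^ 3 * r ^ 16 * r ^ 25 ≤ (r ^ 4) ^ 80 := by
    rw [← pow_add, ← pow_add, ← pow_mul]
    exact pow_le_pow_right₀ (le_trans (by norm_num) hr) (by norm_num)
  linarith

open Classical in
/-- Narrow resonances of a fixed `d * b` with the `d * a`, `2 ^ i * b < a ≤ 2 ^ (i+1) * b`. -/
theorem card_res_le {d b i : ℕ} {δ Y : ℝ} (hd : 0 < d) (hb : 0 < b) (hY : 2 ≤ Y)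
    (hY16 : Y ^ 16 = (d : ℝ) * b) (hi : ((2 : ℝ) ^ i) ^ 30 ≤ (d : ℝ) * b)
    (hr : (2 : ℝ) ^ 30 ≤ (d : ℝ) * b)
    (hδ : 0 < δ) (hδd : δ * d ≤ 2 ^ i) (S : Finset ℕ)
    (hS : ∀ a ∈ S, 2 ^ i * b < a ∧ a ≤ 2 ^ (i + 1) * b ∧ a.Coprime b ∧
      (pairs γ ψ d a b).Nonempty ∧ Del ψ d a b ≤ δ) :
    (S.card : ℝ) ≤ 32 * ((2 : ℝ) ^ i * b) * (δ + 1 / Y) := by
  set R : ℝ := (2 : ℝ) ^ i with hR
  set r : ℝ := (d : ℝ) * b with hrdef
  have hR1 : 1 ≤ R := one_le_pow₀ one_le_two
  have hdR : (0 : ℝ) < d := by exact_mod_cast hd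
  have hbR : (0 : ℝ) < b := by exact_mod_cast hb
  have hr0 : 0 < r := by positivity
  have hrhs : 0 ≤ 32 * (R * b) * (δ + 1 / Y) := by positivity
  -- the resonance of each element
  have hL : ∀ a ∈ S, ∃ L : ℤ, |(L : ℝ) + γ * (((b : ℤ) - a : ℤ) : ℝ)| < δ ∧
      ((approx γ (d * a)).2 : ℤ) * L + (approx γ (d * a)).1 * ((b : ℤ) - a) ≠ 0 := by
    intro a ha
    obtain ⟨h1, -, hc, ⟨x, hx⟩, hDel⟩ := hS a ha
    have ha2 : 2 ≤ a := by
      have : 1 ≤ 2 ^ i * b := Nat.one_le_iff_ne_zero.mpr (by positivity)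
      omega
    refine ⟨x.1 * b - x.2 * a, ?_, kill hd ha2 hc hx⟩
    simp only [pairs, Finset.mem_filter] at hx
    have := hx.2.2.2.trans_le hDel
    push_cast at this ⊢
    exact this
  choose! L hLlt hLne using hL
  have haR : ∀ a ∈ S, R * b < a ∧ (a : ℝ) ≤ 2 * R * b := by
    intro a ha
    obtain ⟨h1, h2, -⟩ := hS a ha
    refine ⟨by rw [hR]; exact_mod_cast h1, ?_⟩
    have : (a : ℝ) ≤ (2 : ℝ) ^ (i + 1) * b := by exact_mod_cast h2
    rwa [pow_succ, mul_comm ((2 : ℝ) ^ i) 2] at this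
  have hk : ∀ a ∈ S, (b : ℤ) - a ≠ 0 ∧ |((((b : ℤ) - a) : ℤ) : ℝ)| ≤ 2 * R * b := by
    intro a ha
    obtain ⟨h1, h2⟩ := haR a ha
    have : (b : ℝ) < a := lt_of_le_of_lt (le_mul_of_one_le_left hbR.le hR1) h1
    refine ⟨fun e => ?_, ?_⟩
    · have : (b : ℤ) = a := by linarith
      have : (b : ℝ) = a := by exact_mod_cast this
      linarith
    · push_cast
      rw [abs_of_neg (by linarith)]
      linarith
  have hq : ∀ a ∈ S, r * R ≤ ((d * a : ℕ) : ℝ) ∧ ((d * a : ℕ) : ℝ) ≤ 2 * r * R := by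
    intro a ha
    obtain ⟨h1, h2⟩ := haR a ha
    push_cast
    rw [hrdef]
    constructor <;> nlinarith
  have hq14 : ∀ a ∈ S, 2 ^ 14 ≤ d * a := by
    intro a ha
    have : ((2 ^ 14 : ℕ) : ℝ) ≤ ((d * a : ℕ) : ℝ) := by
      refine le_trans ?_ (le_trans (le_mul_of_one_le_right hr0.le hR1) (hq a ha).1)
      push_cast; linarith [show (2 : ℝ) ^ 14 ≤ 2 ^ 30 by norm_num]
    exact_mod_cast this
  -- an element resonating along the straddle of its height cannot exist
  have hno : ∀ a ∈ S, ∀ (P : ℤ) (Q : ℕ) (η : ℝ), 0 < Q → IsCoprime P (Q : ℤ) →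
      (Q : ℝ) ^ 8 ≤ r * R → |(Q : ℝ) * γ - P| < η → η ^ 5 * (2 * r * R) < 1 →
      (Q : ℤ) * L a + P * ((b : ℤ) - a) ≠ 0 := by
    intro a ha P Q η hQ hc h8 hη h5
    have := approx_eq (hq14 a ha) (isNear_of_bounds hQ hc (h8.trans (hq a ha).1) hη (hq a ha).2 h5)
    have h' := hLne a ha
    rwa [this] at h'
  by_cases hbY : (b : ℝ) < Y
  · -- every resonance is along the straddle
    suffices S = ∅ by rw [this]; simpa using hrhs
    refine Finset.eq_empty_of_forall_notMem fun a ha => ?_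
    obtain ⟨P, Q, hQ, hc, hQk, hη, h0⟩ := reduced_of_res (hk a ha).1 (hLlt a ha)
    refine hno a ha P Q δ hQ hc ?_ hη ?_ h0
    · have h1 : (Q : ℝ) ≤ 2 * R * Y := by
        have : ((Q : ℤ) : ℝ) ≤ ((|(b : ℤ) - a| : ℤ) : ℝ) := by exact_mod_cast hQk
        push_cast at this
        have h2 := (hk a ha).2
        push_cast at h2
        nlinarith
      refine (pow_le_pow_left₀ (Nat.cast_nonneg _) h1 8).trans ?_
      exact pow_eight_le hR1 (by linarith) hY16 hi hr
    · -- `δ ≤ R b / r`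
      have hδ' : δ ≤ R * Y / r := by
        rw [le_div_iff₀ hr0, hrdef]
        calc δ * ((d : ℝ) * b) = (δ * d) * b := by ring
          _ ≤ R * Y := mul_le_mul hδd hbY.le hbR.le (by positivity)
      refine lt_of_le_of_lt (mul_le_mul_of_nonneg_right (pow_le_pow_left₀ hδ.le hδ' 5) (by positivity)) ?_
      exact small_window hR1 (by linarith) hY16 hi hr
  · -- a Dirichlet approximation at the scale of the window
    push Not at hbY
    set N : ℕ := 2 ^ i * b with hN
    have hNR : (N : ℝ) = R * b := by simp [hN, hR]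
    have hN1 : 1 ≤ N := Nat.one_le_iff_ne_zero.mpr (by positivity)
    obtain ⟨x, hxd, hxden⟩ := Real.exists_rat_abs_sub_le_and_den_le γ (n := 4 * N) (by omega)
    set P := x.num with hPdef
    set Q := x.den with hQdef
    have hQ : 0 < Q := x.den_pos
    have hQR : (0 : ℝ) < Q := by exact_mod_cast hQ
    have hc : IsCoprime P (Q : ℤ) := by
      rw [Int.isCoprime_iff_nat_coprime, Int.natAbs_natCast]; exact x.reduced
    set η := |(Q : ℝ) * γ - P| with hη
    have hη4 : η * (4 * (R * b)) < 1 := by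
      have h1 : η ≤ 1 / ((4 * N : ℕ) + 1) := by
        have : η = Q * |γ - (x : ℝ)| := by
          rw [hη, ← abs_of_pos hQR, ← abs_mul, abs_of_pos hQR]
          congr 1
          rw [Rat.cast_def, ← hPdef, ← hQdef]
          field_simp
        rw [this]
        refine (mul_le_mul_of_nonneg_left hxd hQR.le).trans (le_of_eq ?_)
        field_simp
      rw [le_div_iff₀ (by positivity)] at h1
      push_cast at h1
      rw [hNR] at h1
      by_cases he : η = 0
      · rw [he]; simp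
      · have : 0 < η := lt_of_le_of_ne (abs_nonneg _) (Ne.symm he)
        nlinarith
    set M : ℕ → ℤ := fun a => (Q : ℤ) * L a + P * ((b : ℤ) - a) with hM
    have hMb : ∀ a ∈ S, |(M a : ℝ)| < Q * δ + 1 / 2 := by
      intro a ha
      have e : (M a : ℝ) = Q * ((L a : ℝ) + γ * (((b : ℤ) - a : ℤ) : ℝ))
          - ((Q : ℝ) * γ - P) * (((b : ℤ) - a : ℤ) : ℝ) := by simp only [hM]; push_cast; ring
      rw [e]
      refine (abs_sub _ _).trans_lt (add_lt_add_of_lt_of_le ?_ ?_)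
      · rw [abs_mul, Nat.abs_cast]
        exact mul_lt_mul_of_pos_left (hLlt a ha) hQR
      · rw [abs_mul, ← hη]
        refine (mul_le_mul_of_nonneg_left (hk a ha).2 (abs_nonneg _)).trans ?_
        linarith
    have hfib : ∀ j : ℤ, (((S.filter fun a => M a = j).image fun a : ℕ => (a : ℤ)).card : ℝ) ≤
        (R * b) / Q + 1 := by
      intro j
      rw [← hNR]
      refine card_residue_le _ hQ (l := (N : ℤ)) ?_ ?_
      · intro z hz
        obtain ⟨a, ha, rfl⟩ := Finset.mem_image.mp hz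
        obtain ⟨h1, h2, -⟩ := hS a (Finset.mem_filter.mp ha).1
        rw [pow_succ] at h2
        constructor <;> push_cast [hN] <;> norm_cast <;> nlinarith
      · intro z hz z' hz'
        obtain ⟨a, ha, rfl⟩ := Finset.mem_image.mp hz
        obtain ⟨a', ha', rfl⟩ := Finset.mem_image.mp hz'
        have e1 := (Finset.mem_filter.mp ha).2
        have e2 := (Finset.mem_filter.mp ha').2
        simp only [hM] at e1 e2
        exact hc.symm.dvd_of_dvd_mul_left ⟨L a - L a', by linarith⟩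
    have hfib' : ∀ j : ℤ, ((S.filter fun a => M a = j).card : ℝ) ≤ (R * b) / Q + 1 := fun j => by
      have h := hfib j
      rwa [Finset.card_image_of_injective _ Nat.cast_injective] at h
    have hRb : 1 ≤ R * b := one_le_mul_of_one_le_of_one_le hR1 (by exact_mod_cast hb)
    by_cases hQδ : 1 / 2 ≤ (Q : ℝ) * δ
    · have himg : ((S.image M).card : ℝ) ≤ 2 * (Q * δ + 1 / 2) + 1 := by
        refine (card_le_of_bounds _ (l := -(Q * δ + 1 / 2)) (u := Q * δ + 1 / 2)
          (by linarith) fun z hz => ?_).trans (le_of_eq (by ring))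
        obtain ⟨a, ha, rfl⟩ := Finset.mem_image.mp hz
        exact abs_lt.mp (hMb a ha)
      rw [Finset.card_eq_sum_card_image M S]
      push_cast
      refine (Finset.sum_le_sum fun j _ => hfib' j).trans ?_
      rw [Finset.sum_const, nsmul_eq_mul]
      refine (mul_le_mul_of_nonneg_right himg (by positivity)).trans ?_
      have hQN : (Q : ℝ) ≤ 4 * (R * b) := by
        rw [← hNR]; exact_mod_cast hxden
      calc (2 * (Q * δ + 1 / 2) + 1) * (R * b / Q + 1)
          ≤ (6 * (Q * δ)) * (R * b / Q + 1) := mul_le_mul_of_nonneg_right (by linarith) (by positivity)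
        _ = 6 * δ * (R * b) + 6 * δ * Q := by field_simp
        _ ≤ 32 * (R * b) * δ := by nlinarith
        _ ≤ _ := mul_le_mul_of_nonneg_left (le_add_of_nonneg_right (by positivity)) (by positivity)
    · push Not at hQδ
      have hM0 : ∀ a ∈ S, M a = 0 := fun a ha => by
        have := hMb a ha
        have h1 : |(M a : ℝ)| < 1 := by linarith
        have h2 : |M a| < 1 := by exact_mod_cast h1
        exact Int.abs_lt_one_iff.mp h2
      by_cases hQY : (Q : ℝ) ≤ Y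
      · suffices S = ∅ by rw [this]; simpa using hrhs
        refine Finset.eq_empty_of_forall_notMem fun a ha => ?_
        have h8 : (Q : ℝ) ^ 8 ≤ r * R := by
          refine (pow_le_pow_left₀ hQR.le hQY 8).trans (le_trans ?_ (le_mul_of_one_le_right hr0.le hR1))
          rw [← hY16]; exact pow_le_pow_right₀ (by linarith) (by norm_num)
        -- `η < δ` and `η < 1 / (R b)`
        obtain ⟨j, hj⟩ : (Q : ℤ) ∣ ((b : ℤ) - a) :=
          hc.symm.dvd_of_dvd_mul_left ⟨-L a, by have := hM0 a ha; simp only [hM] at this; linarith⟩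
        have hj0 : j ≠ 0 := fun e => (hk a ha).1 (by rw [hj, e, mul_zero])
        have hηδ : η < δ := by
          refine lt_of_le_of_lt ?_ (hLlt a ha)
          have hLa : L a = -P * j := by
            have h1 := hM0 a ha
            simp only [hM, hj] at h1
            have : (Q : ℤ) * L a = Q * (-P * j) := by linarith
            exact mul_left_cancel₀ (by exact_mod_cast hQ.ne') this
          rw [hLa, hj]
          push_cast
          rw [show -(P : ℝ) * j + γ * (Q * j) = j * ((Q : ℝ) * γ - P) by ring, abs_mul, ← hη]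
          exact le_mul_of_one_le_left (abs_nonneg _) (by exact_mod_cast Int.one_le_abs hj0)
        set η' := min δ (1 / (R * b)) with hη'
        have hηη' : η < η' := lt_min hηδ (by rw [lt_div_iff₀ (by positivity)]; nlinarith [abs_nonneg ((Q : ℝ) * γ - P)])
        refine hno a ha P Q η' hQ hc h8 hηη' ?_ (by simpa [hM] using hM0 a ha)
        -- either `b` or `d` is at least `√r`
        have hη0 : 0 ≤ η' := le_min hδ.le (by positivity)
        refine straddle_bound hR1 hη0 (le_trans (pow_le_pow_right₀ hR1 (by norm_num)) hi) hr ?_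
        have e1 : η' ≤ 1 / (R * b) := min_le_right _ _
        have e2 : η' * d ≤ R := (mul_le_mul_of_nonneg_right (min_le_left _ _) hdR.le).trans hδd
        rw [le_div_iff₀ (by positivity)] at e1
        have h := mul_le_mul e2 e1 (by positivity) (by positivity)
        refine le_of_mul_le_mul_left ?_ (lt_of_lt_of_le one_pos hR1)
        rw [hrdef, mul_one]
        calc R * (η' ^ 2 * ((d : ℝ) * b)) = η' * d * (η' * (R * b)) := by ring
          _ ≤ R := by simpa using h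
      · push Not at hQY
        have h : S = S.filter fun a => M a = 0 := (Finset.filter_true_of_mem hM0).symm
        rw [h]
        refine (hfib' 0).trans ?_
        have hY0 : 0 < Y := by linarith
        have h1 : R * b / Q ≤ R * b / Y := div_le_div_of_nonneg_left (by positivity) hY0 hQY.le
        have h2 : 1 ≤ R * b / Y := by
          rw [le_div_iff₀ hY0, one_mul]
          exact hbY.trans (le_mul_of_one_le_left hbR.le hR1)
        calc R * b / Q + 1 ≤ R * b / Y + R * b / Y := add_le_add h1 h2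
          _ = 2 * (R * b) * (1 / Y) := by ring
          _ ≤ 32 * (R * b) * (δ + 1 / Y) := by
            refine mul_le_mul (by nlinarith) (le_add_of_nonneg_left hδ.le) (by positivity) (by positivity)

end Vale.Agent.P028.EV
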