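import Mathlib

/-!
P028, inhomogeneous Erdős–Vaaler: definitions (see notes/P028/EV_PROOF.md).
-/

namespace Vale.Agent.P028.EV

open Finset Real

/-- The weighted prime tail `∑_{p ∣ n, p > U} log p / p`. -/
noncomputable def sTail (U n : ℕ) : ℝ :=
  ∑ p ∈ n.primeFactors.filter (fun p => U < p), log p / p

/-- `U ^ (1/4)`. -/
noncomputable def r4 (U : ℕ) : ℝ := √(√(U : ℝ))

/-- The prime tails of `n` beyond `T` are at most `k` times the threshold. -/
def Light (k : ℝ) (T n : ℕ) : Prop := ∀ U, T ≤ U → sTail U n ≤ k / r4 U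

lemma sTail_eq_zero {U n : ℕ} (h : n ≤ U) : sTail U n = 0 := by
  refine Finset.sum_eq_zero fun p hp => ?_
  obtain ⟨hp, hU⟩ := Finset.mem_filter.mp hp
  have := Nat.le_of_mem_primeFactors hp
  omega

lemma exists_light (n : ℕ) : ∃ T, 1 ≤ T ∧ Light 1 T n :=
  ⟨n + 1, by omega, fun U hU => by
    rw [sTail_eq_zero (by omega)]; exact div_nonneg zero_le_one (Real.sqrt_nonneg _)⟩

open Classical in
/-- The type of `n`: the least `T ≥ 1` beyond which all prime tails are small. -/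
noncomputable def ty (n : ℕ) : ℕ := Nat.find (exists_light n)

/-- The cut on the exponent of small weights. -/
noncomputable def cutK (T : ℕ) : ℕ := ⌈(T : ℝ) ^ (1 / 16 : ℝ)⌉₊

/-- The cut on divisors. -/
noncomputable def cutD (T : ℕ) : ℕ := ⌈exp ((T : ℝ) ^ (1 / 8 : ℝ))⌉₊

/-- `P / Q` is a very good approximation of `γ` at height `q`. -/
def IsNear (γ : ℝ) (q : ℕ) (PQ : ℤ × ℕ) : Prop :=
  0 < PQ.2 ∧ IsCoprime PQ.1 (PQ.2 : ℤ) ∧ PQ.2 ^ 8 ≤ q ∧
    |(PQ.2 : ℝ) * γ - PQ.1| ^ 5 * q < 1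

open Classical in
/-- The approximation used to trim the numerators of denominator `q`. -/
noncomputable def approx (γ : ℝ) (q : ℕ) : ℤ × ℕ :=
  if h : ∃ PQ, IsNear γ q PQ then Classical.choose h else (1, 1)

/-- The numerators kept for `q`. -/
def Allowed (γ : ℝ) (q : ℕ) (a : ℤ) : Prop :=
  ∀ p ∈ q.primeFactors, ¬ (p : ℤ) ∣ (approx γ q).2 * a + (approx γ q).1

/-- The trimmed set of denominator `q`. -/
def A (γ : ℝ) (ψ : ℕ → ℝ) (q : ℕ) : Set ℝ :=
  {x | ∃ a : ℤ, Allowed γ q a ∧ |(q : ℝ) * x - a - γ| < ψ q}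

/-- The density of the kept numerators. -/
noncomputable def dens (γ : ℝ) (q : ℕ) : ℝ :=
  ∏ p ∈ q.primeFactors.filter (fun p => ¬ p ∣ (approx γ q).2), (1 - 1 / (p : ℝ))

/-- The measure of the trimmed set, up to a universal factor. -/
noncomputable def mu (γ : ℝ) (ψ : ℕ → ℝ) (q : ℕ) : ℝ := 2 * ψ q * dens γ q

end Vale.Agent.P028.EV
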