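import Vale.Agent.P028.EV.Split

/-!
P028, inhomogeneous Erdős–Vaaler: reindexing pairs by divisor, type and dyadic class, and the
geometric sums over the classes.
-/

namespace Vale.Agent.P028.EV

open Finset Real

variable {γ : ℝ} {ψ : ℕ → ℝ}

open Classical in
/-- Sums over smaller partners, by common divisor. -/
lemma masterQ (F : Finset ℕ) {q : ℕ} (hq : 0 < q) (f : ℕ → ℕ → ℕ → ℝ)
    (hf : ∀ d a b, 0 ≤ f d a b) :
    ∑ r ∈ F.filter (fun r => 0 < r ∧ r < q), f (q.gcd r) (q / q.gcd r) (r / q.gcd r) ≤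
      ∑ d ∈ q.divisors, ∑ b ∈ (Finset.range (q / d)).filter (fun b => 0 < b ∧ (q / d).Coprime b),
        f d (q / d) b := by
  rw [Finset.sum_sigma' (f := fun d b => f d (q / d) b)]
  have hinj : Set.InjOn (fun r => (⟨q.gcd r, r / q.gcd r⟩ : (_ : ℕ) × ℕ))
      (F.filter fun r => 0 < r ∧ r < q) := by
    intro r _ r' _ h
    simp only [Sigma.mk.inj_iff, heq_eq_eq] at h
    rw [← Nat.div_mul_cancel (Nat.gcd_dvd_right q r), ← Nat.div_mul_cancel (Nat.gcd_dvd_right q r'),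
      h.2, h.1]
  refine le_trans (le_of_eq (Finset.sum_image hinj (f := fun x : (_ : ℕ) × ℕ => f x.1 (q / x.1) x.2)).symm) ?_
  refine Finset.sum_le_sum_of_subset_of_nonneg (fun x hx => ?_) fun x _ _ => hf _ _ _
  obtain ⟨r, hr, rfl⟩ := Finset.mem_image.mp hx
  obtain ⟨-, hr0, hrq⟩ := Finset.mem_filter.mp hr
  have hg : 0 < q.gcd r := Nat.gcd_pos_of_pos_left _ hq
  simp only [Finset.mem_sigma, Nat.mem_divisors, Finset.mem_filter, Finset.mem_range]
  exact ⟨⟨Nat.gcd_dvd_left q r, hq.ne'⟩, Nat.div_lt_div_of_lt_of_dvd (Nat.gcd_dvd_left q r) hrq,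
    Nat.div_pos (Nat.le_of_dvd hr0 (Nat.gcd_dvd_right q r)) hg, Nat.coprime_div_gcd_div_gcd hg⟩

open Classical in
/-- Sums over larger partners, by common divisor. -/
lemma masterR (F : Finset ℕ) {r M : ℕ} (hr : 0 < r) (hM : ∀ q ∈ F, q ≤ M) (f : ℕ → ℕ → ℕ → ℝ)
    (hf : ∀ d a b, 0 ≤ f d a b) :
    ∑ q ∈ F.filter (fun q => r < q), f (q.gcd r) (q / q.gcd r) (r / q.gcd r) ≤
      ∑ d ∈ r.divisors, ∑ a ∈ (Finset.Ioc (r / d) M).filter (fun a => a.Coprime (r / d)),
        f d a (r / d) := by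
  rw [Finset.sum_sigma' (f := fun d a => f d a (r / d))]
  have hinj : Set.InjOn (fun q => (⟨q.gcd r, q / q.gcd r⟩ : (_ : ℕ) × ℕ))
      (F.filter fun q => r < q) := by
    intro q _ q' _ h
    simp only [Sigma.mk.inj_iff, heq_eq_eq] at h
    rw [← Nat.div_mul_cancel (Nat.gcd_dvd_left q r), ← Nat.div_mul_cancel (Nat.gcd_dvd_left q' r),
      h.2, h.1]
  refine le_trans (le_of_eq (Finset.sum_image hinj (f := fun x : (_ : ℕ) × ℕ => f x.1 x.2 (r / x.1))).symm) ?_
  refine Finset.sum_le_sum_of_subset_of_nonneg (fun x hx => ?_) fun x _ _ => hf _ _ _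
  obtain ⟨q, hq, rfl⟩ := Finset.mem_image.mp hx
  obtain ⟨hqF, hrq⟩ := Finset.mem_filter.mp hq
  have hg : 0 < q.gcd r := Nat.gcd_pos_of_pos_right _ hr
  simp only [Finset.mem_sigma, Nat.mem_divisors, Finset.mem_filter, Finset.mem_Ioc]
  exact ⟨⟨Nat.gcd_dvd_right q r, hr.ne'⟩,
    ⟨Nat.div_lt_div_of_lt_of_dvd (Nat.gcd_dvd_left q r) hrq,
      (Nat.div_le_self _ _).trans (hM q hqF)⟩, Nat.coprime_div_gcd_div_gcd hg⟩

/-- Splitting a sum over the fibres of a pair of statistics. -/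
lemma sum_le_keys (s : Finset ℕ) (f : ℕ → ℝ) (t i : ℕ → ℕ) (A B : Finset ℕ) (G : ℕ → ℕ → ℝ)
    (hA : ∀ x ∈ s, t x ∈ A) (hB : ∀ x ∈ s, i x ∈ B)
    (hG : ∀ T ∈ A, ∀ j ∈ B, ∑ x ∈ s.filter (fun x => t x = T ∧ i x = j), f x ≤ G T j) :
    ∑ x ∈ s, f x ≤ ∑ T ∈ A, ∑ j ∈ B, G T j := by
  rw [← Finset.sum_fiberwise_of_maps_to (g := fun x => (t x, i x)) (t := A ×ˢ B)
    (fun x hx => Finset.mem_product.mpr ⟨hA x hx, hB x hx⟩) f,
    ← Finset.sum_product' (f := G)]
  refine Finset.sum_le_sum fun k hk => ?_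
  obtain ⟨h1, h2⟩ := Finset.mem_product.mp hk
  refine le_trans (le_of_eq ?_) (hG k.1 h1 k.2 h2)
  exact Finset.sum_congr (Finset.filter_congr fun x _ => by simp [Prod.ext_iff]) fun _ _ => rfl

lemma sum_half_range (L : ℕ) : ∑ j ∈ Finset.range L, (1 / 2 : ℝ) ^ j ≤ 2 := by
  have h := geom_sum_eq (x := (1 / 2 : ℝ)) (by norm_num) L
  rw [h, show ((1 / 2 : ℝ) - 1) = -(1 / 2) by norm_num, div_neg, div_eq_mul_inv]
  have : (0 : ℝ) ≤ (1 / 2 : ℝ) ^ L := by positivity
  norm_num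
  linarith

/-- The weight of a class beyond `d`. -/
noncomputable def win (n d i : ℕ) : ℝ :=
  if d ≤ 2 ^ i then min 1 ((d : ℝ) * 2 ^ n / 2 ^ i) else 0

lemma win_nonneg (n d i : ℕ) : 0 ≤ win n d i := by
  unfold win; split_ifs <;> positivity

lemma sum_min_pow (n L : ℕ) :
    ∑ j ∈ Finset.range L, min (1 : ℝ) ((2 : ℝ) ^ n / 2 ^ j) ≤ n + 2 := by
  rw [← Finset.sum_filter_add_sum_filter_not (Finset.range L) (· < n)]
  refine add_le_add ?_ ?_
  · refine (Finset.sum_le_card_nsmul _ _ 1 fun j _ => min_le_left _ _).trans ?_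
    rw [nsmul_eq_mul, mul_one]
    exact_mod_cast (Finset.card_le_card (t := Finset.range n) fun j hj =>
      Finset.mem_range.mpr (Finset.mem_filter.mp hj).2).trans (Finset.card_range n).le
  · calc ∑ j ∈ (Finset.range L).filter (fun j => ¬ j < n), min (1 : ℝ) ((2 : ℝ) ^ n / 2 ^ j)
        ≤ ∑ j ∈ (Finset.range L).filter (fun j => ¬ j < n), (1 / 2 : ℝ) ^ (j - n) := by
          refine Finset.sum_le_sum fun j hj => (min_le_right _ _).trans (le_of_eq ?_)
          obtain ⟨k, rfl⟩ := Nat.exists_eq_add_of_le (not_lt.mp (Finset.mem_filter.mp hj).2)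
          rw [pow_add, Nat.add_sub_cancel_left, one_div_pow]
          field_simp
      _ = ∑ k ∈ ((Finset.range L).filter (fun j => ¬ j < n)).image (fun j => j - n), (1 / 2 : ℝ) ^ k := by
          refine (Finset.sum_image fun x hx y hy h => ?_).symm
          have := (Finset.mem_filter.mp hx).2; have := (Finset.mem_filter.mp hy).2
          omega
      _ ≤ ∑ k ∈ Finset.range L, (1 / 2 : ℝ) ^ k := by
          refine Finset.sum_le_sum_of_subset_of_nonneg (fun k hk => ?_) fun _ _ _ => by positivity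
          obtain ⟨j, hj, rfl⟩ := Finset.mem_image.mp hk
          have := Finset.mem_range.mp (Finset.mem_filter.mp hj).1
          simp only [Finset.mem_range]; omega
      _ ≤ 2 := sum_half_range L

lemma sum_win_le (n d L : ℕ) : ∑ i ∈ Finset.range L, win n d i ≤ n + 2 := by
  have hex : ∃ i, d ≤ 2 ^ i := ⟨d, (Nat.lt_two_pow_self).le⟩
  set i₀ := Nat.find hex with hi₀
  have hd : (d : ℝ) ≤ 2 ^ i₀ := by exact_mod_cast Nat.find_spec hex
  calc ∑ i ∈ Finset.range L, win n d i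
      ≤ ∑ i ∈ (Finset.range L).filter (i₀ ≤ ·), min (1 : ℝ) ((2 : ℝ) ^ n / 2 ^ (i - i₀)) := by
        rw [Finset.sum_filter]
        refine Finset.sum_le_sum fun i _ => ?_
        unfold win
        split_ifs with h1 h2 h2
        · refine min_le_min_left 1 ?_
          obtain ⟨k, rfl⟩ := Nat.exists_eq_add_of_le h2
          rw [Nat.add_sub_cancel_left, pow_add, div_le_div_iff₀ (by positivity) (by positivity)]
          calc (d : ℝ) * 2 ^ n * 2 ^ k ≤ 2 ^ i₀ * 2 ^ n * 2 ^ k := by gcongr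
            _ = _ := by ring
        · exact absurd (Nat.find_min' hex h1) h2
        · positivity
        · exact le_rfl
    _ = ∑ k ∈ ((Finset.range L).filter (i₀ ≤ ·)).image (fun i => i - i₀),
          min (1 : ℝ) ((2 : ℝ) ^ n / 2 ^ k) := by
        refine (Finset.sum_image (g := fun i : ℕ => i - i₀)
          (f := fun k : ℕ => min (1 : ℝ) ((2 : ℝ) ^ n / 2 ^ k)) fun x hx y hy h => ?_).symm
        have := (Finset.mem_filter.mp hx).2; have := (Finset.mem_filter.mp hy).2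
        simp only at h; omega
    _ ≤ ∑ k ∈ Finset.range L, min (1 : ℝ) ((2 : ℝ) ^ n / 2 ^ k) := by
        refine Finset.sum_le_sum_of_subset_of_nonneg (fun k hk => ?_) fun _ _ _ => by positivity
        obtain ⟨j, hj, rfl⟩ := Finset.mem_image.mp hk
        have := Finset.mem_range.mp (Finset.mem_filter.mp hj).1
        simp only [Finset.mem_range]; omega
    _ ≤ _ := sum_min_pow n L

/-- The geometric tail of the classes above `X`. -/
lemma sum_inv_pow_above (X L : ℕ) (hX : 0 < X) :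
    ∑ i ∈ (Finset.range L).filter (fun i => X < 2 ^ i), 1 / (2 : ℝ) ^ i ≤ 2 / X := by
  rcases ((Finset.range L).filter (fun i => X < 2 ^ i)).eq_empty_or_nonempty with he | hne
  · rw [he, Finset.sum_empty]; positivity
  set S := (Finset.range L).filter (fun i => X < 2 ^ i) with hS
  set i₀ := S.min' hne
  have hi₀ : (X : ℝ) ≤ 2 ^ i₀ := by exact_mod_cast (Finset.mem_filter.mp (S.min'_mem hne)).2.le
  calc ∑ i ∈ S, 1 / (2 : ℝ) ^ i = ∑ i ∈ S, 1 / (2 : ℝ) ^ i₀ * (1 / 2) ^ (i - i₀) := by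
        refine Finset.sum_congr rfl fun i hi => ?_
        obtain ⟨k, hk⟩ : ∃ k, i = i₀ + k := Nat.exists_eq_add_of_le (S.min'_le i hi)
        rw [hk, Nat.add_sub_cancel_left, pow_add, one_div_pow]
        field_simp
    _ = 1 / (2 : ℝ) ^ i₀ * ∑ k ∈ S.image (fun i => i - i₀), (1 / 2 : ℝ) ^ k := by
        rw [← Finset.mul_sum, Finset.sum_image]
        intro x hx y hy h
        have := S.min'_le x hx; have := S.min'_le y hy
        simp only at h; omega
    _ ≤ 1 / (X : ℝ) * 2 := by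
        refine mul_le_mul (one_div_le_one_div_of_le (by exact_mod_cast hX) hi₀) ?_
          (Finset.sum_nonneg fun _ _ => by positivity) (by positivity)
        refine (Finset.sum_le_sum_of_subset_of_nonneg (t := Finset.range L) (fun k hk => ?_)
          fun _ _ _ => by positivity).trans (sum_half_range L)
        obtain ⟨j, hj, rfl⟩ := Finset.mem_image.mp hk
        have := Finset.mem_range.mp (Finset.mem_filter.mp hj).1
        simp only [Finset.mem_range]; omega
    _ = 2 / (X : ℝ) := by ring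

/-- The classes below `X`. -/
lemma sum_pow_below (X L : ℕ) :
    ∑ i ∈ (Finset.range L).filter (fun i => 2 ^ i ≤ X), (2 : ℝ) ^ i ≤ 2 * X := by
  rcases ((Finset.range L).filter (fun i => 2 ^ i ≤ X)).eq_empty_or_nonempty with he | hne
  · rw [he, Finset.sum_empty]; positivity
  set S := (Finset.range L).filter (fun i => 2 ^ i ≤ X) with hS
  set i₁ := S.max' hne
  have hi₁ : (2 : ℝ) ^ i₁ ≤ X := by exact_mod_cast (Finset.mem_filter.mp (S.max'_mem hne)).2
  calc ∑ i ∈ S, (2 : ℝ) ^ i = ∑ i ∈ S, (2 : ℝ) ^ i₁ * (1 / 2) ^ (i₁ - i) := by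
        refine Finset.sum_congr rfl fun i hi => ?_
        obtain ⟨k, hk⟩ : ∃ k, i₁ = i + k := Nat.exists_eq_add_of_le (S.le_max' i hi)
        rw [hk, Nat.add_sub_cancel_left, pow_add, one_div_pow]
        field_simp
    _ = (2 : ℝ) ^ i₁ * ∑ k ∈ S.image (fun i => i₁ - i), (1 / 2 : ℝ) ^ k := by
        rw [← Finset.mul_sum, Finset.sum_image]
        intro x hx y hy h
        have := S.le_max' x hx; have := S.le_max' y hy
        simp only at h; omega
    _ ≤ X * 2 := by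
        refine mul_le_mul hi₁ ?_ (Finset.sum_nonneg fun _ _ => by positivity) (Nat.cast_nonneg _)
        refine (Finset.sum_le_sum_of_subset_of_nonneg (t := Finset.range (i₁ + 1)) (fun k hk => ?_)
          fun _ _ _ => by positivity).trans (sum_half_range _)
        obtain ⟨j, hj, rfl⟩ := Finset.mem_image.mp hk
        simp only [Finset.mem_range]; omega
    _ = 2 * X := by ring

/-- Members of a dyadic class among the smaller partners, with an optional type. -/
lemma card_class_q (An : Anat) {a i T : ℕ} (S : Finset ℕ)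
    (hS : ∀ b ∈ S, 0 < b ∧ 2 ^ i * b < a) :
    (S.card : ℝ) ≤ (a : ℝ) / 2 ^ i ∧
      (1 ≤ T → (∀ b ∈ S, ty b = T) → (S.card : ℝ) ≤ An.R T * ((a : ℝ) / 2 ^ i)) := by
  have hle : ((a / 2 ^ i : ℕ) : ℝ) ≤ (a : ℝ) / 2 ^ i := by
    refine le_trans Nat.cast_div_le (le_of_eq ?_); push_cast; rfl
  have hsub : S ⊆ Finset.Icc 1 (a / 2 ^ i) := fun b hb => Finset.mem_Icc.mpr
    ⟨(hS b hb).1, (Nat.le_div_iff_mul_le (by positivity)).mpr (by
      rw [mul_comm]; exact (hS b hb).2.le)⟩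
  refine ⟨le_trans ?_ hle, fun hT hty => ?_⟩
  · have := Finset.card_le_card hsub
    rw [Nat.card_Icc, Nat.add_sub_cancel] at this
    exact_mod_cast this
  · refine le_trans ?_ ((An.count_rare (a / 2 ^ i) T hT).trans
      (mul_le_mul_of_nonneg_left hle (An.R_nonneg T)))
    exact_mod_cast Finset.card_le_card fun b hb => Finset.mem_filter.mpr ⟨hsub hb, hty b hb⟩

/-- Members of a dyadic class among the larger partners of a given type. -/
lemma card_class_r (An : Anat) {b i T : ℕ} (S : Finset ℕ) (hT : 1 ≤ T)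
    (hS : ∀ a ∈ S, 0 < a ∧ a ≤ 2 ^ (i + 1) * b ∧ ty a = T) :
    (S.card : ℝ) ≤ An.R T * (2 * 2 ^ i * b) := by
  refine le_trans ?_ ((An.count_rare (2 ^ (i + 1) * b) T hT).trans (le_of_eq ?_))
  · exact_mod_cast Finset.card_le_card fun a ha => Finset.mem_filter.mpr
      ⟨Finset.mem_Icc.mpr ⟨(hS a ha).1, (hS a ha).2.1⟩, (hS a ha).2.2⟩
  · push_cast; ring

lemma cutK_bounds {T : ℕ} (hT : 1 ≤ T) : 1 ≤ cutK T ∧ cutK T ≤ T := by
  have h1 : (1 : ℝ) ≤ T := by exact_mod_cast hT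
  refine ⟨?_, Nat.ceil_le.mpr ?_⟩
  · exact Nat.one_le_iff_ne_zero.mpr (Nat.pos_iff_ne_zero.mp (Nat.ceil_pos.mpr (by positivity)))
  · calc (T : ℝ) ^ (1 / 16 : ℝ) ≤ (T : ℝ) ^ (1 : ℝ) := Real.rpow_le_rpow_of_exponent_le h1 (by norm_num)
      _ = T := Real.rpow_one _

end Vale.Agent.P028.EV
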