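import Vale.Agent.P028.EV.QI
import Vale.Agent.P028.EV.Measure
import Vale.Agent.P028.EV.Anatomy

/-!
P028, inhomogeneous Erdős–Vaaler for every shift: assembly.
-/

namespace Vale.Agent.P028.EV

open Finset Real MeasureTheory

/-- The facts of `Anatomy` in the form used by the sums. -/
lemma exists_anat : Nonempty Anat := by
  obtain ⟨C, hC, hsize⟩ := exists_size
  obtain ⟨R, hR0, hRc, hRd, hRs⟩ := exists_rare
  obtain ⟨Z, hZ0, hZt, hZs⟩ := exists_tail
  exact ⟨{
    C := max 1 C
    one_le_C := le_max_left 1 C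
    R := R
    R_nonneg := hR0
    Z := Z
    Z_nonneg := hZ0
    one_le_ty := one_le_ty
    ty_le := fun n hn => ty_le hn
    light_mul := fun a b T ha hb h1 h2 => light_mul ha hb h1 h2
    inv_totient := fun T n hT hn hl => (hsize T n hT hn hl).1.trans
      (mul_le_mul_of_nonneg_right (le_max_right 1 C) (Nat.cast_nonneg T))
    sum_inv := fun T n hT hn hl => (hsize T n hT hn hl).2.1.trans
      (mul_le_mul_of_nonneg_right (le_max_right 1 C) (Nat.cast_nonneg T))
    prod_tail := fun T n hT hn hl => (hsize T n hT hn hl).2.2.2.trans (le_max_right 1 C)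
    count_rare := hRc
    sum_rare := hRd
    tail := hZt
    summable_R := fun a b => hRs a b
    summable_half := fun a => summable_half a
    summable_Z := hZs }⟩

/-- Weak inhomogeneous Duffin–Schaeffer for every shift in the Erdős–Vaaler range. -/
theorem erdosVaaler (γ : ℝ) (ψ : ℕ → ℝ) (hψ : ∀ q, 0 ≤ ψ q) {C : ℝ}
    (hC : ∀ q : ℕ, (q : ℝ) * ψ q ≤ C)
    (hdiv : ¬ Summable fun q : ℕ => (q.totient : ℝ) * ψ q / q) :
    volume {x : ℝ | {q : ℕ | 0 < q ∧ ∃ a : ℤ, |(q : ℝ) * x - a - γ| < ψ q}.Infinite}ᶜ = 0 := by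
  obtain ⟨An⟩ := exists_anat
  set C' : ℝ := max 1 C with hC'
  have hC1 : 1 ≤ C' := le_max_left 1 C
  set ψ' : ℕ → ℝ := fun q => ψ q / (16 * C') with hψ'
  have hsmall : Small ψ' := fun q => ⟨div_nonneg (hψ q) (by positivity), by
    rw [hψ']
    simp only
    rw [← mul_div_assoc, div_le_iff₀ (by positivity)]
    linarith [hC q, le_max_right 1 C]⟩
  have hsub : {x : ℝ | {q : ℕ | x ∈ A γ ψ' q}.Infinite} ⊆
      {x : ℝ | {q : ℕ | 0 < q ∧ ∃ a : ℤ, |(q : ℝ) * x - a - γ| < ψ q}.Infinite} := by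
    intro x hx
    refine (hx.sdiff (Set.finite_singleton 0)).mono ?_
    rintro q ⟨⟨a, -, ha⟩, hq⟩
    refine ⟨Nat.pos_of_ne_zero (by simpa using hq), a, ha.trans_le ?_⟩
    exact div_le_self (hψ q) (by linarith)
  refine measure_mono_null (Set.compl_subset_compl.mpr hsub) ?_
  have hdiv' : ¬ Summable (mu γ ψ') := by
    intro hs
    refine hdiv (Summable.of_nonneg_of_le (fun q => div_nonneg (mul_nonneg (Nat.cast_nonneg _) (hψ q))
      (Nat.cast_nonneg _)) (fun q => ?_) (hs.mul_left (16 * C')))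
    rcases Nat.eq_zero_or_pos q with rfl | hq
    · simp only [Nat.cast_zero, div_zero]
      exact mul_nonneg (by positivity) (mu_nonneg (hsmall 0).1)
    · have h1 := totient_div_le_dens (γ := γ) hq.ne'
      have h2 := mul_le_mul_of_nonneg_left h1 (hψ q)
      have h3 : 0 ≤ ψ q * dens γ q := mul_nonneg (hψ q) dens_pos.le
      calc (q.totient : ℝ) * ψ q / q = ψ q * ((q.totient : ℝ) / q) := by ring
        _ ≤ 2 * (ψ q * dens γ q) := by linarith
        _ = _ := by
          rw [mu, hψ']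
          simp only
          field_simp
  exact null_compl_of_qi (fun q => A γ ψ' q) (fun q => measurableSet_A q)
    (fun q x => A_periodic q x) (mu γ ψ') (fun q => mu_nonneg (hsmall q).1) hdiv'
    (c := 1 / 2) (by norm_num) (fun u v _ huv _ => vol_Ioo_ge hsmall huv) (qi An hsmall)

end Vale.Agent.P028.EV
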