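import Vale.Agent.P028.EV.SumsR

/-!
P028, inhomogeneous Erdős–Vaaler: quasi-independence on average, and the lower bound in intervals.
-/

namespace Vale.Agent.P028.EV

open Finset Real MeasureTheory

variable {γ : ℝ} {ψ : ℕ → ℝ}

lemma two_pow_card_le_prod (S : Finset ℕ) (hS : ∀ p ∈ S, p.Prime) :
    (2 : ℝ) ^ S.card ≤ 2 * ∏ p ∈ S, ((p : ℝ) - 1) := by
  have key : ∀ T : Finset ℕ, (∀ p ∈ T, 3 ≤ p) → (2 : ℝ) ^ T.card ≤ ∏ p ∈ T, ((p : ℝ) - 1) := by
    intro T hT
    rw [← Finset.prod_const]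
    refine Finset.prod_le_prod (fun _ _ => by norm_num) fun p hp => ?_
    have : (3 : ℝ) ≤ p := by exact_mod_cast hT p hp
    linarith
  by_cases h2 : 2 ∈ S
  · rw [← Finset.mul_prod_erase S _ h2, ← Finset.card_erase_add_one h2, pow_succ]
    have := key (S.erase 2) fun p hp => by
      have h3 := (hS p (Finset.mem_of_mem_erase hp)).two_le
      have h4 := Finset.ne_of_mem_erase hp
      omega
    norm_num
    linarith
  · have := key S fun p hp => by
      have h3 := (hS p hp).two_le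
      have h4 : p ≠ 2 := fun e => h2 (e ▸ hp)
      omega
    have h5 : (0 : ℝ) ≤ (2 : ℝ) ^ S.card := by positivity
    linarith

open Classical in
/-- Kept numerators in a window. -/
lemma allowed_count {q : ℕ} (_hq : q ≠ 0) (x : ℤ) (L : ℕ) :
    |((((Finset.Ico x (x + L)).filter fun a => Allowed γ q a).card : ℕ) : ℝ) - L * dens γ q| ≤
      (2 : ℝ) ^ ((q.primeFactors.filter fun p => ¬ p ∣ (approx γ q).2).card + 1) := by
  obtain ⟨hcop, -⟩ := approx_cop (γ := γ) (q := q)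
  set P := (approx γ q).1
  set Q := (approx γ q).2
  set S := q.primeFactors.filter fun p => ¬ p ∣ Q with hS
  have hpr : ∀ p ∈ S, p.Prime := fun p hp => Nat.prime_of_mem_primeFactors (Finset.mem_filter.mp hp).1
  have hiff : ∀ a : ℤ, Allowed γ q a ↔ ∀ p ∈ S, ¬ (p : ℤ) ∣ (Q : ℤ) * a + P := by
    intro a
    refine ⟨fun h p hp => h p (Finset.mem_filter.mp hp).1, fun h p hp => ?_⟩
    by_cases hpQ : p ∣ Q
    · intro hd
      have hpI : Prime (p : ℤ) := Nat.prime_iff_prime_int.mp (Nat.prime_of_mem_primeFactors hp)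
      have h1 : (p : ℤ) ∣ (Q : ℤ) * a := (Int.natCast_dvd_natCast.mpr hpQ).mul_right a
      have h2 : (p : ℤ) ∣ P := (dvd_add_right h1).mp hd
      exact hpI.not_isUnit (hcop.isUnit_of_dvd' h2 (Int.natCast_dvd_natCast.mpr hpQ))
    · exact h p (Finset.mem_filter.mpr ⟨hp, hpQ⟩)
  rw [Finset.filter_congr fun a _ => hiff a]
  refine (legendre S hpr (Q : ℤ) P (fun p hp hd =>
    (Finset.mem_filter.mp hp).2 (Int.natCast_dvd_natCast.mp hd)) x L).trans ?_
  linarith

open Classical in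
lemma card_allowed_le {q : ℕ} (hq : q ≠ 0) :
    (((Finset.Ico (0 : ℤ) (q : ℕ)).filter fun a => Allowed γ q a).card : ℝ) ≤ 5 * (q * dens γ q) := by
  have h := (abs_le.mp (allowed_count (γ := γ) hq 0 q)).2
  simp only [zero_add] at h
  set S := q.primeFactors.filter fun p => ¬ p ∣ (approx γ q).2 with hS
  have hpr : ∀ p ∈ S, p.Prime := fun p hp => Nat.prime_of_mem_primeFactors (Finset.mem_filter.mp hp).1
  have hle : ∏ p ∈ S, ((p : ℝ) - 1) ≤ (q : ℝ) * dens γ q := by
    have e : (∏ p ∈ S, (p : ℝ)) * dens γ q = ∏ p ∈ S, ((p : ℝ) - 1) := by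
      rw [dens, ← hS, ← Finset.prod_mul_distrib]
      refine Finset.prod_congr rfl fun p hp => ?_
      have : (p : ℝ) ≠ 0 := by exact_mod_cast (hpr p hp).pos.ne'
      field_simp
    rw [← e]
    refine mul_le_mul_of_nonneg_right ?_ dens_pos.le
    have : (∏ p ∈ S, p) ≤ q := Nat.le_of_dvd (Nat.pos_of_ne_zero hq)
      ((Finset.prod_dvd_prod_of_subset _ _ _ (Finset.filter_subset _ _)).trans
        (Nat.prod_primeFactors_dvd q))
    rw [← Nat.cast_prod]
    exact_mod_cast this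
  have h2 := two_pow_card_le_prod S hpr
  rw [pow_succ] at h
  linarith

lemma vol_self_le (h : Small ψ) {q : ℕ} (hq : 0 < q) :
    (volume (A γ ψ q ∩ A γ ψ q ∩ Set.Ioc 0 1)).toReal ≤ 5 * mu γ ψ q := by
  classical
  have hq1 : q * 1 = q := mul_one q
  have hψ0 := (h q).1
  have hψ1 : ψ q ≤ 1 / 16 := (h.psi_le hq).trans (by
    have : (1 : ℝ) ≤ q := by exact_mod_cast hq
    rw [div_le_div_iff₀ (by positivity) (by norm_num)]; linarith)
  have hv := volume_inter_le (γ := γ) (ψ := ψ) hq Nat.one_pos Nat.one_pos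
    (by rw [hq1]; exact hψ0) (by rw [hq1]; linarith) (by rw [hq1]; exact hψ0)
  rw [hq1] at hv
  have hrad : rad ψ q 1 1 = ψ q / q := by simp [rad]
  have hsub : pairs γ ψ q 1 1 ⊆
      ((Finset.Ico (0 : ℤ) (q : ℕ)).filter fun a => Allowed γ q a).image fun a => (a, a) := by
    intro x hx
    simp only [pairs, Finset.mem_filter, Finset.mem_product, mul_one] at hx
    obtain ⟨⟨h1, -⟩, h2, -, h4⟩ := hx
    have h5 : |x.1 - x.2| < 1 := by
      have e : |((x.1 - x.2 : ℤ) : ℝ)| < 1 := by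
        push_cast at h4 ⊢
        simp only [Del, mul_one, Nat.cast_one, one_mul, sub_self, mul_zero, add_zero] at h4
        linarith
      exact_mod_cast e
    rw [Int.abs_lt_one_iff, sub_eq_zero] at h5
    exact Finset.mem_image.mpr ⟨x.1, Finset.mem_filter.mpr ⟨h1, h2⟩, Prod.ext rfl h5⟩
  have hc : ((pairs γ ψ q 1 1).card : ℝ) ≤ 5 * (q * dens γ q) :=
    le_trans (Nat.cast_le.mpr ((Finset.card_le_card hsub).trans Finset.card_image_le))
      (card_allowed_le hq.ne')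
  refine hv.trans ((mul_le_mul_of_nonneg_left hc (by rw [hrad]; positivity)).trans (le_of_eq ?_))
  rw [hrad, mu]
  have : (q : ℝ) ≠ 0 := by positivity
  field_simp

/-- The lower bound in intervals. -/
lemma vol_Ioo_ge (h : Small ψ) {u v : ℝ} (huv : u < v) :
    ∀ᶠ q in Filter.atTop, 1 / 2 * (v - u) * mu γ ψ q ≤ (volume (A γ ψ q ∩ Set.Ioo u v)).toReal := by
  classical
  obtain ⟨C, hC, hdiv⟩ := exists_card_divisors_le 4
  have hl : 0 < v - u := sub_pos.mpr huv
  filter_upwards [Filter.eventually_ge_atTop (max 1 (⌈(14 * √C / (v - u)) ^ 2⌉₊ + ⌈5 / (v - u)⌉₊))] with q hq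
  have hq0 : 0 < q := le_trans (le_max_left _ _) hq
  have hqR : (0 : ℝ) < q := by exact_mod_cast hq0
  have hq' : ((⌈(14 * √C / (v - u)) ^ 2⌉₊ + ⌈5 / (v - u)⌉₊ : ℕ) : ℝ) ≤ q := by
    exact_mod_cast le_trans (le_max_right _ _) hq
  push_cast at hq'
  have hqa : (14 * √C / (v - u)) ^ 2 ≤ q := by
    linarith [Nat.le_ceil ((14 * √C / (v - u)) ^ 2), Nat.cast_nonneg (α := ℝ) ⌈5 / (v - u)⌉₊]
  have hqb : 5 ≤ (q : ℝ) * (v - u) := by
    rw [← div_le_iff₀ hl]
    linarith [Nat.le_ceil (5 / (v - u)), Nat.cast_nonneg (α := ℝ) ⌈(14 * √C / (v - u)) ^ 2⌉₊]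
  have hψ0 := (h q).1
  have hψ1 : ψ q ≤ 1 / 16 := (h.psi_le hq0).trans (by
    have : (1 : ℝ) ≤ q := by exact_mod_cast hq0
    rw [div_le_div_iff₀ (by positivity) (by norm_num)]; linarith)
  set x : ℤ := ⌈(q : ℝ) * u - γ⌉ + 1 with hx
  set y : ℤ := ⌊(q : ℝ) * v - γ⌋ - 1 with hy
  have hxy : (q : ℝ) * (v - u) - 4 ≤ ((y - x : ℤ) : ℝ) := by
    rw [hx, hy]; push_cast
    linarith [Int.ceil_lt_add_one ((q : ℝ) * u - γ), Int.lt_floor_add_one ((q : ℝ) * v - γ)]
  have hxy0 : 0 ≤ y - x := by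
    have : (-1 : ℝ) < ((y - x : ℤ) : ℝ) := by linarith
    have : (-1 : ℤ) < y - x := by exact_mod_cast this
    omega
  obtain ⟨L, hL⟩ := Int.eq_ofNat_of_zero_le hxy0
  set G := (Finset.Ico x (x + L)).filter fun a => Allowed γ q a with hG
  have hLR : (q : ℝ) * (v - u) - 4 ≤ (L : ℝ) := by rw [hL] at hxy; exact_mod_cast hxy
  have hcount := (abs_le.mp (allowed_count (γ := γ) hq0.ne' x L)).1
  rw [← hG] at hcount
  set τ : ℝ := (q.divisors.card : ℝ) with hτ
  have hτ1 : 1 ≤ τ := by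
    have : 0 < q.divisors.card := Finset.card_pos.mpr ⟨1, Nat.one_mem_divisors.mpr hq0.ne'⟩
    rw [hτ]; exact_mod_cast this
  have h2p : (2 : ℝ) ^ (q.primeFactors.filter fun p => ¬ p ∣ (approx γ q).2).card ≤ τ := by
    refine le_trans (pow_le_pow_right₀ one_le_two (Finset.card_le_card (Finset.filter_subset _ _))) ?_
    rw [hτ]; exact_mod_cast two_pow_card_le_divisors hq0.ne'
  have hqd : (q : ℝ) ≤ (q : ℝ) * dens γ q * τ := by
    have h1 : (q : ℝ) ≤ (q.totient : ℝ) * τ := by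
      rw [hτ]; exact_mod_cast self_le_totient_mul_divisors hq0.ne'
    have h2 := totient_div_le_dens (γ := γ) hq0.ne'
    rw [div_le_iff₀ hqR] at h2
    have h3 := mul_le_mul_of_nonneg_right h2 (le_trans zero_le_one hτ1)
    linarith
  have hτ2 : 14 * τ ^ 2 ≤ (q : ℝ) * (v - u) := by
    have h4 : (τ ^ 2) ^ 2 ≤ C * q := by rw [← pow_mul]; exact hdiv q hq0.ne'
    refine le_of_pow_le_pow_left₀ (by norm_num : (2 : ℕ) ≠ 0) (by positivity) ?_
    rw [div_pow, div_le_iff₀ (by positivity), mul_pow, Real.sq_sqrt hC.le] at hqa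
    calc (14 * τ ^ 2) ^ 2 = 14 ^ 2 * (τ ^ 2) ^ 2 := by ring
      _ ≤ 14 ^ 2 * (C * q) := by gcongr
      _ = 14 ^ 2 * C * q := by ring
      _ ≤ (q * (v - u) ^ 2) * q := mul_le_mul_of_nonneg_right hqa hqR.le
      _ = ((q : ℝ) * (v - u)) ^ 2 := by ring
  have hGcard : 1 / 2 * (v - u) * ((q : ℝ) * dens γ q) ≤ (G.card : ℝ) := by
    have e1 : ((q : ℝ) * (v - u) - 4) * dens γ q ≤ L * dens γ q :=
      mul_le_mul_of_nonneg_right hLR dens_pos.le
    have e2 : 4 * dens γ q ≤ 4 := by linarith [dens_le_one (γ := γ) (q := q)]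
    have e3 : 14 * τ ^ 2 ≤ (q : ℝ) * dens γ q * τ * (v - u) :=
      hτ2.trans (mul_le_mul_of_nonneg_right hqd hl.le)
    have e4 : 14 * τ ≤ (q : ℝ) * dens γ q * (v - u) := by
      refine le_of_mul_le_mul_right ?_ (lt_of_lt_of_le one_pos hτ1)
      linarith
    rw [pow_succ] at hcount
    linarith
  have hI : ∀ a ∈ G, Set.Ioo (((a : ℝ) + γ - ψ q) / q) (((a : ℝ) + γ + ψ q) / q) ⊆
      A γ ψ q ∩ Set.Ioo u v := by
    intro a ha z hz
    obtain ⟨haI, haA⟩ := Finset.mem_filter.mp ha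
    obtain ⟨ha1, ha2⟩ := Finset.mem_Ico.mp haI
    have r1 : (q : ℝ) * u - γ + 1 ≤ a := by
      have e1 : (x : ℝ) ≤ a := by exact_mod_cast ha1
      have e2 : (x : ℝ) = (⌈(q : ℝ) * u - γ⌉ : ℝ) + 1 := by rw [hx]; push_cast; ring
      linarith [Int.le_ceil ((q : ℝ) * u - γ)]
    have r2 : (a : ℝ) + 1 ≤ (q : ℝ) * v - γ := by
      have : a < y := by omega
      have e1 : (a : ℝ) ≤ y := by exact_mod_cast this.le
      have e2 : (y : ℝ) = (⌊(q : ℝ) * v - γ⌋ : ℝ) - 1 := by rw [hy]; push_cast; ring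
      linarith [Int.floor_le ((q : ℝ) * v - γ)]
    obtain ⟨z1, z2⟩ := hz
    rw [div_lt_iff₀ hqR] at z1
    rw [lt_div_iff₀ hqR] at z2
    refine ⟨⟨a, haA, abs_lt.mpr ⟨by linarith, by linarith⟩⟩, ?_, ?_⟩
    · by_contra hc
      have := mul_le_mul_of_nonneg_left (not_lt.mp hc) hqR.le
      linarith
    · by_contra hc
      have := mul_le_mul_of_nonneg_left (not_lt.mp hc) hqR.le
      linarith
  have hdisj : (G : Set ℤ).PairwiseDisjoint
      fun a : ℤ => Set.Ioo (((a : ℝ) + γ - ψ q) / q) (((a : ℝ) + γ + ψ q) / q) := by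
    intro a _ a' _ hne
    refine Set.disjoint_left.mpr fun z hz hz' => ?_
    obtain ⟨z1, z2⟩ := hz
    obtain ⟨z3, z4⟩ := hz'
    rw [div_lt_iff₀ hqR] at z1 z3
    rw [lt_div_iff₀ hqR] at z2 z4
    have e : |((a - a' : ℤ) : ℝ)| < 1 := by
      push_cast; exact abs_lt.mpr ⟨by linarith, by linarith⟩
    have : |a - a'| < 1 := by exact_mod_cast e
    rw [Int.abs_lt_one_iff, sub_eq_zero] at this
    exact hne this
  have hvol : volume (⋃ a ∈ G, Set.Ioo (((a : ℝ) + γ - ψ q) / q) (((a : ℝ) + γ + ψ q) / q)) =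
      (G.card : ℕ) * ENNReal.ofReal (2 * ψ q / q) := by
    rw [measure_biUnion_finset hdisj fun a _ => measurableSet_Ioo, ← nsmul_eq_mul, ← Finset.sum_const]
    refine Finset.sum_congr rfl fun a _ => ?_
    rw [Real.volume_Ioo]; congr 1; field_simp; ring
  have hfin : volume (A γ ψ q ∩ Set.Ioo u v) ≠ ⊤ :=
    ne_top_of_le_ne_top (by simp) (measure_mono Set.inter_subset_right)
  refine le_trans ?_ (ENNReal.toReal_mono hfin (le_trans (le_of_eq hvol.symm)
    (measure_mono (Set.iUnion₂_subset hI))))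
  rw [ENNReal.toReal_mul, ENNReal.toReal_natCast, ENNReal.toReal_ofReal (by positivity), mu]
  calc 1 / 2 * (v - u) * (2 * ψ q * dens γ q)
      = (1 / 2 * (v - u) * ((q : ℝ) * dens γ q)) * (2 * ψ q / q) := by field_simp
    _ ≤ _ := mul_le_mul_of_nonneg_right hGcard (by positivity)

/-- Quasi-independence on average. -/
theorem qi (An : Anat) (h : Small ψ) :
    ∃ (C : ℝ) (q₀ : ℕ), ∀ F : Finset ℕ, (∀ q ∈ F, q₀ ≤ q) → ∑ q ∈ F, ∑ r ∈ F,
      (volume (A γ ψ q ∩ A γ ψ r ∩ Set.Ioc 0 1)).toReal ≤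
        C * ((∑ q ∈ F, mu γ ψ q) + (∑ q ∈ F, mu γ ψ q) ^ 2) := by
  classical
  obtain ⟨C4, hC4⟩ := bound4
  obtain ⟨C8, hC8⟩ := bound8 An
  set H1 : ℕ → ℝ := fun T => An.C * T * (288 * An.C * An.R T * (T : ℝ) ^ 2)
  set H2 : ℕ → ℝ := fun T => An.C * T * (336 * An.C * (T : ℝ) ^ 2 * (1 / 2) ^ cutK T)
  set H3 : ℕ → ℝ := fun T => An.C * T * (21 * An.C * An.R T * (T : ℝ) ^ 2)
  set H5 : ℕ → ℝ := fun T => An.C * T * (8 * An.C * T * (1 / 2) ^ cutK T)
  set H6 : ℕ → ℝ := fun T => An.C * T * (8 * An.R T * (cutD T + 1))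
  set H7 : ℕ → ℝ := fun T => An.C * T *
    (16 * An.R T * ((cutD T : ℝ) * 2 ^ cutK T) ^ 2 * (cutD T + 1))
  set H8 : ℕ → ℝ := fun T => An.C * T *
    (120 * (An.Z T + 2 * T * cutD T * An.R T * (An.C * T)))
  have hC := An.one_le_C
  have hR := An.R_nonneg
  have hZ := An.Z_nonneg
  have hD1 : ∀ T, (1 : ℝ) ≤ cutD T := fun T => by
    exact_mod_cast Nat.ceil_pos.mpr (Real.exp_pos _)
  have hK1 : ∀ T, (1 : ℝ) ≤ (2 : ℝ) ^ cutK T := fun T => one_le_pow₀ one_le_two
  have sR : ∀ a b : ℕ, ∀ c : ℝ, Summable fun T : ℕ =>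
      c * ((T : ℝ) ^ a * ((2 : ℝ) ^ cutK T) ^ b * (cutD T : ℝ) ^ b * An.R T) :=
    fun a b c => (An.summable_R a b).mul_left c
  have sH1 : Summable H1 := (sR 3 0 (288 * An.C ^ 2)).congr fun T => by simp [H1]; ring
  have sH2 : Summable H2 := ((An.summable_half 3).mul_left (336 * An.C ^ 2)).congr fun T => by
    simp [H2]; ring
  have sH3 : Summable H3 := (sR 3 0 (21 * An.C ^ 2)).congr fun T => by simp [H3]; ring
  have sH5 : Summable H5 := ((An.summable_half 2).mul_left (8 * An.C ^ 2)).congr fun T => by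
    simp [H5]; ring
  have sH6 : Summable H6 := by
    refine Summable.of_nonneg_of_le (fun T => ?_) (fun T => ?_) (sR 1 1 (16 * An.C))
    · have := hR T; simp only [H6]; positivity
    · have := hR T
      calc An.C * T * (8 * An.R T * (cutD T + 1))
          ≤ An.C * T * (8 * An.R T * (2 * (((2 : ℝ) ^ cutK T) * cutD T))) := by
            gcongr
            have := le_mul_of_one_le_left (show (0 : ℝ) ≤ cutD T by positivity) (hK1 T)
            linarith [hD1 T]
        _ = _ := by ring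
  have sH7 : Summable H7 := by
    refine Summable.of_nonneg_of_le (fun T => ?_) (fun T => ?_) (sR 1 3 (32 * An.C))
    · have := hR T; simp only [H7]; positivity
    · have := hR T
      calc An.C * T * (16 * An.R T * ((cutD T : ℝ) * 2 ^ cutK T) ^ 2 * (cutD T + 1))
          ≤ An.C * T * (16 * An.R T * ((cutD T : ℝ) * 2 ^ cutK T) ^ 2 *
              (2 * (((2 : ℝ) ^ cutK T) * cutD T))) := by
            gcongr
            have := le_mul_of_one_le_left (show (0 : ℝ) ≤ cutD T by positivity) (hK1 T)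
            linarith [hD1 T]
        _ = _ := by ring
  have sH8 : Summable H8 := by
    refine Summable.of_nonneg_of_le (fun T => ?_) (fun T => ?_)
      (((An.summable_Z).mul_left (120 * An.C)).add (sR 3 1 (240 * An.C ^ 2)))
    · have := hR T; have := hZ T; simp only [H8]; positivity
    · have := hR T; have := hZ T
      have h1 : (T : ℝ) ≤ (T : ℝ) ^ 5 := by
        rcases Nat.eq_zero_or_pos T with e | e
        · subst e; norm_num
        · exact le_self_pow₀ (by exact_mod_cast e) (by norm_num)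
      calc An.C * T * (120 * (An.Z T + 2 * T * cutD T * An.R T * (An.C * T)))
          = 120 * An.C * (T * An.Z T) + 240 * An.C ^ 2 * ((T : ℝ) ^ 3 * cutD T * An.R T) := by ring
        _ ≤ 120 * An.C * ((T : ℝ) ^ 5 * An.Z T) + 240 * An.C ^ 2 *
              ((T : ℝ) ^ 3 * (((2 : ℝ) ^ cutK T) * cutD T) * An.R T) := by
            gcongr
            exact le_mul_of_one_le_left (by positivity) (hK1 T)
        _ = _ := by ring
  set K := ∑' T, H1 T + ∑' T, H2 T + ∑' T, H3 T + |C4| + ∑' T, H5 T + ∑' T, H6 T + ∑' T, H7 T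
    + (∑' T, H8 T + |C8|) with hK
  refine ⟨5 + 2 * (75 * An.C ^ 2 + K), 2 ^ 30, fun F hF => ?_⟩
  have hpos : ∀ q ∈ F, 0 < q := fun q hq => lt_of_lt_of_le (by norm_num) (hF q hq)
  set S := ∑ q ∈ F, mu γ ψ q with hS
  set vol : ℕ → ℕ → ℝ := fun q r => (volume (A γ ψ q ∩ A γ ψ r ∩ Set.Ioc 0 1)).toReal with hvol
  have hsymm : ∀ q r, vol q r = vol r q := fun q r => by
    simp only [hvol, Set.inter_comm (A γ ψ q) (A γ ψ r)]
  have hμ0 : ∀ q, 0 ≤ mu γ ψ q := fun q => mu_nonneg (h q).1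
  -- sums over smaller partners
  have hQ : ∀ (f : ℕ → ℕ → ℕ → ℝ) (X : ℝ), (∀ d a b, 0 ≤ f d a b) →
      (∀ q ∈ F, ∑ d ∈ q.divisors, ∑ b ∈ (Finset.range (q / d)).filter
        (fun b => 0 < b ∧ (q / d).Coprime b), f d (q / d) b ≤ X * mu γ ψ q) →
      ∑ q ∈ F, ∑ r ∈ F.filter (fun r => 0 < r ∧ r < q), f (q.gcd r) (q / q.gcd r) (r / q.gcd r)
        ≤ X * S := by
    intro f X hf hb
    rw [hS, Finset.mul_sum]
    exact Finset.sum_le_sum fun q hq => (masterQ F (hpos q hq) f hf).trans (hb q hq)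
  -- sums over larger partners
  set M := F.sup id with hM
  have hle : ∀ q ∈ F, q ≤ M := fun q hq => Finset.le_sup (f := id) hq
  have hR' : ∀ (f : ℕ → ℕ → ℕ → ℝ) (X : ℝ), (∀ d a b, 0 ≤ f d a b) →
      (∀ r ∈ F, ∑ d ∈ r.divisors, ∑ a ∈ (Finset.Ioc (r / d) M).filter
        (fun a => a.Coprime (r / d)), f d a (r / d) ≤ X * mu γ ψ r) →
      ∑ q ∈ F, ∑ r ∈ F.filter (fun r => 0 < r ∧ r < q), f (q.gcd r) (q / q.gcd r) (r / q.gcd r)
        ≤ X * S := by
    intro f X hf hb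
    rw [hS, Finset.mul_sum]
    refine le_trans (le_of_eq ?_) (Finset.sum_le_sum fun r hr => (masterR F (hpos r hr) hle f hf).trans (hb r hr))
    refine Finset.sum_comm' fun q r => ?_
    simp only [Finset.mem_filter]
    exact ⟨fun hqr => ⟨⟨hqr.1, hqr.2.2.2⟩, hqr.2.1⟩, fun hqr => ⟨hqr.1.1, hqr.2, hpos r hqr.2, hqr.1.2⟩⟩
  have tb : ∀ (H : ℕ → ℝ), Summable H → (∀ T, 0 ≤ H T) → ∀ N, ∑ T ∈ Finset.Icc 1 N, H T ≤ ∑' T, H T :=
    fun H hs hn N => hs.sum_le_tsum _ (fun T _ => hn T)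
  have nB : ∀ (P : Prop) [Decidable P] (v : ℝ), 0 ≤ v → (0 : ℝ) ≤ if P then v else 0 :=
    fun P _ v hv => by split_ifs <;> simp [hv]
  have g1 := hQ (fun d a b => f1 ψ d a b) (∑' T, H1 T) (fun d a b => nB _ _ (valB_nonneg h))
    fun q hq => (bound1 (γ := γ) An h (hpos q hq)).trans (mul_le_mul_of_nonneg_right
      (tb H1 sH1 (fun T => by have := hR T; simp only [H1]; positivity) q) (hμ0 q))
  have g2 := hQ (fun d a b => f2 ψ d a b) (∑' T, H2 T) (fun d a b => nB _ _ (valB_nonneg h))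
    fun q hq => (bound2 (γ := γ) An h (hpos q hq)).trans (mul_le_mul_of_nonneg_right
      (tb H2 sH2 (fun T => by simp only [H2]; positivity) q) (hμ0 q))
  have g3 := hR' (fun d a b => f3 ψ d a b) (∑' T, H3 T) (fun d a b => nB _ _ (valB_nonneg h))
    fun r hr => (bound3 (γ := γ) An h (hpos r hr) (hle r hr)).trans (mul_le_mul_of_nonneg_right
      (tb H3 sH3 (fun T => by have := hR T; simp only [H3]; positivity) M) (hμ0 r))
  have g4 := hQ (fun d a b => f4 γ ψ d a b) |C4| (fun d a b => nB _ _ (valC_nonneg h))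
    fun q hq => (hC4 γ ψ h q (hpos q hq)).trans (mul_le_mul_of_nonneg_right (le_abs_self C4) (hμ0 q))
  have g5 := hQ (fun d a b => f5 γ ψ d a b) (∑' T, H5 T) (fun d a b => nB _ _ (valC_nonneg h))
    fun q hq => (bound5 An h (hpos q hq)).trans (mul_le_mul_of_nonneg_right
      (tb H5 sH5 (fun T => by simp only [H5]; positivity) q) (hμ0 q))
  have g6 := hQ (fun d a b => f6 γ ψ d a b) (∑' T, H6 T) (fun d a b => nB _ _ (valC_nonneg h))
    fun q hq => (bound6 An h (hpos q hq)).trans (mul_le_mul_of_nonneg_right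
      (tb H6 sH6 (fun T => by have := hR T; simp only [H6]; positivity) q) (hμ0 q))
  have g7 := hR' (fun d a b => f7 γ ψ d a b) (∑' T, H7 T) (fun d a b => nB _ _ (valC_nonneg h))
    fun r hr => (bound7 An h (hpos r hr) (hle r hr)).trans (mul_le_mul_of_nonneg_right
      (tb H7 sH7 (fun T => by have := hR T; simp only [H7]; positivity) M) (hμ0 r))
  have g8 := hR' (fun d a b => f8 γ ψ d a b) (∑' T, H8 T + |C8|) (fun d a b => nB _ _ (valC_nonneg h))
    fun r hr => (hC8 γ ψ h r M (hF r hr) (hle r hr)).trans (by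
      rw [add_mul]
      exact add_le_add (mul_le_mul_of_nonneg_right
        (tb H8 sH8 (fun T => by have := hR T; have := hZ T; simp only [H8]; positivity) M) (hμ0 r))
        (mul_le_mul_of_nonneg_right (le_abs_self C8) (hμ0 r)))
  have hlin : ∑ q ∈ F, ∑ r ∈ F.filter (fun r => 0 < r ∧ r < q), vol q r ≤
      75 * An.C ^ 2 * S ^ 2 + K * S := by
    calc ∑ q ∈ F, ∑ r ∈ F.filter (fun r => 0 < r ∧ r < q), vol q r
        ≤ ∑ q ∈ F, ∑ r ∈ F.filter (fun r => 0 < r ∧ r < q),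
            (75 * An.C ^ 2 * mu γ ψ q * mu γ ψ r +
              (f1 ψ (q.gcd r) (q / q.gcd r) (r / q.gcd r) + f2 ψ (q.gcd r) (q / q.gcd r) (r / q.gcd r)
              + f3 ψ (q.gcd r) (q / q.gcd r) (r / q.gcd r) + f4 γ ψ (q.gcd r) (q / q.gcd r) (r / q.gcd r)
              + f5 γ ψ (q.gcd r) (q / q.gcd r) (r / q.gcd r) + f6 γ ψ (q.gcd r) (q / q.gcd r) (r / q.gcd r)
              + f7 γ ψ (q.gcd r) (q / q.gcd r) (r / q.gcd r)
              + f8 γ ψ (q.gcd r) (q / q.gcd r) (r / q.gcd r))) := by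
          refine Finset.sum_le_sum fun q _ => Finset.sum_le_sum fun r hr => ?_
          obtain ⟨-, hr0, hrq⟩ := Finset.mem_filter.mp hr
          have hg : 0 < q.gcd r := Nat.gcd_pos_of_pos_right _ hr0
          have := vol_le (γ := γ) An h (d := q.gcd r) (a := q / q.gcd r) (b := r / q.gcd r) hg
            (Nat.div_pos (Nat.le_of_dvd hr0 (Nat.gcd_dvd_right q r)) hg)
            (Nat.div_lt_div_of_lt_of_dvd (Nat.gcd_dvd_left q r) hrq) (Nat.coprime_div_gcd_div_gcd hg)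
          rwa [Nat.mul_div_cancel' (Nat.gcd_dvd_left q r), Nat.mul_div_cancel' (Nat.gcd_dvd_right q r)] at this
      _ ≤ 75 * An.C ^ 2 * S ^ 2 + K * S := by
          simp only [Finset.sum_add_distrib]
          have hquad : ∑ q ∈ F, ∑ r ∈ F.filter (fun r => 0 < r ∧ r < q),
              75 * An.C ^ 2 * mu γ ψ q * mu γ ψ r ≤ 75 * An.C ^ 2 * S ^ 2 := by
            rw [pow_two S, hS, Finset.sum_mul, Finset.mul_sum]
            refine Finset.sum_le_sum fun q _ => ?_
            rw [← Finset.mul_sum, ← mul_assoc]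
            refine mul_le_mul_of_nonneg_left (Finset.sum_le_sum_of_subset_of_nonneg
              (Finset.filter_subset _ _) fun r _ _ => hμ0 r) ?_
            have := hμ0 q; positivity
          rw [hK]
          linarith
  have hS0 : 0 ≤ S := Finset.sum_nonneg fun q _ => hμ0 q
  have hdiag : ∑ q ∈ F, vol q q ≤ 5 * S := by
    rw [hS, Finset.mul_sum]
    exact Finset.sum_le_sum fun q hq => vol_self_le h (hpos q hq)
  have hsplit : ∑ q ∈ F, ∑ r ∈ F, vol q r = 2 * (∑ q ∈ F, ∑ r ∈ F.filter (fun r => 0 < r ∧ r < q), vol q r)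
      + ∑ q ∈ F, vol q q := by
    have e1 : ∀ q ∈ F, ∑ r ∈ F, vol q r = ∑ r ∈ F.filter (fun r => 0 < r ∧ r < q), vol q r
        + ∑ r ∈ F.filter (fun r => q < r), vol q r + vol q q := by
      intro q hq
      rw [Finset.sum_filter, Finset.sum_filter, ← Finset.sum_add_distrib,
        ← Finset.sum_ite_eq' F q (fun r => vol q r) |>.trans (if_pos hq), ← Finset.sum_add_distrib]
      refine Finset.sum_congr rfl fun r hr => ?_
      have := hpos r hr
      rcases lt_trichotomy r q with hl | hl | hl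
      · rw [if_pos ⟨this, hl⟩, if_neg (by omega), if_neg hl.ne]; ring
      · subst hl; rw [if_neg (by omega), if_neg (by omega), if_pos rfl]; ring
      · rw [if_neg (by omega), if_pos hl, if_neg hl.ne']; ring
    rw [Finset.sum_congr rfl e1, Finset.sum_add_distrib, Finset.sum_add_distrib, two_mul]
    congr 2
    rw [Finset.sum_comm' (t' := F) (s' := fun r => F.filter (fun q => 0 < q ∧ q < r))]
    · exact Finset.sum_congr rfl fun r _ => Finset.sum_congr rfl fun q _ => hsymm q r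
    · intro q r
      simp only [Finset.mem_filter]
      exact ⟨fun e => ⟨⟨e.1, hpos q e.1, e.2.2⟩, e.2.1⟩, fun e => ⟨e.1.1, e.2, e.1.2.2⟩⟩
  show ∑ q ∈ F, ∑ r ∈ F, vol q r ≤ _
  rw [hsplit]
  have hS2 : 0 ≤ S ^ 2 := sq_nonneg S
  have hK0 : 0 ≤ K := by
    rw [hK]
    have n1 : 0 ≤ ∑' T, H1 T := tsum_nonneg fun T => by have := hR T; simp only [H1]; positivity
    have n2 : 0 ≤ ∑' T, H2 T := tsum_nonneg fun T => by simp only [H2]; positivity
    have n3 : 0 ≤ ∑' T, H3 T := tsum_nonneg fun T => by have := hR T; simp only [H3]; positivity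
    have n5 : 0 ≤ ∑' T, H5 T := tsum_nonneg fun T => by simp only [H5]; positivity
    have n6 : 0 ≤ ∑' T, H6 T := tsum_nonneg fun T => by have := hR T; simp only [H6]; positivity
    have n7 : 0 ≤ ∑' T, H7 T := tsum_nonneg fun T => by have := hR T; simp only [H7]; positivity
    have n8 : 0 ≤ ∑' T, H8 T := tsum_nonneg fun T => by
      have := hR T; have := hZ T; simp only [H8]; positivity
    positivity
  have hCC : 0 ≤ An.C ^ 2 := sq_nonneg _
  have := mul_nonneg hK0 hS2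
  have := mul_nonneg hCC hS0
  nlinarith

end Vale.Agent.P028.EV
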