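import Vale.Agent.P028.EV.Bohr

/-!
P028, inhomogeneous Erdős–Vaaler: which estimate is used for which pair of denominators.
-/

namespace Vale.Agent.P028.EV

open Finset Real MeasureTheory

variable {γ : ℝ} {ψ : ℕ → ℝ}

/-- What is used about types, divisor tails and the cuts. -/
structure Anat where
  C : ℝ
  one_le_C : 1 ≤ C
  R : ℕ → ℝ
  R_nonneg : ∀ T, 0 ≤ R T
  Z : ℕ → ℝ
  Z_nonneg : ∀ T, 0 ≤ Z T
  one_le_ty : ∀ n, 1 ≤ ty n
  ty_le : ∀ n, n ≠ 0 → ty n ≤ n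
  light_mul : ∀ a b T, a ≠ 0 → b ≠ 0 → ty a ≤ T → ty b ≤ T → Light 2 T (a * b)
  inv_totient : ∀ T n : ℕ, 1 ≤ T → n ≠ 0 → Light 2 T n → (n : ℝ) / n.totient ≤ C * T
  sum_inv : ∀ T n : ℕ, 1 ≤ T → n ≠ 0 → Light 2 T n → ∑ d ∈ n.divisors, 1 / (d : ℝ) ≤ C * T
  prod_tail : ∀ T n : ℕ, 1 ≤ T → n ≠ 0 → Light 2 T n →
    ∏ p ∈ n.primeFactors.filter (fun p => T < p), (1 - 1 / (p : ℝ))⁻¹ ≤ C
  count_rare : ∀ N T : ℕ, 1 ≤ T → (((Finset.Icc 1 N).filter fun n => ty n = T).card : ℝ) ≤ R T * N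
  sum_rare : ∀ n T : ℕ, 1 ≤ T → ∑ d ∈ n.divisors.filter (fun d => ty d = T), 1 / (d : ℝ) ≤
    R T * ∑ d ∈ n.divisors, 1 / (d : ℝ)
  tail : ∀ T n : ℕ, 1 ≤ T → n ≠ 0 → Light 2 T n →
    ∑ d ∈ n.divisors.filter (fun d => cutD T < d), (Real.log d + cutK T) / (d : ℝ) ≤ Z T
  summable_R : ∀ a b : ℕ, Summable fun T : ℕ =>
    (T : ℝ) ^ a * ((2 : ℝ) ^ cutK T) ^ b * (cutD T : ℝ) ^ b * R T
  summable_half : ∀ a : ℕ, Summable fun T : ℕ => (T : ℝ) ^ a * (1 / 2 : ℝ) ^ cutK T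
  summable_Z : Summable fun T : ℕ => (T : ℝ) ^ 5 * Z T

/-- The standing hypothesis `0 ≤ n ψ n ≤ 1/16`. -/
def Small (ψ : ℕ → ℝ) : Prop := ∀ n, 0 ≤ ψ n ∧ (n : ℝ) * ψ n ≤ 1 / 16

lemma Small.psi_le (h : Small ψ) {n : ℕ} (hn : 0 < n) : ψ n ≤ 1 / (16 * n) := by
  have hn' : (0 : ℝ) < n := by exact_mod_cast hn
  rw [le_div_iff₀ (by positivity)]
  nlinarith [(h n).2]

/-- The type of a pair. -/
noncomputable def Tp (d a b : ℕ) : ℕ := max (ty d) (max (ty a) (ty b))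

/-- The dyadic class of the ratio of a pair. -/
def ix (a b : ℕ) : ℕ := Nat.log 2 ((a - 1) / b)

lemma ix_spec {a b : ℕ} (hb : 0 < b) (hab : b < a) :
    2 ^ ix a b * b < a ∧ a ≤ 2 ^ (ix a b + 1) * b ∧ ix a b < a := by
  have h0 : (a - 1) / b ≠ 0 :=
    (Nat.div_pos (by omega) hb).ne'
  have h1 : 2 ^ ix a b * b ≤ a - 1 := by
    calc 2 ^ ix a b * b ≤ (a - 1) / b * b := Nat.mul_le_mul_right _ (Nat.pow_log_le_self 2 h0)
      _ ≤ a - 1 := Nat.div_mul_le_self _ _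
  have h2 : a - 1 < 2 ^ (ix a b + 1) * b :=
    (Nat.div_lt_iff_lt_mul hb).mp (Nat.lt_pow_succ_log_self one_lt_two _)
  have h3 := (Nat.lt_two_pow_self (n := ix a b)).trans_le (Nat.le_mul_of_pos_right (2 ^ ix a b) hb)
  omega

/-- A pair in the middle range of widths. -/
def InB (ψ : ℕ → ℝ) (d a b : ℕ) : Prop :=
  1 / 4 ≤ Del ψ d a b ∧ Del ψ d a b < (16 : ℝ) ^ Tp d a b

/-- A pair with a narrow resonance. -/
def InC (γ : ℝ) (ψ : ℕ → ℝ) (d a b : ℕ) : Prop :=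
  Del ψ d a b < 1 / 4 ∧ (pairs γ ψ d a b).Nonempty

/-- The value of a middle pair. -/
def valB (ψ : ℕ → ℝ) (d a b : ℕ) : ℝ := 24 * ψ (d * a) * ψ (d * b)

/-- The value of a narrow pair. -/
noncomputable def valC (ψ : ℕ → ℝ) (d a b : ℕ) : ℝ := 4 * (d : ℝ) * rad ψ d a b

section parts

open Classical

variable (γ : ℝ) (ψ : ℕ → ℝ) (d a b : ℕ)

noncomputable def f1 : ℝ :=
  if InB ψ d a b ∧ (Tp d a b = ty d ∨ Tp d a b = ty b) then valB ψ d a b else 0

noncomputable def f2 : ℝ :=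
  if InB ψ d a b ∧ Tp d a b = ty a ∧
    ((d * b : ℕ) : ℝ) * ψ (d * b) < (1 / 2 : ℝ) ^ cutK (Tp d a b) then valB ψ d a b else 0

noncomputable def f3 : ℝ :=
  if InB ψ d a b ∧ Tp d a b = ty a ∧
    (1 / 2 : ℝ) ^ cutK (Tp d a b) ≤ ((d * b : ℕ) : ℝ) * ψ (d * b) then valB ψ d a b else 0

noncomputable def f4 : ℝ :=
  if InC γ ψ d a b ∧ d * a < (2 ^ ix a b) ^ 32 then valC ψ d a b else 0

noncomputable def f5 : ℝ :=
  if InC γ ψ d a b ∧ (d * 2 ^ cutK (Tp d a b)) ^ 2 < 2 ^ ix a b then valC ψ d a b else 0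

noncomputable def f6 : ℝ :=
  if InC γ ψ d a b ∧ d ≤ cutD (Tp d a b) ∧ Tp d a b = ty b then valC ψ d a b else 0

noncomputable def f7 : ℝ :=
  if InC γ ψ d a b ∧ d ≤ cutD (Tp d a b) ∧ Tp d a b = ty a ∧
    2 ^ ix a b ≤ (d * 2 ^ cutK (Tp d a b)) ^ 2 then valC ψ d a b else 0

noncomputable def f8 : ℝ :=
  if InC γ ψ d a b ∧ 2 ^ ix a b ≤ (d * 2 ^ cutK (Tp d a b)) ^ 2 ∧ (2 ^ ix a b) ^ 32 ≤ d * a ∧
    (cutD (Tp d a b) < d ∨ Tp d a b = ty d) then valC ψ d a b else 0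

end parts

variable {d a b : ℕ}

lemma Del_nonneg (h : Small ψ) : 0 ≤ Del ψ d a b :=
  add_nonneg (mul_nonneg (Nat.cast_nonneg b) (h _).1) (mul_nonneg (Nat.cast_nonneg a) (h _).1)

lemma rad_nonneg (h : Small ψ) : 0 ≤ rad ψ d a b :=
  le_min (div_nonneg (h _).1 (Nat.cast_nonneg _)) (div_nonneg (h _).1 (Nat.cast_nonneg _))

lemma valB_nonneg (h : Small ψ) : 0 ≤ valB ψ d a b :=
  mul_nonneg (mul_nonneg (by norm_num) (h _).1) (h _).1

lemma valC_nonneg (h : Small ψ) : 0 ≤ valC ψ d a b :=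
  mul_nonneg (by positivity) (rad_nonneg h)

lemma rad_mul_Del (h : Small ψ) (hd : 0 < d) (ha : 0 < a) (hb : 0 < b) :
    rad ψ d a b * (d * Del ψ d a b) ≤ 2 * ψ (d * a) * ψ (d * b) := by
  have h1 : rad ψ d a b * ((d * a : ℕ) : ℝ) ≤ ψ (d * a) :=
    (le_div_iff₀ (by positivity)).mp (min_le_left _ _)
  have h2 : rad ψ d a b * ((d * b : ℕ) : ℝ) ≤ ψ (d * b) :=
    (le_div_iff₀ (by positivity)).mp (min_le_right _ _)
  have e1 := mul_le_mul_of_nonneg_right h1 (h (d * b)).1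
  have e2 := mul_le_mul_of_nonneg_right h2 (h (d * a)).1
  rw [Del]
  push_cast at e1 e2
  nlinarith

/-- Every pair is bounded by the quadratic term or one of the eight linear ones. -/
theorem vol_le (An : Anat) (h : Small ψ) (hd : 0 < d) (hb : 0 < b) (hab : b < a)
    (hc : a.Coprime b) :
    (volume (A γ ψ (d * a) ∩ A γ ψ (d * b) ∩ Set.Ioc 0 1)).toReal ≤
      75 * An.C ^ 2 * mu γ ψ (d * a) * mu γ ψ (d * b) +
        (f1 ψ d a b + f2 ψ d a b + f3 ψ d a b + f4 γ ψ d a b + f5 γ ψ d a b + f6 γ ψ d a b +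
          f7 γ ψ d a b + f8 γ ψ d a b) := by
  classical
  have ha : 0 < a := by omega
  have hq : 0 < d * a := by positivity
  have hr : 0 < d * b := by positivity
  have hψq : ψ (d * a) ≤ 1 / 4 := (h.psi_le hq).trans (by
    have : (1 : ℝ) ≤ (d * a : ℕ) := by exact_mod_cast hq
    rw [div_le_div_iff₀ (by positivity) (by norm_num)]; linarith)
  have hvol := volume_inter_le (γ := γ) hd ha hb (h _).1 hψq (h _).1
  have hrad := rad_nonneg (d := d) (a := a) (b := b) h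
  have hΔ := Del_nonneg (d := d) (a := a) (b := b) h
  have hB := valB_nonneg (d := d) (a := a) (b := b) h
  have hC := valC_nonneg (d := d) (a := a) (b := b) h
  have hprod := rad_mul_Del h hd ha hb
  have hψ0 := (h (d * a)).1
  have hψ0' := (h (d * b)).1
  have hmu0 := mu_nonneg (γ := γ) (q := d * a) hψ0
  have hmu0' := mu_nonneg (γ := γ) (q := d * b) hψ0'
  have hquad : 0 ≤ 75 * An.C ^ 2 * mu γ ψ (d * a) * mu γ ψ (d * b) := by positivity
  have nn : ∀ (P : Prop) [Decidable P] (v : ℝ), 0 ≤ v → (0 : ℝ) ≤ if P then v else 0 :=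
    fun P _ v hv => by split_ifs <;> simp [hv]
  have n1 : 0 ≤ f1 ψ d a b := nn _ _ hB
  have n2 : 0 ≤ f2 ψ d a b := nn _ _ hB
  have n3 : 0 ≤ f3 ψ d a b := nn _ _ hB
  have n4 : 0 ≤ f4 γ ψ d a b := nn _ _ hC
  have n5 : 0 ≤ f5 γ ψ d a b := nn _ _ hC
  have n6 : 0 ≤ f6 γ ψ d a b := nn _ _ hC
  have n7 : 0 ≤ f7 γ ψ d a b := nn _ _ hC
  have n8 : 0 ≤ f8 γ ψ d a b := nn _ _ hC
  set T := Tp d a b with hT
  have hT1 : 1 ≤ T := le_trans (An.one_le_ty d) (le_max_left _ _)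
  have htd : ty d ≤ T := le_max_left _ _
  have hta : ty a ≤ T := le_trans (le_max_left _ _) (le_max_right _ _)
  have htb : ty b ≤ T := le_trans (le_max_right _ _) (le_max_right _ _)
  have hcases : T = ty d ∨ T = ty a ∨ T = ty b := by
    rcases max_choice (ty d) (max (ty a) (ty b)) with h1 | h1
    · exact Or.inl h1
    · rcases max_choice (ty a) (ty b) with h2 | h2
      · exact Or.inr (Or.inl (h1.trans h2))
      · exact Or.inr (Or.inr (h1.trans h2))
  by_cases hbig : (16 : ℝ) ^ T ≤ Del ψ d a b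
  · -- the sieved count
    have hcard := card_pairs_le_sieve (γ := γ) hd ha hb hc hΔ T
    have dT : ∀ c, 0 < c → ty c ≤ T → densT γ T (d * c) ≤ dens γ (d * c) * An.C := fun c hc0 hct =>
      densT_le.trans (mul_le_mul_of_nonneg_left
        (An.prod_tail T (d * c) hT1 (by positivity) (An.light_mul d c T hd.ne' hc0.ne' htd hct))
        dens_pos.le)
    have hdT : ∀ c, 0 ≤ densT γ T c := fun c =>
      Finset.prod_nonneg fun p hp => (dens_factor (Finset.mem_filter.mp hp).1).1.le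
    refine hvol.trans (le_trans ?_ (le_add_of_nonneg_right (by positivity)))
    calc 2 * rad ψ d a b * (pairs γ ψ d a b).card
        ≤ 2 * rad ψ d a b * (25 * densT γ T (d * a) * densT γ T (d * b) * d *
          (3 * Del ψ d a b)) := by
          refine mul_le_mul_of_nonneg_left (hcard.trans ?_) (by positivity)
          have := hdT (d * a); have := hdT (d * b)
          exact mul_le_mul_of_nonneg_left (by linarith) (by positivity)
      _ = 150 * (densT γ T (d * a) * densT γ T (d * b)) * (rad ψ d a b * (d * Del ψ d a b)) := by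
          ring
      _ ≤ 150 * ((dens γ (d * a) * An.C) * (dens γ (d * b) * An.C)) *
          (2 * ψ (d * a) * ψ (d * b)) := by
          refine mul_le_mul (mul_le_mul_of_nonneg_left (mul_le_mul (dT a ha hta) (dT b hb htb)
            (hdT _) (le_trans (hdT _) (dT a ha hta))) (by norm_num)) hprod (by positivity) ?_
          have := An.one_le_C
          have := dens_pos (γ := γ) (q := d * a); have := dens_pos (γ := γ) (q := d * b)
          positivity
      _ = _ := by simp only [mu]; ring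
  push Not at hbig
  have hcard := card_pairs_le (γ := γ) hd ha hb hc hΔ
  by_cases hmid : 1 / 4 ≤ Del ψ d a b
  · have hv : (volume (A γ ψ (d * a) ∩ A γ ψ (d * b) ∩ Set.Ioc 0 1)).toReal ≤ valB ψ d a b := by
      refine hvol.trans ?_
      calc 2 * rad ψ d a b * (pairs γ ψ d a b).card
          ≤ 2 * rad ψ d a b * (d * (6 * Del ψ d a b)) := by
            refine mul_le_mul_of_nonneg_left (hcard.trans ?_) (by positivity)
            exact mul_le_mul_of_nonneg_left (by linarith) (Nat.cast_nonneg _)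
        _ ≤ valB ψ d a b := by rw [valB]; linarith
    have hin : InB ψ d a b := ⟨hmid, hbig⟩
    rcases hcases with h1 | h1 | h1
    · have e : f1 ψ d a b = valB ψ d a b := if_pos ⟨hin, Or.inl h1⟩
      linarith
    · by_cases hw : ((d * b : ℕ) : ℝ) * ψ (d * b) < (1 / 2 : ℝ) ^ cutK T
      · have e : f2 ψ d a b = valB ψ d a b := if_pos ⟨hin, h1, hw⟩
        linarith
      · have e : f3 ψ d a b = valB ψ d a b := if_pos ⟨hin, h1, not_lt.mp hw⟩
        linarith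
    · have e : f1 ψ d a b = valB ψ d a b := if_pos ⟨hin, Or.inr h1⟩
      linarith
  push Not at hmid
  rcases (pairs γ ψ d a b).eq_empty_or_nonempty with he | hne
  · rw [he] at hvol
    simp only [Finset.card_empty, Nat.cast_zero, mul_zero] at hvol
    linarith
  have hin : InC γ ψ d a b := ⟨hmid, hne⟩
  have hv : (volume (A γ ψ (d * a) ∩ A γ ψ (d * b) ∩ Set.Ioc 0 1)).toReal ≤ valC ψ d a b := by
    refine hvol.trans ?_
    calc 2 * rad ψ d a b * (pairs γ ψ d a b).card ≤ 2 * rad ψ d a b * (d * 2) :=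
          mul_le_mul_of_nonneg_left (hcard.trans
            (mul_le_mul_of_nonneg_left (by linarith) (Nat.cast_nonneg _))) (by positivity)
      _ = valC ψ d a b := by rw [valC]; ring
  by_cases h4 : d * a < (2 ^ ix a b) ^ 32
  · have e : f4 γ ψ d a b = valC ψ d a b := if_pos ⟨hin, h4⟩
    linarith
  by_cases h5 : (d * 2 ^ cutK T) ^ 2 < 2 ^ ix a b
  · have e : f5 γ ψ d a b = valC ψ d a b := if_pos ⟨hin, h5⟩
    linarith
  by_cases hD : cutD T < d
  · have e : f8 γ ψ d a b = valC ψ d a b := if_pos ⟨hin, not_lt.mp h5, not_lt.mp h4, Or.inl hD⟩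
    linarith
  rcases hcases with h1 | h1 | h1
  · have e : f8 γ ψ d a b = valC ψ d a b := if_pos ⟨hin, not_lt.mp h5, not_lt.mp h4, Or.inr h1⟩
    linarith
  · have e : f7 γ ψ d a b = valC ψ d a b := if_pos ⟨hin, not_lt.mp hD, h1, not_lt.mp h5⟩
    linarith
  · have e : f6 γ ψ d a b = valC ψ d a b := if_pos ⟨hin, not_lt.mp hD, h1⟩
    linarith

end Vale.Agent.P028.EV
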