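import Vale.Agent.P028.EV.Fibre

/-!
P028, inhomogeneous Erdős–Vaaler: the cases summed over the smaller denominator.
-/

namespace Vale.Agent.P028.EV

open Finset Real

variable {γ : ℝ} {ψ : ℕ → ℝ}

/-- Splitting over the dyadic class. -/
lemma sum_le_ix (s : Finset ℕ) (f : ℕ → ℝ) (k : ℕ → ℕ) (L : ℕ) (G : ℕ → ℝ)
    (hk : ∀ x ∈ s, k x < L) (hG : ∀ i, ∑ x ∈ s.filter (fun x => k x = i), f x ≤ G i) :
    ∑ x ∈ s, f x ≤ ∑ i ∈ Finset.range L, G i := by
  rw [← Finset.sum_fiberwise_of_maps_to (g := k) (t := Finset.range L)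
    (fun x hx => Finset.mem_range.mpr (hk x hx)) f]
  exact Finset.sum_le_sum fun i _ => hG i

lemma psi_le_type (An : Anat) (h : Small ψ) {q T : ℕ} (hq : 0 < q) (hT : 1 ≤ T) (hl : Light 2 T q) :
    ψ q ≤ An.C * T * mu γ ψ q :=
  (psi_le_mu hq.ne' (h q).1).trans
    (mul_le_mul_of_nonneg_right (An.inv_totient T q hT hq.ne' hl) (mu_nonneg (h q).1))

open Classical in
/-- The smaller partners of `q = d * a` of type `T`. -/
noncomputable def fibQ (q d T : ℕ) : Finset ℕ :=
  (Finset.range (q / d)).filter fun b => 0 < b ∧ (q / d).Coprime b ∧ Tp d (q / d) b = T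

lemma mem_fibQ {q d T b : ℕ} : b ∈ fibQ q d T ↔
    b < q / d ∧ 0 < b ∧ (q / d).Coprime b ∧ Tp d (q / d) b = T := by
  simp [fibQ]

lemma boundQ (An : Anat) (h : Small ψ) {q : ℕ} (hq : 0 < q) (f : ℕ → ℕ → ℕ → ℝ)
    (J : ℕ → ℕ → ℝ) (hJ0 : ∀ T d, 0 ≤ J T d) (X : ℕ → ℝ) (hX0 : ∀ T, 0 ≤ X T)
    (hb : ∀ T d, 1 ≤ T → d ∈ q.divisors → ty d ≤ T → ty (q / d) ≤ T →
      ∑ b ∈ fibQ q d T, f d (q / d) b ≤ ψ q * J T d)
    (hX : ∀ T, 1 ≤ T → Light 2 T q → ∑ d ∈ q.divisors, J T d ≤ X T) :
    ∑ d ∈ q.divisors, ∑ b ∈ (Finset.range (q / d)).filter (fun b => 0 < b ∧ (q / d).Coprime b),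
      f d (q / d) b ≤ (∑ T ∈ Finset.Icc 1 q, An.C * T * X T) * mu γ ψ q := by
  classical
  have hsplit : ∀ d ∈ q.divisors,
      ∑ b ∈ (Finset.range (q / d)).filter (fun b => 0 < b ∧ (q / d).Coprime b), f d (q / d) b =
        ∑ T ∈ Finset.Icc 1 q, ∑ b ∈ fibQ q d T, f d (q / d) b := by
    intro d hd
    rw [← Finset.sum_fiberwise_of_maps_to (g := fun b => Tp d (q / d) b) (t := Finset.Icc 1 q)]
    · refine Finset.sum_congr rfl fun T _ => Finset.sum_congr ?_ fun _ _ => rfl
      ext b; simp [fibQ, and_assoc]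
    · intro b hb
      simp only [Finset.mem_filter, Finset.mem_range] at hb
      have hd0 : d ≠ 0 := (Nat.pos_of_mem_divisors hd).ne'
      have h1 := An.ty_le d hd0
      have h2 := Nat.divisor_le hd
      have h3 := An.ty_le (q / d) (by omega)
      have h4 := Nat.div_le_self q d
      have h5 := An.ty_le b (by omega)
      have h6 := An.one_le_ty d
      simp only [Finset.mem_Icc, Tp]
      omega
  rw [Finset.sum_congr rfl hsplit, Finset.sum_comm, Finset.sum_mul]
  refine Finset.sum_le_sum fun T hT => ?_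
  have hT1 : 1 ≤ T := (Finset.mem_Icc.mp hT).1
  have hψ := (h q).1
  by_cases hex : ∃ d ∈ q.divisors, ty d ≤ T ∧ ty (q / d) ≤ T
  · obtain ⟨d, hd, h1, h2⟩ := hex
    have hd0 : d ≠ 0 := (Nat.pos_of_mem_divisors hd).ne'
    have hdvd := Nat.dvd_of_mem_divisors hd
    have hqd : q / d ≠ 0 := (Nat.div_pos (Nat.divisor_le hd) (Nat.pos_of_ne_zero hd0)).ne'
    have hl : Light 2 T q := by
      have := An.light_mul d (q / d) T hd0 hqd h1 h2
      rwa [Nat.mul_div_cancel' hdvd] at this
    calc ∑ d ∈ q.divisors, ∑ b ∈ fibQ q d T, f d (q / d) b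
        ≤ ∑ d ∈ q.divisors, ψ q * J T d := by
          refine Finset.sum_le_sum fun d hd => ?_
          by_cases hg : ty d ≤ T ∧ ty (q / d) ≤ T
          · exact hb T d hT1 hd hg.1 hg.2
          · have : fibQ q d T = ∅ := Finset.eq_empty_of_forall_notMem fun b hb' => hg (by
              have := (mem_fibQ.mp hb').2.2.2
              simp only [Tp] at this; omega)
            rw [this, Finset.sum_empty]; exact mul_nonneg hψ (hJ0 T d)
      _ ≤ ψ q * X T := by
          rw [← Finset.mul_sum]; exact mul_le_mul_of_nonneg_left (hX T hT1 hl) hψ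
      _ ≤ An.C * T * mu γ ψ q * X T :=
          mul_le_mul_of_nonneg_right (psi_le_type An h hq hT1 hl) (hX0 T)
      _ = _ := by ring
  · push Not at hex
    have hz : ∑ d ∈ q.divisors, ∑ b ∈ fibQ q d T, f d (q / d) b = 0 := by
      refine Finset.sum_eq_zero fun d hd => ?_
      have : fibQ q d T = ∅ := Finset.eq_empty_of_forall_notMem fun b hb' => by
        have h7 := (mem_fibQ.mp hb').2.2.2
        have h8 := hex d hd (by simp only [Tp] at h7; omega)
        simp only [Tp] at h7; omega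
      rw [this, Finset.sum_empty]
    rw [hz]
    have := An.one_le_C; have := hX0 T; have := mu_nonneg (γ := γ) (q := q) hψ
    positivity

/-- Facts about a member of a dyadic class. -/
lemma class_facts {d a b i : ℕ} (hb : 0 < b) (hab : b < a) (hi : ix a b = i) :
    (2 : ℝ) ^ i * b < a ∧ (a : ℝ) ≤ 2 * 2 ^ i * b ∧ (d : ℝ) * a ≤ 2 * 2 ^ i * ((d : ℝ) * b) := by
  obtain ⟨h1, h2, -⟩ := ix_spec hb hab
  rw [hi] at h1 h2
  have e1 : (2 : ℝ) ^ i * b < a := by exact_mod_cast h1
  have e2 : (a : ℝ) ≤ 2 * 2 ^ i * b := by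
    have : (a : ℝ) ≤ (2 : ℝ) ^ (i + 1) * b := by exact_mod_cast h2
    rwa [pow_succ, mul_comm ((2 : ℝ) ^ i) 2] at this
  refine ⟨e1, e2, ?_⟩
  calc (d : ℝ) * a ≤ d * (2 * 2 ^ i * b) := mul_le_mul_of_nonneg_left e2 (Nat.cast_nonneg d)
    _ = _ := by ring

/-- The width is at most `(a / b) / (8 d)`. -/
lemma Del_le (h : Small ψ) {d a b : ℕ} (hb : 0 < b) (hab : b < a) :
    (d : ℝ) * b * Del ψ d a b ≤ a / 8 := by
  have hbR : (0 : ℝ) < b := by exact_mod_cast hb
  have habR : (b : ℝ) < a := by exact_mod_cast hab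
  have haR : (0 : ℝ) < a := hbR.trans habR
  have e1 : (d : ℝ) * a * ψ (d * a) ≤ 1 / 16 := by
    have := (h (d * a)).2; push_cast at this; exact this
  have e2 : (d : ℝ) * b * ψ (d * b) ≤ 1 / 16 := by
    have := (h (d * b)).2; push_cast at this; exact this
  have e3 : (d : ℝ) * b * ψ (d * a) ≤ 1 / 16 :=
    le_trans (mul_le_mul_of_nonneg_right (mul_le_mul_of_nonneg_left habR.le (Nat.cast_nonneg d))
      (h _).1) e1
  rw [Del]
  calc (d : ℝ) * b * (b * ψ (d * a) + a * ψ (d * b))
      = b * ((d : ℝ) * b * ψ (d * a)) + a * ((d : ℝ) * b * ψ (d * b)) := by ring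
    _ ≤ b * (1 / 16) + a * (1 / 16) :=
        add_le_add (mul_le_mul_of_nonneg_left e3 hbR.le) (mul_le_mul_of_nonneg_left e2 haR.le)
    _ ≤ _ := by linarith

/-- In the middle range the class is at least `d`, and `ψ` of the smaller member is controlled. -/
lemma InB_facts (h : Small ψ) {d a b i : ℕ} (hd : 0 < d) (hb : 0 < b) (hab : b < a)
    (hi : ix a b = i) (hB : InB ψ d a b) :
    d ≤ 2 ^ i ∧ ((d * a : ℕ) : ℝ) * ψ (d * b) ≤ d * 2 ^ (4 * Tp d a b) := by
  obtain ⟨-, h2, -⟩ := class_facts (d := d) hb hab hi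
  obtain ⟨hlo, hhi⟩ := hB
  have hbR : (0 : ℝ) < b := by exact_mod_cast hb
  have hdR : (0 : ℝ) < d := by exact_mod_cast hd
  refine ⟨?_, ?_⟩
  · have e1 := Del_le h (d := d) hb hab
    have e2 : (d : ℝ) * b * (1 / 4) ≤ (d : ℝ) * b * Del ψ d a b :=
      mul_le_mul_of_nonneg_left hlo (by positivity)
    have e3 : (d : ℝ) * b ≤ (2 : ℝ) ^ i * b := by linarith
    have e4 := le_of_mul_le_mul_right e3 hbR
    exact_mod_cast e4
  · have e1 : (a : ℝ) * ψ (d * b) ≤ Del ψ d a b :=
      le_add_of_nonneg_left (mul_nonneg hbR.le (h _).1)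
    rw [pow_mul, show ((2 : ℝ) ^ 4) = 16 by norm_num]
    push_cast
    calc (d : ℝ) * a * ψ (d * b) = d * ((a : ℝ) * ψ (d * b)) := by ring
      _ ≤ d * (16 : ℝ) ^ Tp d a b := mul_le_mul_of_nonneg_left (e1.trans hhi.le) hdR.le

/-- A bound of each member times the size of the class. -/
lemma sum_class_le (S : Finset ℕ) (g : ℕ → ℝ) {v N : ℝ} (hv : 0 ≤ v) (hg : ∀ x ∈ S, g x ≤ v)
    (hN : (S.card : ℝ) ≤ N) : ∑ x ∈ S, g x ≤ N * v := by
  refine (Finset.sum_le_card_nsmul S g v hg).trans ?_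
  rw [nsmul_eq_mul]
  exact mul_le_mul_of_nonneg_right hN hv

open Classical in
theorem bound1 (An : Anat) (h : Small ψ) {q : ℕ} (hq : 0 < q) :
    ∑ d ∈ q.divisors, ∑ b ∈ (Finset.range (q / d)).filter (fun b => 0 < b ∧ (q / d).Coprime b),
      f1 ψ d (q / d) b ≤
      (∑ T ∈ Finset.Icc 1 q, An.C * T * (288 * An.C * An.R T * (T : ℝ) ^ 2)) * mu γ ψ q := by
  refine boundQ An h hq _
    (fun T d => 24 * ((if ty d = T then 1 else 0) + An.R T) / d * (6 * T))
    (fun T d => by have := An.R_nonneg T; positivity) _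
    (fun T => by have := An.one_le_C; have := An.R_nonneg T; positivity) ?_ ?_
  · intro T d hT hd _ _
    have hd0 : 0 < d := Nat.pos_of_mem_divisors hd
    set a := q / d with ha
    have hda : d * a = q := Nat.mul_div_cancel' (Nat.dvd_of_mem_divisors hd)
    set e : ℝ := (if ty d = T then 1 else 0) + An.R T with he
    have he0 : 0 ≤ e := by have := An.R_nonneg T; positivity
    have hψ := (h q).1
    have hqR : (0 : ℝ) < q := by exact_mod_cast hq
    have hdR : (0 : ℝ) < d := by exact_mod_cast hd0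
    refine (sum_le_ix _ _ (fun b => ix a b) a (fun i => ψ q * (24 * e / d) * win (4 * T) d i)
      (fun b hb => ?_) fun i => ?_).trans ?_
    · obtain ⟨h1, h2, -⟩ := mem_fibQ.mp hb
      exact (ix_spec h2 h1).2.2
    · simp only [f1]
      rw [← Finset.sum_filter, Finset.filter_filter]
      set S := (fibQ q d T).filter fun b => ix a b = i ∧ InB ψ d a b ∧
        (Tp d a b = ty d ∨ Tp d a b = ty b) with hS
      have hmem : ∀ b ∈ S, 0 < b ∧ b < a ∧ ix a b = i ∧ Tp d a b = T ∧ InB ψ d a b ∧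
          (T = ty d ∨ T = ty b) := by
        intro b hb
        obtain ⟨hb, h1, h2, h3⟩ := Finset.mem_filter.mp hb
        obtain ⟨g1, g2, -, g4⟩ := mem_fibQ.mp hb
        exact ⟨g2, g1, h1, g4, h2, g4 ▸ h3⟩
      rcases S.eq_empty_or_nonempty with hE | ⟨b0, hb0⟩
      · rw [hE, Finset.sum_empty]; have := win_nonneg (4 * T) d i; positivity
      obtain ⟨hb0', hab0, hi0, hT0, hB0, -⟩ := hmem b0 hb0
      have hdi : d ≤ 2 ^ i := (InB_facts h hd0 hb0' hab0 hi0 hB0).1
      have hw : win (4 * T) d i = min 1 ((d : ℝ) * 2 ^ (4 * T) / 2 ^ i) := if_pos hdi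
      have hcard : (S.card : ℝ) ≤ e * ((a : ℝ) / 2 ^ i) := by
        obtain ⟨c1, c2⟩ := card_class_q An (a := a) (i := i) (T := T) S fun b hb =>
          ⟨(hmem b hb).1, (hmem b hb).2.2.1 ▸ (ix_spec (hmem b hb).1 (hmem b hb).2.1).1⟩
        rw [he]
        by_cases hdT : ty d = T
        · rw [if_pos hdT]
          exact c1.trans (le_mul_of_one_le_left (by positivity)
            (le_add_of_nonneg_right (An.R_nonneg T)))
        · rw [if_neg hdT, zero_add]
          exact c2 hT fun b hb => ((hmem b hb).2.2.2.2.2.resolve_left (Ne.symm hdT)).symm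
      have hval : ∀ b ∈ S, valB ψ d a b ≤ 24 * ψ q * (2 ^ i / q * win (4 * T) d i) := by
        intro b hb
        obtain ⟨g1, g2, g3, g4, g5, -⟩ := hmem b hb
        obtain ⟨-, -, e3⟩ := class_facts (d := d) g1 g2 g3
        have e1 := (InB_facts h hd0 g1 g2 g3 g5).2
        rw [g4, hda] at e1
        have e2 : (q : ℝ) * ψ (d * b) ≤ 2 ^ i := by
          have h2 := (h (d * b)).2
          push_cast at h2
          have : (q : ℝ) * ψ (d * b) ≤ 2 * 2 ^ i * ((d : ℝ) * b) * ψ (d * b) := by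
            refine mul_le_mul_of_nonneg_right ?_ (h _).1
            rw [← hda]; push_cast; exact e3
          have h3 := mul_le_mul_of_nonneg_left h2 (show (0 : ℝ) ≤ 2 * 2 ^ i by positivity)
          have h4 : (0 : ℝ) ≤ 2 ^ i := by positivity
          linarith
        rw [valB, hda]
        refine mul_le_mul_of_nonneg_left ?_ (by positivity)
        rw [hw, mul_min_of_nonneg _ _ (by positivity), mul_one]
        refine le_min ?_ ?_
        · rw [le_div_iff₀ hqR]; linarith
        · rw [show (2 : ℝ) ^ i / q * ((d : ℝ) * 2 ^ (4 * T) / 2 ^ i) = (d : ℝ) * 2 ^ (4 * T) / q by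
            field_simp, le_div_iff₀ hqR]
          linarith
      refine (sum_class_le S _ (by have := win_nonneg (4 * T) d i; positivity) hval hcard).trans
        (le_of_eq ?_)
      rw [← hda]; push_cast
      have hane : (a : ℝ) ≠ 0 := by
        have : 0 < a := Nat.div_pos (Nat.divisor_le hd) hd0
        positivity
      field_simp
    · rw [← Finset.mul_sum, mul_assoc (ψ q)]
      refine mul_le_mul_of_nonneg_left (mul_le_mul_of_nonneg_left ?_ (by positivity)) hψ
      refine (sum_win_le _ _ _).trans ?_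
      have : (1 : ℝ) ≤ T := by exact_mod_cast hT
      push_cast; linarith
  · intro T hT hl
    have e1 := An.sum_inv T q hT hq.ne' hl
    have e2 := An.sum_rare q T hT
    have hR := An.R_nonneg T
    calc ∑ d ∈ q.divisors, 24 * ((if ty d = T then 1 else 0) + An.R T) / (d : ℝ) * (6 * T)
        = 144 * T * (∑ d ∈ q.divisors.filter (fun d => ty d = T), 1 / (d : ℝ)
            + An.R T * ∑ d ∈ q.divisors, 1 / (d : ℝ)) := by
          rw [Finset.sum_filter, Finset.mul_sum, ← Finset.sum_add_distrib, Finset.mul_sum]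
          refine Finset.sum_congr rfl fun d _ => ?_
          split_ifs <;> ring
      _ ≤ 144 * T * (An.R T * (An.C * T) + An.R T * (An.C * T)) := by
          refine mul_le_mul_of_nonneg_left (add_le_add (e2.trans (mul_le_mul_of_nonneg_left e1 hR))
            (mul_le_mul_of_nonneg_left e1 hR)) (by positivity)
      _ = _ := by ring

open Classical in
theorem bound2 (An : Anat) (h : Small ψ) {q : ℕ} (hq : 0 < q) :
    ∑ d ∈ q.divisors, ∑ b ∈ (Finset.range (q / d)).filter (fun b => 0 < b ∧ (q / d).Coprime b),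
      f2 ψ d (q / d) b ≤
      (∑ T ∈ Finset.Icc 1 q, An.C * T * (336 * An.C * (T : ℝ) ^ 2 * (1 / 2) ^ cutK T)) * mu γ ψ q := by
  refine boundQ An h hq _ (fun T d => 48 * (1 / 2) ^ cutK T / d * (7 * T))
    (fun T d => by positivity) _ (fun T => by have := An.one_le_C; positivity) ?_ ?_
  · intro T d hT hd _ _
    have hd0 : 0 < d := Nat.pos_of_mem_divisors hd
    set a := q / d with ha
    have hda : d * a = q := Nat.mul_div_cancel' (Nat.dvd_of_mem_divisors hd)
    have hψ := (h q).1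
    have hqR : (0 : ℝ) < q := by exact_mod_cast hq
    have hdR : (0 : ℝ) < d := by exact_mod_cast hd0
    set K := cutK T with hK
    refine (sum_le_ix _ _ (fun b => ix a b) a
      (fun i => ψ q * (48 * (1 / 2) ^ K / d) * win (4 * T + K) d i)
      (fun b hb => ?_) fun i => ?_).trans ?_
    · obtain ⟨h1, h2, -⟩ := mem_fibQ.mp hb
      exact (ix_spec h2 h1).2.2
    · simp only [f2]
      rw [← Finset.sum_filter, Finset.filter_filter]
      set S := (fibQ q d T).filter fun b => ix a b = i ∧ InB ψ d a b ∧ Tp d a b = ty a ∧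
        ((d * b : ℕ) : ℝ) * ψ (d * b) < (1 / 2 : ℝ) ^ cutK (Tp d a b) with hS
      have hmem : ∀ b ∈ S, 0 < b ∧ b < a ∧ ix a b = i ∧ Tp d a b = T ∧ InB ψ d a b ∧
          ((d * b : ℕ) : ℝ) * ψ (d * b) < (1 / 2 : ℝ) ^ K := by
        intro b hb
        obtain ⟨hb, h1, h2, -, h3⟩ := Finset.mem_filter.mp hb
        obtain ⟨g1, g2, -, g4⟩ := mem_fibQ.mp hb
        exact ⟨g2, g1, h1, g4, h2, by rw [g4] at h3; exact h3⟩
      rcases S.eq_empty_or_nonempty with hE | ⟨b0, hb0⟩
      · rw [hE, Finset.sum_empty]; have := win_nonneg (4 * T + K) d i; positivity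
      obtain ⟨hb0', hab0, hi0, -, hB0, -⟩ := hmem b0 hb0
      have hw : win (4 * T + K) d i = min 1 ((d : ℝ) * 2 ^ (4 * T + K) / 2 ^ i) :=
        if_pos (InB_facts h hd0 hb0' hab0 hi0 hB0).1
      have hcard := (card_class_q An (a := a) (i := i) (T := T) S fun b hb =>
          ⟨(hmem b hb).1, (hmem b hb).2.2.1 ▸ (ix_spec (hmem b hb).1 (hmem b hb).2.1).1⟩).1
      have hval : ∀ b ∈ S, valB ψ d a b ≤
          24 * ψ q * (2 * 2 ^ i * (1 / 2) ^ K / q * win (4 * T + K) d i) := by
        intro b hb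
        obtain ⟨g1, g2, g3, g4, g5, g6⟩ := hmem b hb
        obtain ⟨-, -, e3⟩ := class_facts (d := d) g1 g2 g3
        have e1 := (InB_facts h hd0 g1 g2 g3 g5).2
        rw [g4, hda] at e1
        rw [valB, hda]
        refine mul_le_mul_of_nonneg_left ?_ (by positivity)
        rw [hw, mul_min_of_nonneg _ _ (by positivity), mul_one]
        refine le_min ?_ ?_
        · rw [le_div_iff₀ hqR]
          have : (q : ℝ) * ψ (d * b) ≤ 2 * 2 ^ i * ((d : ℝ) * b) * ψ (d * b) := by
            refine mul_le_mul_of_nonneg_right ?_ (h _).1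
            rw [← hda]; push_cast; exact e3
          push_cast at g6
          have h3 := mul_le_mul_of_nonneg_left g6.le (show (0 : ℝ) ≤ 2 * 2 ^ i by positivity)
          linarith
        · rw [show 2 * (2 : ℝ) ^ i * (1 / 2) ^ K / q * ((d : ℝ) * 2 ^ (4 * T + K) / 2 ^ i) =
              2 * (d : ℝ) * 2 ^ (4 * T) / q by
            rw [pow_add, one_div_pow]; field_simp, le_div_iff₀ hqR]
          have : (0 : ℝ) ≤ (d : ℝ) * 2 ^ (4 * T) := by positivity
          linarith
      refine (sum_class_le S _ (by have := win_nonneg (4 * T + K) d i; positivity) hval hcard).trans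
        (le_of_eq ?_)
      rw [← hda]; push_cast
      have hane : (a : ℝ) ≠ 0 := by
        have : 0 < a := Nat.div_pos (Nat.divisor_le hd) hd0
        positivity
      field_simp
      ring
    · rw [← Finset.mul_sum, mul_assoc (ψ q)]
      refine mul_le_mul_of_nonneg_left (mul_le_mul_of_nonneg_left ?_ (by positivity)) hψ
      refine (sum_win_le _ _ _).trans ?_
      have h1 : (1 : ℝ) ≤ T := by exact_mod_cast hT
      have h2 : (K : ℝ) ≤ T := by exact_mod_cast (cutK_bounds hT).2
      push_cast; linarith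
  · intro T hT hl
    have e1 := An.sum_inv T q hT hq.ne' hl
    calc ∑ d ∈ q.divisors, 48 * (1 / 2 : ℝ) ^ cutK T / (d : ℝ) * (7 * T)
        = 336 * T * (1 / 2 : ℝ) ^ cutK T * ∑ d ∈ q.divisors, 1 / (d : ℝ) := by
          rw [Finset.mul_sum]; exact Finset.sum_congr rfl fun d _ => by ring
      _ ≤ 336 * T * (1 / 2 : ℝ) ^ cutK T * (An.C * T) :=
          mul_le_mul_of_nonneg_left e1 (by positivity)
      _ = _ := by ring

/-- A narrow pair costs at most `4 ψ q / a`. -/
lemma valC_le (_h : Small ψ) {d a b : ℕ} (hd : 0 < d) :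
    valC ψ d a b ≤ 4 * ψ (d * a) / a := by
  have hdR : (0 : ℝ) < d := by exact_mod_cast hd
  refine (mul_le_mul_of_nonneg_left (min_le_left _ _) (by positivity)).trans (le_of_eq ?_)
  push_cast
  field_simp

open Classical in
theorem bound5 (An : Anat) (h : Small ψ) {q : ℕ} (hq : 0 < q) :
    ∑ d ∈ q.divisors, ∑ b ∈ (Finset.range (q / d)).filter (fun b => 0 < b ∧ (q / d).Coprime b),
      f5 γ ψ d (q / d) b ≤
      (∑ T ∈ Finset.Icc 1 q, An.C * T * (8 * An.C * T * (1 / 2) ^ cutK T)) * mu γ ψ q := by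
  refine boundQ An h hq _ (fun T d => 8 * (1 / 2) ^ cutK T / d)
    (fun T d => by positivity) _ (fun T => by have := An.one_le_C; positivity) ?_ ?_
  · intro T d hT hd _ _
    have hd0 : 0 < d := Nat.pos_of_mem_divisors hd
    set a := q / d with ha
    have hda : d * a = q := Nat.mul_div_cancel' (Nat.dvd_of_mem_divisors hd)
    have hane : (0 : ℝ) < a := by exact_mod_cast Nat.div_pos (Nat.divisor_le hd) hd0
    have hψ := (h q).1
    set X := (d * 2 ^ cutK T) ^ 2 with hX
    refine (sum_le_ix _ _ (fun b => ix a b) a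
      (fun i => if X < 2 ^ i then 4 * ψ q * (1 / (2 : ℝ) ^ i) else 0)
      (fun b hb => ?_) fun i => ?_).trans ?_
    · obtain ⟨h1, h2, -⟩ := mem_fibQ.mp hb
      exact (ix_spec h2 h1).2.2
    · simp only [f5]
      rw [← Finset.sum_filter, Finset.filter_filter]
      set S := (fibQ q d T).filter fun b => ix a b = i ∧ InC γ ψ d a b ∧
        (d * 2 ^ cutK (Tp d a b)) ^ 2 < 2 ^ ix a b with hS
      rcases S.eq_empty_or_nonempty with hE | ⟨b0, hb0⟩
      · rw [hE, Finset.sum_empty]; split_ifs <;> positivity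
      have hcond : X < 2 ^ i := by
        obtain ⟨hb, h1, -, h3⟩ := Finset.mem_filter.mp hb0
        rw [h1, (mem_fibQ.mp hb).2.2.2] at h3
        exact h3
      rw [if_pos hcond]
      have hcard := (card_class_q An (a := a) (i := i) (T := T) S fun b hb => by
        obtain ⟨hb, h1, -⟩ := Finset.mem_filter.mp hb
        obtain ⟨g1, g2, -⟩ := mem_fibQ.mp hb
        exact ⟨g2, h1 ▸ (ix_spec g2 g1).1⟩).1
      refine (sum_class_le S _ (v := 4 * ψ q / a) (by positivity) (fun b _ => hda ▸ valC_le h hd0)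
        hcard).trans (le_of_eq ?_)
      field_simp
    · rw [← Finset.sum_filter, ← Finset.mul_sum]
      have hXpos : 0 < X := by positivity
      refine (mul_le_mul_of_nonneg_left (sum_inv_pow_above X a hXpos) (by positivity)).trans ?_
      have h1 : (d : ℝ) * 2 ^ cutK T ≤ (X : ℝ) := by
        rw [hX]; push_cast
        refine le_self_pow₀ ?_ two_ne_zero
        exact one_le_mul_of_one_le_of_one_le (by exact_mod_cast hd0) (one_le_pow₀ one_le_two)
      calc 4 * ψ q * (2 / (X : ℝ)) ≤ 4 * ψ q * (2 / ((d : ℝ) * 2 ^ cutK T)) := by gcongr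
        _ = _ := by rw [one_div_pow]; field_simp; ring
  · intro T hT hl
    have e1 := An.sum_inv T q hT hq.ne' hl
    calc ∑ d ∈ q.divisors, 8 * (1 / 2 : ℝ) ^ cutK T / (d : ℝ)
        = 8 * (1 / 2 : ℝ) ^ cutK T * ∑ d ∈ q.divisors, 1 / (d : ℝ) := by
          rw [Finset.mul_sum]; exact Finset.sum_congr rfl fun d _ => by ring
      _ ≤ 8 * (1 / 2 : ℝ) ^ cutK T * (An.C * T) := mul_le_mul_of_nonneg_left e1 (by positivity)
      _ = _ := by ring

open Classical in
theorem bound6 (An : Anat) (h : Small ψ) {q : ℕ} (hq : 0 < q) :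
    ∑ d ∈ q.divisors, ∑ b ∈ (Finset.range (q / d)).filter (fun b => 0 < b ∧ (q / d).Coprime b),
      f6 γ ψ d (q / d) b ≤
      (∑ T ∈ Finset.Icc 1 q, An.C * T * (8 * An.R T * (cutD T + 1))) * mu γ ψ q := by
  refine boundQ An h hq _ (fun T d => if d ≤ cutD T then 8 * An.R T else 0)
    (fun T d => by have := An.R_nonneg T; split_ifs <;> positivity) _
    (fun T => by have := An.R_nonneg T; positivity) ?_ ?_
  · intro T d hT hd _ _
    have hd0 : 0 < d := Nat.pos_of_mem_divisors hd
    set a := q / d with ha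
    have hda : d * a = q := Nat.mul_div_cancel' (Nat.dvd_of_mem_divisors hd)
    have hane : (0 : ℝ) < a := by exact_mod_cast Nat.div_pos (Nat.divisor_le hd) hd0
    have hψ := (h q).1
    have hR := An.R_nonneg T
    by_cases hdD : d ≤ cutD T
    swap
    · rw [if_neg hdD, mul_zero]
      refine (Finset.sum_eq_zero fun b hb => if_neg ?_).le
      rintro ⟨-, h2, -⟩
      rw [(mem_fibQ.mp hb).2.2.2] at h2
      exact hdD h2
    rw [if_pos hdD]
    refine (sum_le_ix _ _ (fun b => ix a b) a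
      (fun i => 4 * ψ q * An.R T * (1 / 2 : ℝ) ^ i)
      (fun b hb => ?_) fun i => ?_).trans ?_
    · obtain ⟨h1, h2, -⟩ := mem_fibQ.mp hb
      exact (ix_spec h2 h1).2.2
    · simp only [f6]
      rw [← Finset.sum_filter, Finset.filter_filter]
      set S := (fibQ q d T).filter fun b => ix a b = i ∧ InC γ ψ d a b ∧
        d ≤ cutD (Tp d a b) ∧ Tp d a b = ty b with hS
      have hcard := (card_class_q An (a := a) (i := i) (T := T) S fun b hb => by
        obtain ⟨hb, h1, -⟩ := Finset.mem_filter.mp hb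
        obtain ⟨g1, g2, -⟩ := mem_fibQ.mp hb
        exact ⟨g2, h1 ▸ (ix_spec g2 g1).1⟩).2 hT fun b hb => by
          obtain ⟨hb, -, -, -, h3⟩ := Finset.mem_filter.mp hb
          rw [← h3]; exact (mem_fibQ.mp hb).2.2.2
      refine (sum_class_le S _ (v := 4 * ψ q / a) (by positivity) (fun b _ => hda ▸ valC_le h hd0)
        hcard).trans (le_of_eq ?_)
      rw [one_div_pow]
      field_simp
    · rw [← Finset.mul_sum]
      refine (mul_le_mul_of_nonneg_left (sum_half_range a) (by positivity)).trans (le_of_eq ?_)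
      ring
  · intro T hT _
    rw [← Finset.sum_filter, Finset.sum_const, nsmul_eq_mul, mul_comm]
    refine mul_le_mul_of_nonneg_left ?_ (by have := An.R_nonneg T; positivity)
    exact_mod_cast (Finset.card_le_card (t := Finset.range (cutD T + 1)) fun d hd =>
      Finset.mem_range.mpr (Nat.lt_succ_of_le (Finset.mem_filter.mp hd).2)).trans
      (Finset.card_range _).le

/-- The negligible case: the denominators differ by a power of `q`. -/
theorem bound4 : ∃ C : ℝ, ∀ (γ : ℝ) (ψ : ℕ → ℝ), Small ψ → ∀ q : ℕ, 0 < q →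
    ∑ d ∈ q.divisors, ∑ b ∈ (Finset.range (q / d)).filter (fun b => 0 < b ∧ (q / d).Coprime b),
      f4 γ ψ d (q / d) b ≤ C * mu γ ψ q := by
  classical
  obtain ⟨C, hC, hdiv⟩ := exists_card_divisors_le 256
  refine ⟨4 * (256 * 2 + 1) * (max 1 C * max 1 C), fun γ ψ h q hq => ?_⟩
  have hψ := (h q).1
  have hqR : (0 : ℝ) < q := by exact_mod_cast hq
  have hq1 : (1 : ℝ) ≤ q := by exact_mod_cast hq
  set x : ℝ := (q : ℝ) ^ (1 / 32 : ℝ) with hx
  have hx32 : x ^ 32 = q := by
    rw [hx, ← Real.rpow_natCast, ← Real.rpow_mul hqR.le]; norm_num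
  have hx0 : 0 < x := by positivity
  have hper : ∀ d ∈ q.divisors,
      ∑ b ∈ (Finset.range (q / d)).filter (fun b => 0 < b ∧ (q / d).Coprime b),
        f4 γ ψ d (q / d) b ≤ (Nat.log 2 q + 1 : ℕ) * (4 * ψ q / x) := by
    intro d hd
    have hd0 : 0 < d := Nat.pos_of_mem_divisors hd
    set a := q / d with ha
    have hda : d * a = q := Nat.mul_div_cancel' (Nat.dvd_of_mem_divisors hd)
    have hane : (0 : ℝ) < a := by exact_mod_cast Nat.div_pos (Nat.divisor_le hd) hd0
    refine (sum_le_ix _ _ (fun b => ix a b) (Nat.log 2 q + 1) (fun _ => 4 * ψ q / x)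
      (fun b hb => ?_) fun i => ?_).trans (le_of_eq ?_)
    · obtain ⟨h1, h2, -⟩ := Finset.mem_filter.mp hb
      refine Nat.lt_succ_of_le (Nat.log_mono_right ?_)
      exact (Nat.div_le_self _ _).trans ((Nat.sub_le _ _).trans (Nat.div_le_self q d))
    · simp only [f4]
      rw [← Finset.sum_filter, Finset.filter_filter]
      set S := ((Finset.range (q / d)).filter fun b => 0 < b ∧ (q / d).Coprime b).filter
        fun b => ix a b = i ∧ InC γ ψ d a b ∧ d * a < (2 ^ ix a b) ^ 32 with hS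
      rcases S.eq_empty_or_nonempty with hE | ⟨b0, hb0⟩
      · rw [hE, Finset.sum_empty]; positivity
      have hxi : x ≤ 2 ^ i := by
        obtain ⟨-, h1, -, h3⟩ := Finset.mem_filter.mp hb0
        rw [h1, hda] at h3
        refine le_of_pow_le_pow_left₀ (by norm_num : (32 : ℕ) ≠ 0) (by positivity) ?_
        rw [hx32]; exact_mod_cast h3.le
      have hcard : (S.card : ℝ) ≤ (a : ℝ) / x := by
        refine le_trans ?_ (div_le_div_of_nonneg_left hane.le hx0 hxi)
        have hsub : S ⊆ Finset.Icc 1 (a / 2 ^ i) := by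
          intro b hb
          obtain ⟨hb, h1, -⟩ := Finset.mem_filter.mp hb
          obtain ⟨g1, g2, -⟩ := Finset.mem_filter.mp hb
          have g3 := (ix_spec g2 (Finset.mem_range.mp g1)).1
          rw [h1, mul_comm] at g3
          exact Finset.mem_Icc.mpr ⟨g2, (Nat.le_div_iff_mul_le (by positivity)).mpr g3.le⟩
        have h5 := Finset.card_le_card hsub
        rw [Nat.card_Icc, Nat.add_sub_cancel] at h5
        refine le_trans (Nat.cast_le.mpr h5) (Nat.cast_div_le.trans (le_of_eq ?_))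
        push_cast; rfl
      refine (sum_class_le S _ (v := 4 * ψ q / a) (by positivity) (fun b _ => hda ▸ valC_le h hd0)
        hcard).trans (le_of_eq ?_)
      field_simp
    · rw [Finset.sum_const, Finset.card_range, nsmul_eq_mul]
  refine (Finset.sum_le_sum hper).trans ?_
  rw [Finset.sum_const, nsmul_eq_mul]
  set τ : ℝ := (q.divisors.card : ℝ) with hτ
  have hτ0 : 0 < τ := by
    have : 0 < q.divisors.card := Finset.card_pos.mpr ⟨1, Nat.one_mem_divisors.mpr hq.ne'⟩
    positivity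
  set y : ℝ := (q : ℝ) ^ (1 / 256 : ℝ) with hy
  have hy256 : y ^ 256 = q := by
    rw [hy, ← Real.rpow_natCast, ← Real.rpow_mul hqR.le]; norm_num
  have hy0 : 0 < y := by positivity
  have hy1 : 1 ≤ y := Real.one_le_rpow hq1 (by norm_num)
  have hτy : τ ≤ max 1 C * y := by
    refine le_of_pow_le_pow_left₀ (by norm_num : (256 : ℕ) ≠ 0) (by positivity) ?_
    rw [mul_pow, hy256]
    exact (hdiv q hq.ne').trans (mul_le_mul_of_nonneg_right
      ((le_max_right 1 C).trans (le_self_pow₀ (le_max_left 1 C) (by norm_num))) hqR.le)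
  have hψμ : ψ q ≤ τ * mu γ ψ q := by
    refine (psi_le_mu hq.ne' hψ).trans (mul_le_mul_of_nonneg_right ?_ (mu_nonneg hψ))
    rw [div_le_iff₀ (by exact_mod_cast Nat.totient_pos.mpr hq), mul_comm, hτ]
    exact_mod_cast self_le_totient_mul_divisors hq.ne'
  have hlog : ((Nat.log 2 q + 1 : ℕ) : ℝ) ≤ (256 * 2 + 1) * y := by
    have h1 : (Nat.log 2 q : ℝ) * Real.log 2 ≤ Real.log q := by
      rw [← Real.log_pow]
      exact Real.log_le_log (by positivity) (by exact_mod_cast Nat.pow_log_le_self 2 hq.ne')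
    have h2 := Real.log_le_rpow_div hqR.le (show (0 : ℝ) < 1 / 256 by norm_num)
    rw [← hy] at h2
    have h3 : (1 / 2 : ℝ) ≤ Real.log 2 := by linarith [Real.log_two_gt_d9]
    have h4 : (Nat.log 2 q : ℝ) * (1 / 2) ≤ (Nat.log 2 q : ℝ) * Real.log 2 :=
      mul_le_mul_of_nonneg_left h3 (Nat.cast_nonneg _)
    push_cast
    linarith
  have hμ0 := mu_nonneg (γ := γ) (q := q) hψ
  have hCm : max 1 C * max 1 C * y ^ 3 ≤ max 1 C * max 1 C * x := by
    refine mul_le_mul_of_nonneg_left ?_ (by positivity)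
    rw [hy, hx, ← Real.rpow_natCast, ← Real.rpow_mul hqR.le]
    exact Real.rpow_le_rpow_of_exponent_le hq1 (by norm_num)
  calc τ * (((Nat.log 2 q + 1 : ℕ) : ℝ) * (4 * ψ q / x))
      ≤ (max 1 C * y) * (((256 * 2 + 1) * y) * (4 * (max 1 C * y * mu γ ψ q) / x)) := by
        gcongr
        exact hψμ.trans (mul_le_mul_of_nonneg_right hτy hμ0)
    _ = 4 * (256 * 2 + 1) * (max 1 C * max 1 C * y ^ 3 / x) * mu γ ψ q := by ring
    _ ≤ 4 * (256 * 2 + 1) * (max 1 C * max 1 C) * mu γ ψ q := by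
        refine mul_le_mul_of_nonneg_right (mul_le_mul_of_nonneg_left ?_ (by norm_num)) hμ0
        rw [div_le_iff₀ hx0]; exact hCm

end Vale.Agent.P028.EV
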