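import Vale.Agent.P028.EV.SumsQ

/-!
P028, inhomogeneous Erdős–Vaaler: the cases summed over the larger denominator.
-/

namespace Vale.Agent.P028.EV

open Finset Real

variable {γ : ℝ} {ψ : ℕ → ℝ}

open Classical in
/-- The larger partners of `r = d * b` of type `T`, up to `M`. -/
noncomputable def fibR (r d M T : ℕ) : Finset ℕ :=
  (Finset.Ioc (r / d) M).filter fun a => a.Coprime (r / d) ∧ Tp d a (r / d) = T

lemma mem_fibR {r d M T a : ℕ} : a ∈ fibR r d M T ↔
    (r / d < a ∧ a ≤ M) ∧ a.Coprime (r / d) ∧ Tp d a (r / d) = T := by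
  simp [fibR, and_assoc]

lemma boundR (An : Anat) (h : Small ψ) {r M : ℕ} (hr : 0 < r) (hrM : r ≤ M)
    (f : ℕ → ℕ → ℕ → ℝ) (J E : ℕ → ℕ → ℝ) (_hJ0 : ∀ T d, 0 ≤ J T d) (hE0 : ∀ T d, 0 ≤ E T d)
    (X : ℕ → ℝ) (hX0 : ∀ T, 0 ≤ X T)
    (hb : ∀ T d, 1 ≤ T → d ∈ r.divisors → ∑ a ∈ fibR r d M T, f d a (r / d) ≤ ψ r * J T d + E T d)
    (hX : ∀ T, 1 ≤ T → Light 2 T r → ∑ d ∈ r.divisors, J T d ≤ X T) :
    ∑ d ∈ r.divisors, ∑ a ∈ (Finset.Ioc (r / d) M).filter (fun a => a.Coprime (r / d)),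
      f d a (r / d) ≤ (∑ T ∈ Finset.Icc 1 M, An.C * T * X T) * mu γ ψ r
        + ∑ T ∈ Finset.Icc 1 M, ∑ d ∈ r.divisors, E T d := by
  classical
  have hsplit : ∀ d ∈ r.divisors,
      ∑ a ∈ (Finset.Ioc (r / d) M).filter (fun a => a.Coprime (r / d)), f d a (r / d) =
        ∑ T ∈ Finset.Icc 1 M, ∑ a ∈ fibR r d M T, f d a (r / d) := by
    intro d hd
    rw [← Finset.sum_fiberwise_of_maps_to (g := fun a => Tp d a (r / d)) (t := Finset.Icc 1 M)]
    · refine Finset.sum_congr rfl fun T _ => Finset.sum_congr ?_ fun _ _ => rfl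
      ext a; simp [fibR, and_assoc]
    · intro a ha
      simp only [Finset.mem_filter, Finset.mem_Ioc] at ha
      have hd0 : d ≠ 0 := (Nat.pos_of_mem_divisors hd).ne'
      have h1 := An.ty_le d hd0
      have h2 := Nat.divisor_le hd
      have hb0 : r / d ≠ 0 := (Nat.div_pos h2 (Nat.pos_of_mem_divisors hd)).ne'
      have h3 := An.ty_le (r / d) hb0
      have h5 := An.ty_le a (by omega)
      have h6 := An.one_le_ty d
      simp only [Finset.mem_Icc, Tp]
      omega
  rw [Finset.sum_congr rfl hsplit, Finset.sum_comm, Finset.sum_mul, ← Finset.sum_add_distrib]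
  refine Finset.sum_le_sum fun T hT => ?_
  have hT1 : 1 ≤ T := (Finset.mem_Icc.mp hT).1
  have hψ := (h r).1
  have hEs : 0 ≤ ∑ d ∈ r.divisors, E T d := Finset.sum_nonneg fun d _ => hE0 T d
  by_cases hex : ∃ d ∈ r.divisors, ty d ≤ T ∧ ty (r / d) ≤ T
  · obtain ⟨d, hd, h1, h2⟩ := hex
    have hd0 : d ≠ 0 := (Nat.pos_of_mem_divisors hd).ne'
    have hdvd := Nat.dvd_of_mem_divisors hd
    have hrd : r / d ≠ 0 := (Nat.div_pos (Nat.divisor_le hd) (Nat.pos_of_ne_zero hd0)).ne'
    have hl : Light 2 T r := by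
      have := An.light_mul d (r / d) T hd0 hrd h1 h2
      rwa [Nat.mul_div_cancel' hdvd] at this
    calc ∑ d ∈ r.divisors, ∑ a ∈ fibR r d M T, f d a (r / d)
        ≤ ∑ d ∈ r.divisors, (ψ r * J T d + E T d) :=
          Finset.sum_le_sum fun d hd => hb T d hT1 hd
      _ ≤ ψ r * X T + ∑ d ∈ r.divisors, E T d := by
          rw [Finset.sum_add_distrib, ← Finset.mul_sum]
          exact add_le_add (mul_le_mul_of_nonneg_left (hX T hT1 hl) hψ) le_rfl
      _ ≤ An.C * T * mu γ ψ r * X T + ∑ d ∈ r.divisors, E T d :=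
          add_le_add (mul_le_mul_of_nonneg_right (psi_le_type An h hr hT1 hl) (hX0 T)) le_rfl
      _ = _ := by ring
  · push Not at hex
    have hz : ∑ d ∈ r.divisors, ∑ a ∈ fibR r d M T, f d a (r / d) = 0 := by
      refine Finset.sum_eq_zero fun d hd => ?_
      have : fibR r d M T = ∅ := Finset.eq_empty_of_forall_notMem fun a ha => by
        have h7 := (mem_fibR.mp ha).2.2
        have h8 := hex d hd (by simp only [Tp] at h7; omega)
        simp only [Tp] at h7; omega
      rw [this, Finset.sum_empty]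
    rw [hz]
    have := An.one_le_C; have := hX0 T; have := mu_nonneg (γ := γ) (q := r) hψ
    positivity

open Classical in
theorem bound3 (An : Anat) (h : Small ψ) {r M : ℕ} (hr : 0 < r) (hrM : r ≤ M) :
    ∑ d ∈ r.divisors, ∑ a ∈ (Finset.Ioc (r / d) M).filter (fun a => a.Coprime (r / d)),
      f3 ψ d a (r / d) ≤
      (∑ T ∈ Finset.Icc 1 M, An.C * T * (21 * An.C * An.R T * (T : ℝ) ^ 2)) * mu γ ψ r := by
  refine (boundR (γ := γ) An h hr hrM _ (fun T d => 3 * An.R T / d * (7 * T)) (fun _ _ => 0)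
    (fun T d => by have := An.R_nonneg T; positivity) (fun _ _ => le_rfl)
    (fun T => 21 * An.C * An.R T * (T : ℝ) ^ 2)
    (fun T => by have := An.one_le_C; have := An.R_nonneg T; positivity) ?_ ?_).trans_eq (by simp)
  · intro T d hT hd
    rw [add_zero]
    have hd0 : 0 < d := Nat.pos_of_mem_divisors hd
    set b := r / d with hbdef
    have hdb : d * b = r := Nat.mul_div_cancel' (Nat.dvd_of_mem_divisors hd)
    have hb0 : 0 < b := Nat.div_pos (Nat.divisor_le hd) hd0
    have hψ := (h r).1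
    have hbR : (0 : ℝ) < b := by exact_mod_cast hb0
    have hdR : (0 : ℝ) < d := by exact_mod_cast hd0
    have hR := An.R_nonneg T
    set K := cutK T with hK
    refine (sum_le_ix _ _ (fun a => ix a b) M (fun i => ψ r * (3 * An.R T / d) * win (4 * T + K) d i)
      (fun a ha => ?_) fun i => ?_).trans ?_
    · obtain ⟨⟨h1, h2⟩, -⟩ := mem_fibR.mp ha
      exact lt_of_lt_of_le (ix_spec hb0 h1).2.2 h2
    · simp only [f3]
      rw [← Finset.sum_filter, Finset.filter_filter]
      set S := (fibR r d M T).filter fun a => ix a b = i ∧ InB ψ d a b ∧ Tp d a b = ty a ∧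
        (1 / 2 : ℝ) ^ cutK (Tp d a b) ≤ ((d * b : ℕ) : ℝ) * ψ (d * b) with hS
      have hmem : ∀ a ∈ S, b < a ∧ ix a b = i ∧ Tp d a b = T ∧ InB ψ d a b ∧ ty a = T ∧
          (1 / 2 : ℝ) ^ K ≤ ((d * b : ℕ) : ℝ) * ψ (d * b) := by
        intro a ha
        obtain ⟨ha, h1, h2, h3, h4⟩ := Finset.mem_filter.mp ha
        obtain ⟨⟨g1, -⟩, -, g3⟩ := mem_fibR.mp ha
        rw [g3] at h3 h4
        exact ⟨g1, h1, g3, h2, h3.symm, h4⟩
      rcases S.eq_empty_or_nonempty with hE | ⟨a0, ha0⟩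
      · rw [hE, Finset.sum_empty]; have := win_nonneg (4 * T + K) d i; positivity
      obtain ⟨hab, hi0, hT0, hB0, -, hw0⟩ := hmem a0 ha0
      have hw : win (4 * T + K) d i = 1 := by
        obtain ⟨hdi, e1⟩ := InB_facts h hd0 hb0 hab hi0 hB0
        rw [hT0] at e1
        rw [win, if_pos hdi, min_eq_left]
        rw [le_div_iff₀ (by positivity), one_mul, pow_add]
        obtain ⟨c1, -, -⟩ := class_facts (d := d) hb0 hab hi0
        push_cast at e1 hw0
        rw [one_div_pow, div_le_iff₀ (by positivity)] at hw0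
        have h3 := mul_le_mul_of_nonneg_left hw0 (show (0 : ℝ) ≤ a0 by positivity)
        have h4 := mul_le_mul_of_nonneg_left e1 (show (0 : ℝ) ≤ b * 2 ^ K by positivity)
        refine le_of_mul_le_mul_right ?_ hbR
        linarith
      rw [hw, mul_one]
      have hcard := card_class_r An (b := b) (i := i) S hT fun a ha => by
        obtain ⟨g1, g2, -, -, g5, -⟩ := hmem a ha
        exact ⟨by omega, g2 ▸ (ix_spec hb0 g1).2.1, g5⟩
      have hval : ∀ a ∈ S, valB ψ d a b ≤ 24 * ψ r * (1 / (16 * ((d : ℝ) * (2 ^ i * b)))) := by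
        intro a ha
        obtain ⟨g1, g2, -⟩ := hmem a ha
        obtain ⟨c1, -, -⟩ := class_facts (d := d) hb0 g1 g2
        rw [valB, hdb, mul_assoc (24 : ℝ), mul_comm (ψ (d * a)), ← mul_assoc]
        refine mul_le_mul_of_nonneg_left ((h.psi_le (show 0 < d * a by
          have : 0 < a := by omega
          positivity)).trans ?_) (by positivity)
        push_cast
        gcongr
      refine (sum_class_le S _ (by positivity) hval hcard).trans (le_of_eq ?_)
      field_simp
      ring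
    · rw [← Finset.mul_sum, mul_assoc (ψ r)]
      refine mul_le_mul_of_nonneg_left (mul_le_mul_of_nonneg_left ?_ (by positivity)) hψ
      refine (sum_win_le _ _ _).trans ?_
      have h1 : (1 : ℝ) ≤ T := by exact_mod_cast hT
      have h2 : (K : ℝ) ≤ T := by exact_mod_cast (cutK_bounds hT).2
      push_cast; linarith
  · intro T hT hl
    have e1 := An.sum_inv T r hT hr.ne' hl
    calc ∑ d ∈ r.divisors, 3 * An.R T / (d : ℝ) * (7 * T)
        = 21 * An.R T * T * ∑ d ∈ r.divisors, 1 / (d : ℝ) := by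
          rw [Finset.mul_sum]; exact Finset.sum_congr rfl fun d _ => by ring
      _ ≤ 21 * An.R T * T * (An.C * T) :=
          mul_le_mul_of_nonneg_left e1 (by have := An.R_nonneg T; positivity)
      _ = _ := by ring

open Classical in
theorem bound7 (An : Anat) (h : Small ψ) {r M : ℕ} (hr : 0 < r) (hrM : r ≤ M) :
    ∑ d ∈ r.divisors, ∑ a ∈ (Finset.Ioc (r / d) M).filter (fun a => a.Coprime (r / d)),
      f7 γ ψ d a (r / d) ≤
      (∑ T ∈ Finset.Icc 1 M, An.C * T *
        (16 * An.R T * ((cutD T : ℝ) * 2 ^ cutK T) ^ 2 * (cutD T + 1))) * mu γ ψ r := by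
  refine (boundR (γ := γ) An h hr hrM _
    (fun T d => if d ≤ cutD T then 16 * An.R T * ((cutD T : ℝ) * 2 ^ cutK T) ^ 2 else 0)
    (fun _ _ => 0) (fun T d => by have := An.R_nonneg T; split_ifs <;> positivity)
    (fun _ _ => le_rfl)
    (fun T => 16 * An.R T * ((cutD T : ℝ) * 2 ^ cutK T) ^ 2 * (cutD T + 1))
    (fun T => by have := An.R_nonneg T; positivity) ?_ ?_).trans_eq (by simp)
  · intro T d hT hd
    rw [add_zero]
    have hd0 : 0 < d := Nat.pos_of_mem_divisors hd
    set b := r / d with hbdef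
    have hdb : d * b = r := Nat.mul_div_cancel' (Nat.dvd_of_mem_divisors hd)
    have hb0 : 0 < b := Nat.div_pos (Nat.divisor_le hd) hd0
    have hψ := (h r).1
    have hbR : (0 : ℝ) < b := by exact_mod_cast hb0
    have hdR : (0 : ℝ) < d := by exact_mod_cast hd0
    have hR := An.R_nonneg T
    by_cases hdD : d ≤ cutD T
    swap
    · rw [if_neg hdD, mul_zero]
      refine (Finset.sum_eq_zero fun a ha => if_neg ?_).le
      rintro ⟨-, h2, -⟩
      rw [(mem_fibR.mp ha).2.2] at h2
      exact hdD h2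
    rw [if_pos hdD]
    set X := (d * 2 ^ cutK T) ^ 2 with hX
    refine (sum_le_ix _ _ (fun a => ix a b) M
      (fun i => if 2 ^ i ≤ X then 8 * ψ r * An.R T * (2 : ℝ) ^ i else 0)
      (fun a ha => ?_) fun i => ?_).trans ?_
    · obtain ⟨⟨h1, h2⟩, -⟩ := mem_fibR.mp ha
      exact lt_of_lt_of_le (ix_spec hb0 h1).2.2 h2
    · simp only [f7]
      rw [← Finset.sum_filter, Finset.filter_filter]
      set S := (fibR r d M T).filter fun a => ix a b = i ∧ InC γ ψ d a b ∧ d ≤ cutD (Tp d a b) ∧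
        Tp d a b = ty a ∧ 2 ^ ix a b ≤ (d * 2 ^ cutK (Tp d a b)) ^ 2 with hS
      rcases S.eq_empty_or_nonempty with hE | ⟨a0, ha0⟩
      · rw [hE, Finset.sum_empty]; split_ifs <;> positivity
      have hcond : 2 ^ i ≤ X := by
        obtain ⟨ha, h1, -, -, -, h4⟩ := Finset.mem_filter.mp ha0
        rw [h1, (mem_fibR.mp ha).2.2] at h4
        exact h4
      rw [if_pos hcond]
      have hcard := card_class_r An (b := b) (i := i) S hT fun a ha => by
        obtain ⟨ha, h1, -, -, h3, -⟩ := Finset.mem_filter.mp ha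
        obtain ⟨⟨g1, -⟩, -, g3⟩ := mem_fibR.mp ha
        exact ⟨by omega, h1 ▸ (ix_spec hb0 g1).2.1, h3 ▸ g3⟩
      have hval : ∀ a ∈ S, valC ψ d a b ≤ 4 * ψ r / b := by
        intro a _
        refine (mul_le_mul_of_nonneg_left (min_le_right _ _) (by positivity)).trans (le_of_eq ?_)
        rw [hdb, ← hdb]
        push_cast
        field_simp
      refine (sum_class_le S _ (by positivity) hval hcard).trans (le_of_eq ?_)
      field_simp
      ring
    · rw [← Finset.sum_filter, ← Finset.mul_sum]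
      refine (mul_le_mul_of_nonneg_left (sum_pow_below X M) (by positivity)).trans ?_
      have h1 : (X : ℝ) ≤ ((cutD T : ℝ) * 2 ^ cutK T) ^ 2 := by
        rw [hX]; push_cast; gcongr
      calc 8 * ψ r * An.R T * (2 * (X : ℝ))
          ≤ 8 * ψ r * An.R T * (2 * ((cutD T : ℝ) * 2 ^ cutK T) ^ 2) := by gcongr
        _ = _ := by ring
  · intro T hT _
    rw [← Finset.sum_filter, Finset.sum_const, nsmul_eq_mul, mul_comm]
    refine mul_le_mul_of_nonneg_left ?_ (by have := An.R_nonneg T; positivity)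
    exact_mod_cast (Finset.card_le_card (t := Finset.range (cutD T + 1)) fun d hd =>
      Finset.mem_range.mpr (Nat.lt_succ_of_le (Finset.mem_filter.mp hd).2)).trans
      (Finset.card_range _).le

/-- A large cut divisor bounds the type. -/
lemma le_of_cutD_lt {T d : ℕ} (h : cutD T < d) : (T : ℝ) ≤ Real.log d ^ 8 := by
  have h1 : Real.exp ((T : ℝ) ^ (1 / 8 : ℝ)) ≤ d :=
    (Nat.le_ceil _).trans (by exact_mod_cast h.le)
  have hd : (0 : ℝ) < d := lt_of_lt_of_le (Real.exp_pos _) h1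
  have h2 : (T : ℝ) ^ (1 / 8 : ℝ) ≤ Real.log d := (Real.le_log_iff_exp_le hd).mpr h1
  have h3 := pow_le_pow_left₀ (by positivity) h2 8
  rwa [← Real.rpow_natCast ((T : ℝ) ^ (1 / 8 : ℝ)), ← Real.rpow_mul (Nat.cast_nonneg T),
    show ((1 : ℝ) / 8) * ((8 : ℕ) : ℝ) = 1 by norm_num, Real.rpow_one] at h3

/-- The number of classes below the cut. -/
lemma card_classes {d T L : ℕ} (hd : 0 < d) (hT : 1 ≤ T) :
    (((Finset.range L).filter fun i => 2 ^ i ≤ (d * 2 ^ cutK T) ^ 2).card : ℝ) ≤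
      5 * (Real.log d + cutK T) := by
  set K := cutK T
  have hK : (1 : ℝ) ≤ K := by exact_mod_cast (cutK_bounds hT).1
  have hsub : ((Finset.range L).filter fun i => 2 ^ i ≤ (d * 2 ^ K) ^ 2) ⊆
      Finset.range (2 * (Nat.log 2 d + 1 + K) + 1) := by
    intro i hi
    have h1 := (Finset.mem_filter.mp hi).2
    have h2 : d ≤ 2 ^ (Nat.log 2 d + 1) := (Nat.lt_pow_succ_log_self one_lt_two d).le
    have h3 : (d * 2 ^ K) ^ 2 ≤ 2 ^ (2 * (Nat.log 2 d + 1 + K)) := by
      rw [mul_comm 2 (Nat.log 2 d + 1 + K), pow_mul, pow_add]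
      exact Nat.pow_le_pow_left (Nat.mul_le_mul_right _ h2) 2
    have := (Nat.pow_le_pow_iff_right one_lt_two).mp (h1.trans h3)
    exact Finset.mem_range.mpr (by omega)
  have h4 : (((Finset.range L).filter fun i => 2 ^ i ≤ (d * 2 ^ K) ^ 2).card : ℝ) ≤
      ((2 * (Nat.log 2 d + 1 + K) + 1 : ℕ) : ℝ) :=
    Nat.cast_le.mpr ((Finset.card_le_card hsub).trans (Finset.card_range _).le)
  have h5 : (Nat.log 2 d : ℝ) * Real.log 2 ≤ Real.log d := by
    rw [← Real.log_pow]
    exact Real.log_le_log (by positivity) (by exact_mod_cast Nat.pow_log_le_self 2 hd.ne')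
  have h6 : (0.69 : ℝ) * (Nat.log 2 d : ℝ) ≤ Real.log 2 * (Nat.log 2 d : ℝ) :=
    mul_le_mul_of_nonneg_right (by linarith [Real.log_two_gt_d9]) (Nat.cast_nonneg _)
  have h7 := Real.log_natCast_nonneg d
  refine h4.trans ?_
  push_cast
  linarith

/-- Negligible sizes. -/
lemma negligible_bound : ∃ C : ℝ, 0 < C ∧ ∀ r : ℕ, 0 < r →
    (r.divisors.card : ℝ) ^ 2 * (Nat.log 2 r + 1 : ℕ) * ((Real.log r) ^ 8 + 2) ≤
      C * (r : ℝ) ^ (1 / 48 : ℝ) := by
  obtain ⟨C, hC, hdiv⟩ := exists_card_divisors_le 192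
  refine ⟨(max 1 C) ^ 2 * (2 * 2000 + 1) * (2000 ^ 8 + 2), by positivity, fun r hr => ?_⟩
  have hrR : (0 : ℝ) < r := by exact_mod_cast hr
  have hr1 : (1 : ℝ) ≤ r := by exact_mod_cast hr
  set y : ℝ := (r : ℝ) ^ (1 / 2000 : ℝ) with hy
  set z : ℝ := (r : ℝ) ^ (1 / 192 : ℝ) with hz
  have hy1 : 1 ≤ y := Real.one_le_rpow hr1 (by norm_num)
  have hlog : Real.log r ≤ 2000 * y := by
    have := Real.log_le_rpow_div hrR.le (show (0 : ℝ) < 1 / 2000 by norm_num)
    rw [← hy] at this
    linarith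
  have hlog0 := Real.log_natCast_nonneg r
  have hτ : (r.divisors.card : ℝ) ≤ max 1 C * z := by
    refine le_of_pow_le_pow_left₀ (by norm_num : (192 : ℕ) ≠ 0) (by positivity) ?_
    rw [mul_pow, show z ^ 192 = r by rw [hz, ← Real.rpow_natCast, ← Real.rpow_mul hrR.le]; norm_num]
    exact (hdiv r hr.ne').trans (mul_le_mul_of_nonneg_right
      ((le_max_right 1 C).trans (le_self_pow₀ (le_max_left 1 C) (by norm_num))) hrR.le)
  have hL : ((Nat.log 2 r + 1 : ℕ) : ℝ) ≤ (2 * 2000 + 1) * y := by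
    have h1 : (Nat.log 2 r : ℝ) * Real.log 2 ≤ Real.log r := by
      rw [← Real.log_pow]
      exact Real.log_le_log (by positivity) (by exact_mod_cast Nat.pow_log_le_self 2 hr.ne')
    have h4 : (1 / 2 : ℝ) * (Nat.log 2 r : ℝ) ≤ Real.log 2 * (Nat.log 2 r : ℝ) :=
      mul_le_mul_of_nonneg_right (by linarith [Real.log_two_gt_d9]) (Nat.cast_nonneg _)
    push_cast
    linarith
  have h8 : Real.log r ^ 8 + 2 ≤ (2000 ^ 8 + 2) * y ^ 8 := by
    have := pow_le_pow_left₀ hlog0 hlog 8
    rw [mul_pow] at this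
    have h9 : 1 ≤ y ^ 8 := one_le_pow₀ hy1
    linarith
  have hzy : z ^ 2 * (y * y ^ 8) ≤ (r : ℝ) ^ (1 / 48 : ℝ) := by
    rw [show y * y ^ 8 = y ^ 9 by ring, hz, hy, ← Real.rpow_natCast, ← Real.rpow_natCast (_ : ℝ) 9,
      ← Real.rpow_mul hrR.le, ← Real.rpow_mul hrR.le, ← Real.rpow_add hrR]
    exact Real.rpow_le_rpow_of_exponent_le hr1 (by norm_num)
  calc (r.divisors.card : ℝ) ^ 2 * (Nat.log 2 r + 1 : ℕ) * (Real.log r ^ 8 + 2)
      ≤ (max 1 C * z) ^ 2 * ((2 * 2000 + 1) * y) * ((2000 ^ 8 + 2) * y ^ 8) := by gcongr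
    _ = (max 1 C) ^ 2 * (2 * 2000 + 1) * (2000 ^ 8 + 2) * (z ^ 2 * (y * y ^ 8)) := by ring
    _ ≤ _ := mul_le_mul_of_nonneg_left hzy (by positivity)

open Classical in
/-- One class of the narrow case. -/
lemma class8 (h : Small ψ) {r d i : ℕ} (hd : d ∈ r.divisors) (hr : 2 ^ 30 ≤ r) (S : Finset ℕ)
    (hS : ∀ a ∈ S, r / d < a ∧ a.Coprime (r / d) ∧ ix a (r / d) = i ∧ InC γ ψ d a (r / d) ∧
      (2 ^ ix a (r / d)) ^ 32 ≤ d * a) :
    ∑ a ∈ S, valC ψ d a (r / d) ≤
      ψ r * (24 / d) + 128 * ψ r * ((r : ℝ) ^ (1 / 48 : ℝ))⁻¹ := by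
  have hd0 : 0 < d := Nat.pos_of_mem_divisors hd
  set b := r / d with hbdef
  have hdb : d * b = r := Nat.mul_div_cancel' (Nat.dvd_of_mem_divisors hd)
  have hb0 : 0 < b := Nat.div_pos (Nat.divisor_le hd) hd0
  have hψ := (h r).1
  have hbR : (0 : ℝ) < b := by exact_mod_cast hb0
  have hdR : (0 : ℝ) < d := by exact_mod_cast hd0
  have hrR : (0 : ℝ) < r := by rw [← hdb]; positivity
  have hdbR : (d : ℝ) * b = r := by exact_mod_cast hdb
  rcases S.eq_empty_or_nonempty with hE | ⟨a0, ha0⟩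
  · rw [hE, Finset.sum_empty]; positivity
  obtain ⟨hab0, -, hi0, -, h32⟩ := hS a0 ha0
  set R : ℝ := (2 : ℝ) ^ i with hR
  have hR1 : 1 ≤ R := one_le_pow₀ one_le_two
  have h30 : R ^ 30 ≤ (d : ℝ) * b := by
    rcases Nat.eq_zero_or_pos i with e | e
    · have : R = 1 := by rw [hR, e, pow_zero]
      rw [this, one_pow, hdbR]
      exact_mod_cast le_trans (by norm_num) hr
    · obtain ⟨-, c2, c3⟩ := class_facts (d := d) hb0 hab0 hi0
      have e1 : R ^ 32 ≤ (d : ℝ) * a0 := by rw [hR, ← hi0]; exact_mod_cast h32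
      have e2 : R ^ 32 ≤ 2 * R * ((d : ℝ) * b) := e1.trans c3
      have e3 : (2 : ℝ) ≤ R := le_self_pow₀ one_le_two e.ne'
      have e4 : R ^ 30 * (2 * R) ≤ R ^ 30 * (R * R) := by gcongr
      have e5 : R ^ 30 * (2 * R) ≤ (d : ℝ) * b * (2 * R) := by linarith
      exact le_of_mul_le_mul_right e5 (by positivity)
  set w := (r : ℝ) * ψ r with hw
  have hw0 : 0 ≤ w := by positivity
  have hw1 : w ≤ 1 / 16 := (h r).2
  set δ := (1 / (16 * R) + 2 * R * w) / d with hδ
  have hδ0 : 0 < δ := by positivity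
  have hδd : δ * d ≤ R := by
    rw [hδ, div_mul_cancel₀ _ hdR.ne']
    have e1 : 2 * R * w ≤ 2 * R * (1 / 16) := mul_le_mul_of_nonneg_left hw1 (by positivity)
    have e2 : 1 / (16 * R) ≤ 1 / 16 := one_div_le_one_div_of_le (by norm_num) (by linarith)
    linarith
  set Y : ℝ := (r : ℝ) ^ (1 / 16 : ℝ) with hYdef
  have hY16 : Y ^ 16 = (d : ℝ) * b := by
    rw [hYdef, ← Real.rpow_natCast, ← Real.rpow_mul hrR.le, hdbR]; norm_num
  have hY2 : 2 ≤ Y := by
    refine le_of_pow_le_pow_left₀ (by norm_num : (16 : ℕ) ≠ 0) (by positivity) ?_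
    rw [hY16, hdbR]
    exact le_trans (by norm_num) (show ((2 ^ 30 : ℕ) : ℝ) ≤ r by exact_mod_cast hr)
  have hrr : (2 : ℝ) ^ 30 ≤ (d : ℝ) * b := by rw [hdbR]; exact_mod_cast hr
  have hcard := card_res_le (γ := γ) (ψ := ψ) hd0 hb0 hY2 hY16 h30 hrr hδ0 hδd S fun a ha => by
    obtain ⟨g1, g2, g3, g4, -⟩ := hS a ha
    obtain ⟨c1, c2, -⟩ := class_facts (d := d) hb0 g1 g3
    have s := ix_spec hb0 g1
    rw [g3] at s
    refine ⟨s.1, s.2.1, g2, g4.2, ?_⟩
    rw [hδ, le_div_iff₀ hdR, Del, hdb, hw]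
    have haR : (0 : ℝ) < a := by
      have : 0 < a := by omega
      exact_mod_cast this
    have e1 : (d : ℝ) * a * ψ (d * a) ≤ 1 / 16 := by
      have := (h (d * a)).2; push_cast at this; exact this
    have e2 : (b : ℝ) * ψ (d * a) * d ≤ 1 / (16 * R) := by
      rw [le_div_iff₀ (by positivity)]
      have e0 : (0 : ℝ) ≤ (d : ℝ) * ψ (d * a) := mul_nonneg hdR.le (h _).1
      have := mul_le_mul_of_nonneg_left c1.le e0
      linarith
    have e3 : (a : ℝ) * ψ r * d ≤ 2 * R * ((r : ℝ) * ψ r) := by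
      rw [← hdbR]
      have e0 : (0 : ℝ) ≤ (d : ℝ) * ψ r := mul_nonneg hdR.le hψ
      have := mul_le_mul_of_nonneg_left c2 e0
      linarith
    linarith
  set m := min w (1 / (16 * R ^ 2)) with hm
  have hm0 : 0 ≤ m := le_min hw0 (by positivity)
  have hval : ∀ a ∈ S, valC ψ d a b ≤ 4 * d * (m / (r : ℝ) ^ 2) := by
    intro a ha
    obtain ⟨g1, -, g3, -⟩ := hS a ha
    obtain ⟨c1, -, -⟩ := class_facts (d := d) hb0 g1 g3
    refine mul_le_mul_of_nonneg_left ?_ (by positivity)
    rw [hm, ← min_div_div_right (show (0 : ℝ) ≤ (r : ℝ) ^ 2 by positivity)]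
    refine le_min ((min_le_right _ _).trans (le_of_eq ?_)) ((min_le_left _ _).trans ?_)
    · rw [hdb, hw]; field_simp
    · have haR : (0 : ℝ) < a := lt_trans (by positivity) c1
      have e1 := h.psi_le (show 0 < d * a by
        have : 0 < a := by exact_mod_cast haR
        positivity)
      push_cast at e1 ⊢
      calc ψ (d * a) / ((d : ℝ) * a) ≤ 1 / (16 * ((d : ℝ) * a)) / ((d : ℝ) * a) :=
            div_le_div_of_nonneg_right e1 (by positivity)
        _ = 1 / (16 * (((d : ℝ) * a) * ((d : ℝ) * a))) := by rw [div_div]; ring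
        _ ≤ 1 / (16 * (((d : ℝ) * (R * b)) * ((d : ℝ) * (R * b)))) := by gcongr
        _ = _ := by rw [← hdbR]; field_simp
  refine (sum_class_le S _ (by positivity) hval hcard).trans ?_
  rw [mul_add, add_mul]
  refine add_le_add ?_ ?_
  · -- the main term
    rw [hδ, show 32 * (R * (b : ℝ)) * ((1 / (16 * R) + 2 * R * w) / d) * (4 * d * (m / (r : ℝ) ^ 2)) =
      128 / ((r : ℝ) * d) * (m * R * (1 / (16 * R) + 2 * R * w)) by
        rw [← hdbR]; field_simp; ring]
    have e1 : m * R * (1 / (16 * R) + 2 * R * w) = m / 16 + 2 * (m * R ^ 2) * w := by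
      field_simp
    have e2 : m * R ^ 2 ≤ 1 / 16 := by
      refine (mul_le_mul_of_nonneg_right (min_le_right _ _) (by positivity)).trans (le_of_eq ?_)
      field_simp
    have e3 : m ≤ w := min_le_left _ _
    have e4 := mul_le_mul_of_nonneg_right e2 hw0
    calc 128 / ((r : ℝ) * d) * (m * R * (1 / (16 * R) + 2 * R * w))
        ≤ 128 / ((r : ℝ) * d) * (3 * w / 16) := by
          refine mul_le_mul_of_nonneg_left ?_ (by positivity)
          rw [e1]; linarith
      _ = ψ r * (24 / d) := by rw [hw]; field_simp; ring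
  · -- the negligible term
    rw [show 32 * (R * (b : ℝ)) * (1 / Y) * (4 * d * (m / (r : ℝ) ^ 2)) =
      128 * (m / (r : ℝ)) * (R / Y) by rw [← hdbR]; field_simp; ring]
    refine mul_le_mul (mul_le_mul_of_nonneg_left ?_ (by norm_num)) ?_ (by positivity) (by positivity)
    · rw [div_le_iff₀ hrR, mul_comm]; exact min_le_left _ _
    · rw [div_le_iff₀ (by positivity)]
      have e1 : R ≤ (r : ℝ) ^ (1 / 30 : ℝ) := by
        refine le_of_pow_le_pow_left₀ (by norm_num : (30 : ℕ) ≠ 0) (by positivity) ?_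
        rw [← Real.rpow_natCast ((r : ℝ) ^ (1 / 30 : ℝ)), ← Real.rpow_mul hrR.le]
        refine h30.trans (le_of_eq ?_)
        rw [hdbR]; norm_num
      rw [← Real.rpow_neg hrR.le, hYdef, ← Real.rpow_add hrR]
      exact e1.trans (Real.rpow_le_rpow_of_exponent_le
        (by exact_mod_cast le_trans (by norm_num) hr) (by norm_num))

theorem bound8 (An : Anat) : ∃ C : ℝ, ∀ (γ : ℝ) (ψ : ℕ → ℝ), Small ψ → ∀ r M : ℕ,
    2 ^ 30 ≤ r → r ≤ M →
    ∑ d ∈ r.divisors, ∑ a ∈ (Finset.Ioc (r / d) M).filter (fun a => a.Coprime (r / d)),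
      f8 γ ψ d a (r / d) ≤
      (∑ T ∈ Finset.Icc 1 M, An.C * T *
        (120 * (An.Z T + 2 * T * cutD T * An.R T * (An.C * T)))) * mu γ ψ r + C * mu γ ψ r := by
  classical
  obtain ⟨C, hC, hneg⟩ := negligible_bound
  refine ⟨128 * C, fun γ ψ h r M hr30 hrM => ?_⟩
  have hr : 0 < r := lt_of_lt_of_le (by norm_num) hr30
  have hψ := (h r).1
  set L := Nat.log 2 r + 1 with hL
  set P := fun T d => cutD T < d ∨ ty d = T with hP
  set e : ℝ := 128 * ψ r * ((r : ℝ) ^ (1 / 48 : ℝ))⁻¹ with he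
  have he0 : 0 ≤ e := by positivity
  refine (boundR (γ := γ) An h hr hrM _
    (fun T d => if P T d then 120 * ((Real.log d + cutK T) / d) else 0)
    (fun T d => if P T d then (L : ℝ) * e else 0)
    (fun T d => by have := Real.log_natCast_nonneg d; split_ifs <;> positivity)
    (fun T d => by split_ifs <;> positivity)
    (fun T => 120 * (An.Z T + 2 * T * cutD T * An.R T * (An.C * T)))
    (fun T => by have := An.one_le_C; have := An.R_nonneg T; have := An.Z_nonneg T; positivity)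
    ?_ ?_).trans (add_le_add le_rfl ?_)
  · intro T d hT hd
    have hd0 : 0 < d := Nat.pos_of_mem_divisors hd
    set b := r / d with hbdef
    have hb0 : 0 < b := Nat.div_pos (Nat.divisor_le hd) hd0
    have hdb : d * b = r := Nat.mul_div_cancel' (Nat.dvd_of_mem_divisors hd)
    by_cases hPd : P T d
    swap
    · rw [if_neg hPd, if_neg hPd, mul_zero, add_zero]
      refine (Finset.sum_eq_zero fun a ha => if_neg ?_).le
      rintro ⟨-, -, -, h4⟩
      rw [(mem_fibR.mp ha).2.2] at h4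
      exact hPd (h4.imp_right Eq.symm)
    rw [if_pos hPd, if_pos hPd]
    refine (sum_le_ix _ _ (fun a => ix a b) M
      (fun i => if 2 ^ i ≤ (d * 2 ^ cutK T) ^ 2 ∧ i < L then ψ r * (24 / d) + e else 0)
      (fun a ha => ?_) fun i => ?_).trans ?_
    · obtain ⟨⟨h1, h2⟩, -⟩ := mem_fibR.mp ha
      exact lt_of_lt_of_le (ix_spec hb0 h1).2.2 h2
    · simp only [f8]
      rw [← Finset.sum_filter, Finset.filter_filter]
      set S := (fibR r d M T).filter fun a => ix a b = i ∧ InC γ ψ d a b ∧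
        2 ^ ix a b ≤ (d * 2 ^ cutK (Tp d a b)) ^ 2 ∧ (2 ^ ix a b) ^ 32 ≤ d * a ∧
        (cutD (Tp d a b) < d ∨ Tp d a b = ty d) with hS
      rcases S.eq_empty_or_nonempty with hE | ⟨a0, ha0⟩
      · rw [hE, Finset.sum_empty]; split_ifs <;> positivity
      have hcond : 2 ^ i ≤ (d * 2 ^ cutK T) ^ 2 ∧ i < L := by
        obtain ⟨ha, h1, -, h3, h4, -⟩ := Finset.mem_filter.mp ha0
        obtain ⟨⟨g1, -⟩, -, g3⟩ := mem_fibR.mp ha
        rw [h1, g3] at h3
        rw [h1] at h4
        refine ⟨h3, ?_⟩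
        have g4 := (ix_spec hb0 g1).2.1
        rw [h1] at g4
        have g5 : (2 ^ i) ^ 32 ≤ 2 ^ (i + 1) * r := by
          calc (2 ^ i) ^ 32 ≤ d * a0 := h4
            _ ≤ d * (2 ^ (i + 1) * b) := Nat.mul_le_mul_left _ g4
            _ = 2 ^ (i + 1) * r := by rw [← hdb]; ring
        rcases Nat.eq_zero_or_pos i with e0 | e0
        · rw [hL]; omega
        · have g6 : 2 ^ (i + 1) * 2 ^ i ≤ (2 ^ i) ^ 32 := by
            rw [← pow_add, ← pow_mul]; exact Nat.pow_le_pow_right (by norm_num) (by omega)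
          have g7 : 2 ^ i ≤ r := Nat.le_of_mul_le_mul_left (g6.trans g5) (by positivity)
          rw [hL]
          exact Nat.lt_succ_of_le ((Nat.le_log_iff_pow_le one_lt_two hr.ne').mpr g7)
      rw [if_pos hcond]
      refine class8 (γ := γ) (i := i) h hd hr30 S fun a ha => ?_
      obtain ⟨ha, h1, h2, -, h4, -⟩ := Finset.mem_filter.mp ha
      obtain ⟨⟨g1, -⟩, g2, -⟩ := mem_fibR.mp ha
      exact ⟨g1, g2, h1, h2, h4⟩
    · rw [← Finset.sum_filter, Finset.sum_const, nsmul_eq_mul, mul_add]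
      refine add_le_add ?_ (mul_le_mul_of_nonneg_right ?_ he0)
      · have c1 : (((Finset.range M).filter fun i => 2 ^ i ≤ (d * 2 ^ cutK T) ^ 2 ∧ i < L).card : ℝ)
            ≤ 5 * (Real.log d + cutK T) :=
          le_trans (Nat.cast_le.mpr (Finset.card_le_card
            (Finset.monotone_filter_right _ fun _ _ hi => hi.1))) (card_classes hd0 hT)
        refine (mul_le_mul_of_nonneg_right c1 (by positivity)).trans (le_of_eq ?_)
        ring
      · exact Nat.cast_le.mpr ((Finset.card_le_card (t := Finset.range L) fun i hi =>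
          Finset.mem_range.mpr (Finset.mem_filter.mp hi).2.2).trans (Finset.card_range L).le)
  · intro T hT hl
    have e1 := An.sum_inv T r hT hr.ne' hl
    have e2 := An.sum_rare r T hT
    have e3 := An.tail T r hT hr.ne' hl
    have hR := An.R_nonneg T
    set F := r.divisors.filter fun d => cutD T < d with hF
    set G := r.divisors.filter fun d => ty d = T ∧ d ≤ cutD T with hG
    have hg0 : ∀ d : ℕ, 0 ≤ (Real.log d + cutK T) / (d : ℝ) := fun d => by
      have := Real.log_natCast_nonneg d; positivity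
    calc ∑ d ∈ r.divisors, (if P T d then 120 * ((Real.log d + cutK T) / (d : ℝ)) else 0)
        ≤ 120 * (∑ d ∈ F, (Real.log d + cutK T) / (d : ℝ) + ∑ d ∈ G, (Real.log d + cutK T) / (d : ℝ)) := by
          rw [hF, hG, Finset.sum_filter, Finset.sum_filter, ← Finset.sum_add_distrib, Finset.mul_sum]
          refine Finset.sum_le_sum fun d _ => ?_
          have := hg0 d
          by_cases a1 : cutD T < d
          · rw [if_pos (show P T d from Or.inl a1), if_pos a1]
            split_ifs <;> linarith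
          · by_cases a2 : ty d = T
            · rw [if_pos (show P T d from Or.inr a2), if_neg a1, if_pos ⟨a2, not_lt.mp a1⟩]
              linarith
            · rw [if_neg (show ¬ P T d from not_or.mpr ⟨a1, a2⟩), if_neg a1]
              split_ifs <;> linarith
      _ ≤ 120 * (An.Z T + 2 * T * cutD T * An.R T * (An.C * T)) := by
          refine mul_le_mul_of_nonneg_left (add_le_add e3 ?_) (by norm_num)
          calc ∑ d ∈ G, (Real.log d + cutK T) / (d : ℝ)
              ≤ ∑ d ∈ G, 2 * T * cutD T * (1 / (d : ℝ)) := by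
                refine Finset.sum_le_sum fun d hd => ?_
                obtain ⟨hdd, -, hdD⟩ := Finset.mem_filter.mp hd
                have hd1 : (1 : ℝ) ≤ d := by exact_mod_cast Nat.pos_of_mem_divisors hdd
                have c1 : Real.log d ≤ cutD T :=
                  (Real.log_le_self (by linarith)).trans (by exact_mod_cast hdD)
                have c2 : (cutK T : ℝ) ≤ T := by exact_mod_cast (cutK_bounds hT).2
                have c3 : (1 : ℝ) ≤ cutD T := hd1.trans (by exact_mod_cast hdD)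
                have c4 : (1 : ℝ) ≤ T := by exact_mod_cast hT
                have c5 := le_mul_of_one_le_left (show (0 : ℝ) ≤ cutD T by positivity) c4
                have c6 := le_mul_of_one_le_right (show (0 : ℝ) ≤ (T : ℝ) by positivity) c3
                rw [mul_one_div]
                exact div_le_div_of_nonneg_right (by linarith) (by positivity)
            _ ≤ 2 * T * cutD T * (An.R T * (An.C * T)) := by
                rw [← Finset.mul_sum]
                refine mul_le_mul_of_nonneg_left ?_ (by positivity)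
                refine le_trans (Finset.sum_le_sum_of_subset_of_nonneg (fun d hd => ?_)
                  fun d _ _ => by positivity) (e2.trans (mul_le_mul_of_nonneg_left e1 hR))
                exact Finset.mem_filter.mpr ⟨(Finset.mem_filter.mp hd).1, (Finset.mem_filter.mp hd).2.1⟩
            _ = _ := by ring
  · -- the negligible terms
    rw [Finset.sum_comm]
    have hT' : ∀ d ∈ r.divisors, ∑ T ∈ Finset.Icc 1 M, (if P T d then (L : ℝ) * e else 0) ≤
        (Real.log r ^ 8 + 2) * ((L : ℝ) * e) := by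
      intro d hd
      rw [← Finset.sum_filter, Finset.sum_const, nsmul_eq_mul]
      refine mul_le_mul_of_nonneg_right ?_ (by positivity)
      have hlr : Real.log d ≤ Real.log r :=
        Real.log_le_log (by exact_mod_cast Nat.pos_of_mem_divisors hd) (by exact_mod_cast Nat.divisor_le hd)
      set Bd := ⌊Real.log r ^ 8⌋₊ with hB
      have hsub : (Finset.Icc 1 M).filter (fun T => P T d) ⊆ insert (ty d) (Finset.Icc 1 Bd) := by
        intro T hT
        obtain ⟨h1, h2⟩ := Finset.mem_filter.mp hT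
        rcases h2 with h2 | h2
        · refine Finset.mem_insert_of_mem (Finset.mem_Icc.mpr ⟨(Finset.mem_Icc.mp h1).1, Nat.le_floor ?_⟩)
          exact (le_of_cutD_lt h2).trans (pow_le_pow_left₀ (Real.log_natCast_nonneg d) hlr 8)
        · exact Finset.mem_insert.mpr (Or.inl h2.symm)
      have h3 := (Finset.card_le_card hsub).trans (Finset.card_insert_le _ _)
      rw [Nat.card_Icc, Nat.add_sub_cancel] at h3
      have h4 : (((Finset.Icc 1 M).filter fun T => P T d).card : ℝ) ≤ (Bd : ℝ) + 1 := by exact_mod_cast h3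
      have h5 : (Bd : ℝ) ≤ Real.log r ^ 8 := Nat.floor_le (by have := Real.log_natCast_nonneg r; positivity)
      linarith
    refine (Finset.sum_le_sum hT').trans ?_
    rw [Finset.sum_const, nsmul_eq_mul]
    have hψμ : ψ r ≤ (r.divisors.card : ℝ) * mu γ ψ r := by
      refine (psi_le_mu hr.ne' hψ).trans (mul_le_mul_of_nonneg_right ?_ (mu_nonneg hψ))
      rw [div_le_iff₀ (by exact_mod_cast Nat.totient_pos.mpr hr), mul_comm]
      exact_mod_cast self_le_totient_mul_divisors hr.ne'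
    have hn := hneg r hr
    have hμ0 := mu_nonneg (γ := γ) (q := r) hψ
    have hlog0 := Real.log_natCast_nonneg r
    rw [he]
    calc (r.divisors.card : ℝ) * ((Real.log r ^ 8 + 2) * ((L : ℝ) * (128 * ψ r * ((r : ℝ) ^ (1 / 48 : ℝ))⁻¹)))
        ≤ (r.divisors.card : ℝ) * ((Real.log r ^ 8 + 2) * ((L : ℝ) *
            (128 * ((r.divisors.card : ℝ) * mu γ ψ r) * ((r : ℝ) ^ (1 / 48 : ℝ))⁻¹))) := by gcongr
      _ = 128 * ((r.divisors.card : ℝ) ^ 2 * (L : ℝ) * (Real.log r ^ 8 + 2)
            * ((r : ℝ) ^ (1 / 48 : ℝ))⁻¹) * mu γ ψ r := by ring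
      _ ≤ 128 * C * mu γ ψ r := by
          refine mul_le_mul_of_nonneg_right (mul_le_mul_of_nonneg_left ?_ (by norm_num)) hμ0
          rw [mul_inv_le_iff₀ (by positivity)]
          exact hn

end Vale.Agent.P028.EV
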