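import Vale.Agent.P028.EV.Defs

/-!
P028, inhomogeneous Erdős–Vaaler: the trimming, its density, Legendre's count, divisor bounds.
-/

namespace Vale.Agent.P028.EV

open Finset Real

/-- A divisor bound with any exponent. -/
theorem exists_card_divisors_le (k : ℕ) :
    ∃ C : ℝ, 0 < C ∧ ∀ n : ℕ, n ≠ 0 → (n.divisors.card : ℝ) ^ k ≤ C * n := by
  obtain ⟨M, hM⟩ := (tendsto_pow_const_div_const_pow_of_one_lt k
    (show (1 : ℝ) < 2 by norm_num)).bddAbove_range
  set M' : ℝ := max 1 (2 * M) with hM'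
  have hM1 : 1 ≤ M' := le_max_left _ _
  have hsmall : ∀ a : ℕ, ((a : ℝ) + 1) ^ k ≤ M' * 2 ^ a := by
    intro a
    have h := hM (Set.mem_range_self (a + 1))
    simp only [div_le_iff₀ (pow_pos (show (0 : ℝ) < 2 by norm_num) (a + 1))] at h
    push_cast at h
    refine h.trans ?_
    rw [pow_succ, show M * (2 ^ a * 2) = 2 * M * (2 : ℝ) ^ a by ring]
    exact mul_le_mul_of_nonneg_right (le_max_right _ _) (by positivity)
  refine ⟨M' ^ (2 ^ k), by positivity, fun n hn => ?_⟩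
  rw [Nat.card_divisors hn]
  push_cast
  rw [← Finset.prod_pow]
  conv_rhs => rw [← Nat.prod_factorization_pow_eq_self hn]
  rw [Finsupp.prod, Nat.support_factorization]
  push_cast
  have hfac : ∀ p ∈ n.primeFactors, ((n.factorization p : ℝ) + 1) ^ k ≤
      (if p < 2 ^ k then M' else 1) * (p : ℝ) ^ n.factorization p := by
    intro p hp
    have h2 := (Nat.prime_of_mem_primeFactors hp).two_le
    split_ifs with h
    · exact (hsmall _).trans (mul_le_mul_of_nonneg_left
        (pow_le_pow_left₀ (by norm_num) (by exact_mod_cast h2) _) (by linarith))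
    · rw [one_mul]
      calc ((n.factorization p : ℝ) + 1) ^ k ≤ ((2 : ℝ) ^ n.factorization p) ^ k := by
            refine pow_le_pow_left₀ (by positivity) ?_ _
            exact_mod_cast Nat.lt_two_pow_self (n := n.factorization p)
        _ = ((2 : ℝ) ^ k) ^ n.factorization p := by rw [← pow_mul, ← pow_mul, mul_comm]
        _ ≤ (p : ℝ) ^ n.factorization p :=
            pow_le_pow_left₀ (by positivity) (by exact_mod_cast not_lt.mp h) _
  refine (Finset.prod_le_prod (fun p _ => by positivity) hfac).trans ?_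
  rw [Finset.prod_mul_distrib]
  refine mul_le_mul_of_nonneg_right ?_ (Finset.prod_nonneg fun p _ => by positivity)
  rw [← Finset.prod_filter, Finset.prod_const]
  refine pow_le_pow_right₀ hM1 ((Finset.card_le_card (t := Finset.range (2 ^ k)) fun p hp => ?_).trans
    (Finset.card_range _).le)
  exact Finset.mem_range.mpr (Finset.mem_filter.mp hp).2

theorem two_pow_card_le_divisors {n : ℕ} (hn : n ≠ 0) :
    2 ^ n.primeFactors.card ≤ n.divisors.card := by
  rw [Nat.card_divisors hn, ← Finset.prod_const]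
  refine Finset.prod_le_prod' fun p hp => ?_
  have := Nat.Prime.factorization_pos_of_dvd (Nat.prime_of_mem_primeFactors hp) hn
    (Nat.dvd_of_mem_primeFactors hp)
  omega

theorem self_le_totient_mul_divisors {n : ℕ} (hn : n ≠ 0) :
    n ≤ n.totient * n.divisors.card := by
  conv_lhs => rw [← Nat.prod_factorization_pow_eq_self hn]
  rw [Nat.totient_eq_prod_factorization hn, Nat.card_divisors hn, Finsupp.prod,
    Finsupp.prod, Nat.support_factorization, ← Finset.prod_mul_distrib]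
  refine Finset.prod_le_prod' fun p hp => ?_
  have h2 := (Nat.prime_of_mem_primeFactors hp).two_le
  have h1 := Nat.Prime.factorization_pos_of_dvd (Nat.prime_of_mem_primeFactors hp) hn
    (Nat.dvd_of_mem_primeFactors hp)
  obtain ⟨a, ha⟩ := Nat.exists_eq_succ_of_ne_zero h1.ne'
  rw [ha, Nat.succ_sub_one, pow_succ, mul_assoc]
  refine Nat.mul_le_mul_left _ ?_
  have : (p - 1) * 2 ≤ (p - 1) * (a.succ + 1) := Nat.mul_le_mul_left _ (by omega)
  omega

/-- Legendre: integers of a window avoiding the roots of `Q a + P` modulo each prime of `S`. -/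
theorem legendre (S : Finset ℕ) (hS : ∀ p ∈ S, p.Prime) : ∀ (Q P : ℤ), (∀ p ∈ S, ¬ (p : ℤ) ∣ Q) →
    ∀ (x : ℤ) (L : ℕ),
    |((((Finset.Ico x (x + L)).filter fun a => ∀ p ∈ S, ¬ (p : ℤ) ∣ Q * a + P).card : ℕ) : ℝ)
      - L * ∏ p ∈ S, (1 - 1 / (p : ℝ))| ≤ 2 ^ (S.card + 1) - 1 := by
  induction S using Finset.induction with
  | empty =>
    intro Q P _ x L
    norm_num [Finset.filter_true_of_mem, Int.card_Ico]
  | @insert p S hpS ih =>
    intro Q P hQ x L
    have hp : p.Prime := hS p (Finset.mem_insert_self _ _)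
    have hpI : Prime (p : ℤ) := Nat.prime_iff_prime_int.mp hp
    have hp0 : (0 : ℤ) < p := by exact_mod_cast hp.pos
    have ih' := ih fun q hq => hS q (Finset.mem_insert_of_mem hq)
    obtain ⟨u, v, huv⟩ : IsCoprime (p : ℤ) Q :=
      hpI.coprime_iff_not_dvd.mpr (hQ p (Finset.mem_insert_self _ _))
    obtain ⟨a0, ha0⟩ : ∃ a0, (p : ℤ) ∣ Q * a0 + P := ⟨-P * v, ⟨P * u, by linear_combination -P * huv⟩⟩
    have hiff : ∀ a, (p : ℤ) ∣ Q * a + P ↔ (p : ℤ) ∣ a - a0 := by
      intro a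
      rw [show Q * a + P = Q * (a - a0) + (Q * a0 + P) by ring, dvd_add_left ha0]
      refine ⟨fun h => (hpI.dvd_or_dvd h).resolve_left (hQ p (Finset.mem_insert_self _ _)),
        fun h => h.mul_left _⟩
    have hQ' : ∀ q ∈ S, ¬ (q : ℤ) ∣ Q * p := by
      intro q hq h
      have hqp := hS q (Finset.mem_insert_of_mem hq)
      rcases (Nat.prime_iff_prime_int.mp hqp).dvd_or_dvd h with h1 | h1
      · exact hQ q (Finset.mem_insert_of_mem hq) h1
      · have h2 := (Nat.prime_dvd_prime_iff_eq hqp hp).mp (Int.natCast_dvd_natCast.mp h1)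
        exact hpS (h2 ▸ hq)
    set g : ℤ → ℕ → Prop := fun a q => ¬ (q : ℤ) ∣ Q * a + P with hg
    set W := (Finset.Ico x (x + L)).filter fun a => ∀ q ∈ S, g a q with hW
    have hsplit : ((Finset.Ico x (x + L)).filter fun a => ∀ q ∈ insert p S, g a q).card
        + (W.filter fun a => (p : ℤ) ∣ a - a0).card = W.card := by
      rw [← Finset.card_filter_add_card_filter_not (s := W) (fun a => (p : ℤ) ∣ a - a0), add_comm]
      congr 2
      ext a
      simp only [hW, hg, Finset.mem_filter, Finset.forall_mem_insert, hiff]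
      tauto
    set s0 : ℤ := -((a0 - x) / p) with hs0
    set s1 : ℤ := -((a0 - x - L) / p) with hs1
    have key : ∀ s : ℤ, (s0 ≤ s ↔ x ≤ a0 + p * s) ∧ (s < s1 ↔ a0 + p * s < x + L) := by
      intro s
      constructor
      · rw [hs0, neg_le, Int.le_ediv_iff_mul_le hp0]
        constructor <;> intro h <;> nlinarith
      · rw [hs1, lt_neg, Int.ediv_lt_iff_lt_mul hp0]
        constructor <;> intro h <;> nlinarith
    have hs01 : s0 ≤ s1 := by
      rw [hs0, hs1, neg_le_neg_iff]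
      exact Int.ediv_le_ediv hp0 (by omega)
    obtain ⟨M, hM⟩ : ∃ M : ℕ, s1 = s0 + M := ⟨(s1 - s0).toNat, by omega⟩
    have hsub : (W.filter fun a => (p : ℤ) ∣ a - a0).card =
        ((Finset.Ico s0 (s0 + M)).filter fun s => ∀ q ∈ S, ¬ (q : ℤ) ∣ Q * p * s + (Q * a0 + P)).card := by
      refine (Finset.card_bij (fun s _ => a0 + p * s) ?_ ?_ ?_).symm
      · intro s hs
        simp only [Finset.mem_filter, Finset.mem_Ico] at hs
        simp only [hW, hg, Finset.mem_filter, Finset.mem_Ico]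
        refine ⟨⟨⟨(key s).1.mp hs.1.1, (key s).2.mp (by omega)⟩, fun q hq h => hs.2 q hq ?_⟩,
          ⟨s, by ring⟩⟩
        rwa [show Q * p * s + (Q * a0 + P) = Q * (a0 + p * s) + P by ring]
      · intro s _ t _ h
        have : (p : ℤ) * s = p * t := by linarith
        exact mul_left_cancel₀ hp0.ne' this
      · intro a ha
        simp only [hW, hg, Finset.mem_filter, Finset.mem_Ico] at ha
        obtain ⟨⟨⟨h1, h2⟩, h3⟩, s, hs⟩ := ha
        have hs' : a = a0 + p * s := by linarith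
        refine ⟨s, ?_, hs'.symm⟩
        simp only [Finset.mem_filter, Finset.mem_Ico]
        refine ⟨⟨(key s).1.mpr (hs' ▸ h1), hM ▸ (key s).2.mpr (hs' ▸ h2)⟩, fun q hq h => h3 q hq ?_⟩
        rwa [show Q * a + P = Q * p * s + (Q * a0 + P) by rw [hs']; ring]
    have h1 := abs_le.mp (ih' Q P (fun q hq => hQ q (Finset.mem_insert_of_mem hq)) x L)
    have h2 := abs_le.mp (ih' (Q * p) (Q * a0 + P) hQ' s0 M)
    rw [← hsub] at h2
    have hc : ((((Finset.Ico x (x + L)).filter fun a => ∀ q ∈ insert p S, g a q).card : ℕ) : ℝ)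
        + ((W.filter fun a => (p : ℤ) ∣ a - a0).card : ℕ) = (W.card : ℕ) := by
      exact_mod_cast hsplit
    have hMb : |(M : ℝ) - L / p| ≤ 1 := by
      have e0 := Int.emod_add_mul_ediv (a0 - x) p
      have e1 := Int.emod_add_mul_ediv (a0 - x - L) p
      have b0 := Int.emod_nonneg (a0 - x) hp0.ne'
      have b1 := Int.emod_lt_of_pos (a0 - x) hp0
      have c0 := Int.emod_nonneg (a0 - x - L) hp0.ne'
      have c1 := Int.emod_lt_of_pos (a0 - x - L) hp0
      have hMe : (p : ℤ) * M = L + ((a0 - x - L) % p - (a0 - x) % p) := by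
        have : (M : ℤ) = s1 - s0 := by omega
        rw [this, hs0, hs1]; linarith
      have hpR : (0 : ℝ) < p := by exact_mod_cast hp.pos
      have i1 : (p : ℤ) * M ≤ L + p := by omega
      have i2 : (L : ℤ) ≤ p * M + p := by omega
      have r1 : (p : ℝ) * M ≤ L + p := by exact_mod_cast i1
      have r2 : (L : ℝ) ≤ p * M + p := by exact_mod_cast i2
      rw [abs_le, neg_le_sub_iff_le_add, sub_le_iff_le_add, div_le_iff₀ hpR]
      refine ⟨by nlinarith, ?_⟩
      rw [show 1 + (L : ℝ) / p = (p + L) / p by field_simp, le_div_iff₀ hpR]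
      nlinarith
    have hpr0 : 0 ≤ ∏ q ∈ S, (1 - 1 / (q : ℝ)) := Finset.prod_nonneg fun q hq => by
      have : (2 : ℝ) ≤ q := by exact_mod_cast (hS q (Finset.mem_insert_of_mem hq)).two_le
      rw [sub_nonneg, div_le_one (by linarith)]; linarith
    have hpr1 : ∏ q ∈ S, (1 - 1 / (q : ℝ)) ≤ 1 := Finset.prod_le_one
      (fun q hq => by
        have : (2 : ℝ) ≤ q := by exact_mod_cast (hS q (Finset.mem_insert_of_mem hq)).two_le
        rw [sub_nonneg, div_le_one (by linarith)]; linarith)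
      (fun q _ => by simp)
    have hMb' := abs_le.mp hMb
    rw [Finset.prod_insert hpS, Finset.card_insert_of_notMem hpS, pow_succ, abs_le]
    have hWc : (W.card : ℝ) =
        (((Finset.Ico x (x + L)).filter fun a => ∀ p ∈ S, ¬ (p : ℤ) ∣ Q * a + P).card : ℕ) := rfl
    rw [hWc] at hc
    simp only [hg] at hc
    set pr := ∏ q ∈ S, (1 - 1 / (q : ℝ)) with hpr
    have hm : |((M : ℝ) - L / p) * pr| ≤ 1 := by
      rw [abs_mul, abs_of_nonneg hpr0]; exact mul_le_one₀ hMb hpr0 hpr1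
    obtain ⟨hm1, hm2⟩ := abs_le.mp hm
    have e : (L : ℝ) * ((1 - 1 / (p : ℝ)) * pr) = L * pr - M * pr + ((M : ℝ) - L / p) * pr := by ring
    rw [e]
    constructor <;> linarith [h1.1, h1.2, h2.1, h2.2]

variable {γ : ℝ} {q : ℕ}

lemma approx_cop : IsCoprime (approx γ q).1 ((approx γ q).2 : ℤ) ∧ 0 < (approx γ q).2 := by
  unfold approx
  split_ifs with h
  · exact ⟨(Classical.choose_spec h).2.1, (Classical.choose_spec h).1⟩
  · exact ⟨isCoprime_one_left, Nat.one_pos⟩

/-- Below `q ^ (1/8)` only one fraction approximates `γ` within `q ^ (-1/5)`. -/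
lemma approx_eq (hq : 2 ^ 14 ≤ q) {P : ℤ} {Q : ℕ} (h : IsNear γ q (P, Q)) :
    approx γ q = (P, Q) := by
  have hex : ∃ PQ, IsNear γ q PQ := ⟨_, h⟩
  have hspec : IsNear γ q (approx γ q) := by
    rw [approx, dif_pos hex]; exact Classical.choose_spec hex
  obtain ⟨⟨P', Q'⟩, hPQ⟩ : ∃ PQ, approx γ q = PQ := ⟨_, rfl⟩
  rw [hPQ] at hspec ⊢
  obtain ⟨hQ, hc, h8, h5⟩ := h
  obtain ⟨hQ', hc', h8', h5'⟩ := hspec
  simp only at hQ hc h8 h5 hQ' hc' h8' h5'
  have hqR : (2 : ℝ) ^ 14 ≤ q := by exact_mod_cast hq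
  have small : ∀ (u : ℕ) (z : ℝ), u ^ 8 ≤ q → |z| ^ 5 * q < 1 → (u : ℝ) * |z| < 1 / 2 := by
    intro u z hu hz
    by_contra hcon
    have h2 : (1 / 2 : ℝ) ^ 40 ≤ ((u : ℝ) * |z|) ^ 40 :=
      pow_le_pow_left₀ (by norm_num) (not_lt.mp hcon) _
    have hu' : ((u : ℝ) ^ 8) ^ 5 ≤ (q : ℝ) ^ 5 :=
      pow_le_pow_left₀ (by positivity) (by exact_mod_cast hu) 5
    have hz' : (|z| ^ 5 * q) ^ 8 ≤ 1 := pow_le_one₀ (by positivity) hz.le
    have e : ((u : ℝ) * |z|) ^ 40 * q ^ 3 = (((u : ℝ) ^ 8) ^ 5 / q ^ 5) * (|z| ^ 5 * q) ^ 8 := by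
      field_simp
    have h3 : ((u : ℝ) * |z|) ^ 40 * q ^ 3 ≤ 1 := by
      rw [e]
      exact mul_le_one₀ (by rw [div_le_one (by positivity)]; exact hu') (by positivity) hz'
    have h4 : ((2 : ℝ) ^ 14) ^ 3 ≤ (q : ℝ) ^ 3 := pow_le_pow_left₀ (by norm_num) hqR 3
    nlinarith [mul_le_mul h2 h4 (by norm_num) (by positivity)]
  have k1 : P * (Q' : ℤ) = P' * Q := by
    have hb : |(((P * Q' - P' * Q : ℤ)) : ℝ)| < 1 := by
      have e : (((P * Q' - P' * Q : ℤ)) : ℝ) =
          (Q : ℝ) * ((Q' : ℝ) * γ - P') - (Q' : ℝ) * ((Q : ℝ) * γ - P) := by push_cast; ring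
      rw [e]
      refine (abs_sub _ _).trans_lt ?_
      rw [abs_mul, abs_mul, Nat.abs_cast, Nat.abs_cast]
      linarith [small Q _ h8 h5', small Q' _ h8' h5]
    have : |P * (Q' : ℤ) - P' * Q| < 1 := by exact_mod_cast hb
    rw [Int.abs_lt_one_iff] at this
    linarith
  have hQQ : Q' = Q := by
    refine Nat.dvd_antisymm ?_ ?_
    · exact Int.natCast_dvd_natCast.mp (hc'.symm.dvd_of_dvd_mul_left ⟨P, by linarith⟩)
    · exact Int.natCast_dvd_natCast.mp (hc.symm.dvd_of_dvd_mul_left ⟨P', by linarith⟩)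
  subst hQQ
  have : P = P' := mul_right_cancel₀ (by exact_mod_cast hQ.ne') k1
  rw [this]

lemma dens_factor {p : ℕ} (hp : p ∈ q.primeFactors) :
    0 < (1 - 1 / (p : ℝ)) ∧ (1 - 1 / (p : ℝ)) ≤ 1 := by
  have : (2 : ℝ) ≤ p := by exact_mod_cast (Nat.prime_of_mem_primeFactors hp).two_le
  exact ⟨by rw [sub_pos, div_lt_one (by linarith)]; linarith, by simp⟩

lemma dens_pos : 0 < dens γ q :=
  Finset.prod_pos fun _ hp => (dens_factor (Finset.mem_filter.mp hp).1).1

lemma dens_le_one : dens γ q ≤ 1 :=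
  Finset.prod_le_one (fun _ hp => (dens_factor (Finset.mem_filter.mp hp).1).1.le)
    fun _ hp => (dens_factor (Finset.mem_filter.mp hp).1).2

lemma totient_div_eq (hq : q ≠ 0) :
    (q.totient : ℝ) / q = ∏ p ∈ q.primeFactors, (1 - 1 / (p : ℝ)) := by
  have h : ((q.totient : ℚ)) = q * ∏ p ∈ q.primeFactors, (1 - (p : ℚ)⁻¹) :=
    Nat.totient_eq_mul_prod_factors q
  have h' : (q.totient : ℝ) = q * ∏ p ∈ q.primeFactors, (1 - (p : ℝ)⁻¹) := by
    have := congrArg (Rat.cast : ℚ → ℝ) h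
    simpa using this
  rw [h', mul_div_cancel_left₀ _ (by exact_mod_cast hq)]
  simp [one_div]

lemma totient_div_le_dens (hq : q ≠ 0) : (q.totient : ℝ) / q ≤ dens γ q := by
  rw [totient_div_eq hq]
  exact Finset.prod_le_prod_of_subset_of_le_one (Finset.filter_subset _ _)
    (fun p hp => (dens_factor hp).1.le) fun p hp _ => (dens_factor hp).2

lemma mu_nonneg {ψ : ℕ → ℝ} (hψ : 0 ≤ ψ q) : 0 ≤ mu γ ψ q :=
  mul_nonneg (by linarith) dens_pos.le

lemma psi_le_mu {ψ : ℕ → ℝ} (hq : q ≠ 0) (hψ : 0 ≤ ψ q) :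
    ψ q ≤ (q : ℝ) / q.totient * mu γ ψ q := by
  have hφ : (0 : ℝ) < q.totient := by exact_mod_cast Nat.totient_pos.mpr (Nat.pos_of_ne_zero hq)
  have hq0 : (0 : ℝ) < q := by exact_mod_cast Nat.pos_of_ne_zero hq
  have h := mul_le_mul_of_nonneg_left (totient_div_le_dens (γ := γ) hq) hψ
  rw [mul_div, div_le_iff₀ hq0] at h
  rw [mu, div_mul_eq_mul_div, le_div_iff₀ hφ]
  nlinarith [mul_nonneg (mul_nonneg hq0.le hψ) (dens_pos (γ := γ) (q := q)).le]

end Vale.Agent.P028.EV
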